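import Vale.Agent.P352Z.R.RES.Data

/-!
# P352Z, row ALG: the certificate is checked (the other identities)
-/

set_option linter.all false

namespace Vale.Agent.P352X.ZZ.RS.Alg

open Vale.Agent.P352X.RS.Alg

theorem ck_om : zt prC (ap (sc (-14400) pS) (ap (bd (sub fun a => [(1, [(a.1, a.2.castLE
    (by decide))])]) pP) (ap (lx 0 pM0) (ap (lx 1 pM1) (lx 2 pM2))))) = true := by decide +kernel

theorem ck_c3 : nl pXc [] := by unfold nl; decide +kernel

theorem ck_c1 : nl (rp r13 pXc) pZc := by unfold nl; decide +kernel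

theorem ck_b3 : nl pXb (asy pZ3) := by unfold nl; decide +kernel

theorem ck_b1 : nl (rp r13 pXb) (asy pZ1) := by unfold nl; decide +kernel

theorem ck_as : zt prG (ap pXb (rp (t9 0 1 6 3 4 5 2 7 8) pXb)) = true ∧
    zt prG (ap pXb (rp (t9 0 1 3 2 4 5 6 7 8) pXb)) = true := by decide +kernel

theorem ck_R : zt prG (nt (ap (sc 15 pPol) (ap (ap (dh 2 7 pXc) (dh 2 8 pXc))
    (ap (ap (dd 7 6 pXb) (dd 8 6 pXb)) (sc (-1) pR))))) = true := by decide +kernel

end Vale.Agent.P352X.ZZ.RS.Alg
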