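import Vale.Agent.P352Z.R.RES.CkA
import Vale.Agent.P352Z.R.RES.CkB

/-!
# P352Z, rows ALG.1 and ALG.2
-/

set_option linter.all false

namespace Vale.Agent.P352X.ZZ.RS.Alg

open Vale.Agent.P352 Vale.Agent.P352.GF
open Vale.Agent.P352X.RS (So wH)
open Vale.Agent.P352X.RS.Alg
open MvPolynomial (X C pderiv)

noncomputable section

theorem lin_va (j : Fin 9) : linP va j = X (j, 0) - X (j, 1) := by
  simp [linP, va, eta, o, Fin.sum_univ_four, sub_eq_add_neg]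

theorem lin_vb (j : Fin 9) : linP vb j = C (1 / 2) * (X (j, 0) + X (j, 1)) := by
  simp [linP, vb, eta, o, Fin.sum_univ_four, mul_add]

theorem deg_lin (a : V) (j : Fin 9) : Deg (w9 j) (linP a j) :=
  deg_sum _ fun m _ => deg_C _ (w9_eq j m ▸ deg_X (j, m))

theorem deg_Q0 : Deg 6 Q0 :=
  deg_mul (m := 2) (n := 4) (deg_add (deg_mul (deg_X (7, 2)) (deg_X (8, 2)) rfl)
    (deg_mul (deg_X (7, 3)) (deg_X (8, 3)) rfl))
    (MvPolynomial.IsWeightedHomogeneous.pow (deg_sub (deg_lin vb 7) (deg_lin vb 8)) 4) rfl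

theorem omH_a (j : Fin 9) : om wH (linP va j) = -linP va j := by
  rw [lin_va, ← omH_apply, map_sub]
  simp [omH_apply, om_X, wH, Fin.sum_univ_four]

theorem omH_b (j : Fin 9) : om wH (linP vb j) = linP vb j := by
  rw [lin_vb, om_C, ← omH_apply, map_add]
  simp [omH_apply, om_X, wH, Fin.sum_univ_four, add_comm]

theorem omH_Q : om wH Q0 = 4 * Q0 := by
  have h : om wH (linP vb 7 - linP vb 8) = linP vb 7 - linP vb 8 := by
    rw [← omH_apply, map_sub, omH_apply, omH_apply, omH_b, omH_b]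
  have h2 : ∀ j, om wH (X (j, 2)) = 0 ∧ om wH (X (j, 3)) = 0 := fun j => by
    simp [om_X, wH, Fin.sum_univ_four]
  have h3 : om wH (X (7, 2) * X (8, 2) + X (7, 3) * X (8, 3)) = 0 := by
    rw [← omH_apply, map_add]
    simp only [omH_apply, om_mul, h2, zero_mul, mul_zero, add_zero]
  rw [Q0]
  generalize linP vb 7 - linP vb 8 = Y at h ⊢
  rw [show Y ^ 4 = Y * Y * Y * Y by ring]
  simp only [om_mul, h, h3]
  ring

theorem alg1_row : ALG1 := by
  refine ⟨deg_mul (m := 0) (deg_mul (m := 0) (deg_mul (m := 0) (deg_mul (deg_lin va 0)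
    (deg_lin va 2) rfl) (deg_lin va 3) rfl) (deg_lin va 4) rfl) deg_Q0 rfl, so_H, ?_⟩
  simp only [S00, om_mul, omH_a, omH_Q]
  ring

/-- polarisation -/
def Pol (S : P9) : P9 := Dh 5 8 (Dh 1 7 (Dh 0 6 (Dh 2 6 (Dh 3 6 (Dh 4 6 S)))))

theorem Pol_add (S T : P9) : Pol (S + T) = Pol S + Pol T := by simp only [Pol, map_add]

theorem Pol_C (a : ℂ) (S : P9) : Pol (C a * S) = C a * Pol S := by simp only [Pol, Dh_C]

theorem Pol_om (w : Ix → V) (S : P9) : Pol (om w S) = om w (Pol S) := by simp only [Pol, om_Dh]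

theorem deg_Pol {S : P9} (h : Deg 6 S) : Deg 4 (Pol S) :=
  deg_Dh (by decide) (by decide) (deg_Dh (by decide) (by decide) (deg_Dh0 (by decide) (by decide)
    (deg_Dh0 (by decide) (by decide) (deg_Dh0 (by decide) (by decide)
      (deg_Dh0 (by decide) (by decide) h)))))

theorem Dh_lin (w x j : Fin 9) : Dh w x (linP va j) = if j = x then linP va w else 0 := by
  simp only [lin_va, map_sub, Dh_apply, pd_X]
  split_ifs with h <;> simp [h]

theorem Dh_Q (w : Fin 9) : Dh w 6 Q0 = 0 := by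
  simp [Q0, lin_vb, Dh_apply, pd_X, Derivation.leibniz_pow]

theorem Pol_S : Pol (linP va 6 ^ 4 * Q0) = C 24 * S0 := by
  have : Dh 0 6 (Dh 2 6 (Dh 3 6 (Dh 4 6 (linP va 6 ^ 4 * Q0)))) = C 24 * S00 := by
    rw [show linP va 6 ^ 4 = linP va 6 * linP va 6 * linP va 6 * linP va 6 by ring, S00,
      show (C 24 : P9) = 24 from rfl]
    simp only [Dh_mul, map_add, Dh_lin, Dh_Q, map_zero, Fin.reduceEq, if_true, if_false, mul_zero,
      zero_mul, add_zero, zero_add]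
    ring
  rw [Pol, this, Dh_C, Dh_C, S0]

theorem ev_pS : evl gM pS = linP va 6 ^ 4 * Q0 := by
  have h1 := perp 1 1
  have h2 := perp 1 2
  have v1 : ∀ m, vc 1 m = X (7, m) := fun m => by simp [vc, vt, t3, lin]
  have v2 : ∀ m, vc 2 m = X (7, m) - X (8, m) := fun m => by
    change lin [(1, 7), (-1, 8)] m = _
    simp [lin, sub_eq_add_neg]
  have a : cA 0 = linP va 6 := by simp [cA, vc, vt, t3, lin, lin_va]
  have b : cB 2 = linP vb 7 - linP vb 8 := by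
    simp only [cB, v2, lin_vb]
    ring
  have c : X (7, 2) * X (8, 2) + X (7, 3) * X (8, 3) =
      vc 1 2 * vc 1 2 + vc 1 3 * vc 1 3 - (vc 1 2 * vc 2 2 + vc 1 3 * vc 2 3) := by
    simp only [v1, v2]
    ring
  rw [Q0, c, h1, h2, ← a, ← b]
  simp only [pS, ev_cons, ev_nil, mo_cons, mo_nil, gM, c03, c11, c12, c13, c14, c23, c24,
    Matrix.cons_val]
  push_cast
  ring

theorem nl_ev {p z : Po GV} (h : nl p z) : Nl 5 (evl gG p) := by
  refine ⟨evl gG (os p z), evl gG z, degG _ _ h.1, degG _ _ h.2.1, ?_, ?_, ?_⟩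
  · rw [ev_dd, ztG _ h.2.2.1]
  · rw [ev_dd, ev_dd, ztG _ h.2.2.2]
  · rw [os, evl, evl, ev_ap, ev_sc, ← evl, ← evl, ← ev_dh]
    push_cast
    ring

theorem nl_pair {p z z' : Po GV} (h : nl p z) (h' : nl (rp r13 p) z') :
    Nl 5 (s12 (evl gG p)) ∧ Nl 5 (s23 (s12 (evl gG p))) :=
  ⟨(nl_ev h).s12, by
    rw [s23_eq, s12_s12, s13_eq, ev_rp]
    exact (nl_ev h').s12⟩

theorem ok_b : Ok false (s12 (evl gG pXb)) := by
  have h1 : tw.comp s12 = s12.comp (rn (t9 0 1 6 3 4 5 2 7 8)) := by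
    rw [show (t9 0 1 6 3 4 5 2 7 8 : Fin 9 → Fin 9) = ![0, 1, 6, 3, 4, 5, 2, 7, 8] by decide]
    refine MvPolynomial.algHom_ext fun ⟨j, m⟩ => ?_
    fin_cases j <;> simp [s12, tw, rn]
  have h2 : th.comp s12 = s12.comp (rn (t9 0 1 3 2 4 5 6 7 8)) := by
    rw [show (t9 0 1 3 2 4 5 6 7 8 : Fin 9 → Fin 9) = ![0, 1, 3, 2, 4, 5, 6, 7, 8] by decide]
    refine MvPolynomial.algHom_ext fun ⟨j, m⟩ => ?_
    fin_cases j <;> simp [s12, th, rn]
  have k1 := ztG _ ck_as.1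
  have k2 := ztG _ ck_as.2
  rw [evl, ev_ap, ← evl, ← evl, ← ev_rp, add_comm, add_eq_zero_iff_eq_neg] at k1 k2
  exact ⟨(AlgHom.congr_fun h1 _).trans (by rw [AlgHom.comp_apply, k1, map_neg]),
    (AlgHom.congr_fun h2 _).trans (by rw [AlgHom.comp_apply, k2, map_neg])⟩

theorem d1_c (S : P9) : s12 (d1 true (s12 S)) = -(Dh 2 7 S + Dh 2 8 S) := by
  have x : ∀ m, s12 (X (0, m)) = X (2, m) := fun m => by simp [s12]
  simp only [d1, Fm, sum_pd_X (show (0 : Fin 9) ≠ 7 by decide), Dh_apply, p7_s12, map_sum, map_mul,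
    s12_s12, x, ← Finset.sum_add_distrib, ← Finset.sum_neg_distrib]
  exact Finset.sum_congr rfl fun m _ => by ring

theorem d1_b (S : P9) : s12 (d1 false (s12 S)) = -(DD 7 6 S + DD 8 6 S) := by
  simp only [d1, Fm, MvPolynomial.pderiv_C_mul, pd_s12 (j := 6) (k := 6) (by decide) rfl, DD_apply,
    p7_s12, map_sum, map_mul, s12_s12, hom_C, ← Finset.sum_add_distrib, ← Finset.sum_neg_distrib]
  exact Finset.sum_congr rfl fun m _ => by ring

theorem alg2_row : ALG2 := by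
  obtain ⟨g1, g2, g3, g4⟩ := ck_deg
  have dM : ∀ m, Deg 6 (vc 0 m * evl gM pM0 + vc 1 m * evl gM pM1 + vc 2 m * evl gM pM2) :=
    fun m => deg_add (deg_add (deg_mul (deg_vc 0 m) (degC _ _ g2) rfl)
      (deg_mul (deg_vc 1 m) (degC _ _ g3) rfl)) (deg_mul (deg_vc 2 m) (degC _ _ g4) rfl)
  obtain ⟨A, B, A', h2⟩ := tr_zt _ ck_R
  have h1 := ztC _ ck_om
  simp only [ev_ap, ev_sc, ← ev_lx, ← ev_M, ev_pS] at h1
  simp only [ev_ap, ev_sc, pPol, ← ev_dh, ← ev_dd, ev_nm, ← ev_G] at h2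
  have h3 : C 14400 * (linP va 6 ^ 4 * Q0) = evl cG pP +
      om wA (vc 0 2 * evl gM pM0 + vc 1 2 * evl gM pM1 + vc 2 2 * evl gM pM2) +
      om wB (vc 0 3 * evl gM pM0 + vc 1 3 * evl gM pM1 + vc 2 3 * evl gM pM2) := by
    rw [← omH_apply, ← omH_apply, map_add, map_add, map_add, map_add,
      show (C 14400 : P9) = 14400 from rfl]
    simp only [omH_apply]
    push_cast at h1
    linear_combination -h1
  have h4 := congrArg Pol h3
  rw [Pol_C, Pol_S, Pol_add, Pol_add, Pol_om, Pol_om] at h4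
  refine ⟨5184000, ![wA, wB],
    ![C 15 * Pol (vc 0 2 * evl gM pM0 + vc 1 2 * evl gM pM1 + vc 2 2 * evl gM pM2),
      C 15 * Pol (vc 0 3 * evl gM pM0 + vc 1 3 * evl gM pM1 + vc 2 3 * evl gM pM2)],
    fun e => s12 (evl gG (Bool.rec pXb pXc e)), evl gG pR, A, B, A', by norm_num, fun i => ?_,
    fun e => ?_, degG _ _ g1, by rw [ev_sy, ztG _ ck_sy], ?_⟩
  · fin_cases i
    exacts [⟨so_A, deg_C _ (deg_Pol (dM 2))⟩, ⟨so_B, deg_C _ (deg_Pol (dM 3))⟩]
  · cases e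
    exacts [⟨ok_b, nl_pair ck_b3 ck_b1⟩, ⟨trivial, nl_pair ck_c3 ck_c1⟩]
  · simp only [Matrix.cons_val_zero, Matrix.cons_val_one, om_C, d1_c, d1_b]
    rw [← h2, show (C 5184000 : P9) = 5184000 from rfl, show (C 15 : P9) = 15 from rfl]
    rw [show (C 14400 : P9) = 14400 from rfl, show (C 24 : P9) = 24 from rfl, Pol] at h4
    push_cast
    linear_combination 15 * h4

end

end Vale.Agent.P352X.ZZ.RS.Alg
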