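import Vale.Agent.P352Z.R.RES.Cal
import Vale.Agent.P352X.R.RES.CocB

/-!
# P352Z, row RES.coc: the residue of the source vanishes
-/

set_option linter.all false

open Filter Topology
open scoped ContDiff
open MvPolynomial (X C pderiv aeval)

namespace Vale.Agent.P352X.ZZ.RS

open Vale.Agent.P352 Vale.Agent.P352.GF Vale.Agent.P352.H755
open Vale.Agent.P352X.RS (So wH Ef Xf)
open Vale.Agent.P352X.RS.Coc

noncomputable section

variable {Λ : (V × V → ℂ) → P9 → ℂ} {φ ψ Θ Θ' : V × V → ℂ} {κ : ℂ} {k : ℕ}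

theorem lam_addS (R : RD k Λ) (h : Dc φ) (S T : P9) : Λ φ (S + T) = Λ φ S + Λ φ T := by
  simpa using R.linS φ 1 S T h

theorem lam_zeroS (R : RD k Λ) (h : Dc φ) : Λ φ 0 = 0 := by
  have h1 := lam_addS R h 0 0
  rw [add_zero] at h1
  linear_combination -h1

theorem lam_CS (R : RD k Λ) (h : Dc φ) (a : ℂ) (S : P9) : Λ φ (C a * S) = a * Λ φ S := by
  simpa [lam_zeroS R h] using R.linS φ a 0 S h

theorem lam_sumS (R : RD k Λ) (h : Dc φ) {ι : Type*} (s : Finset ι) (S : ι → P9) :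
    Λ φ (∑ i ∈ s, S i) = ∑ i ∈ s, Λ φ (S i) := by
  classical
  induction s using Finset.induction_on with
  | empty => simpa using lam_zeroS R h
  | insert i s hi ih => rw [Finset.sum_insert hi, Finset.sum_insert hi, lam_addS R h, ih]

theorem lam_zero (R : RD k Λ) (S : P9) : Λ (fun _ => 0) S = 0 := by
  simpa using R.lin _ _ (-1) S dc_zero dc_zero

theorem lam_sum (R : RD k Λ) {ι : Type*} (s : Finset ι) (a : ι → ℂ) {f : ι → V × V → ℂ}
    (h : ∀ i, Dc (f i)) (S : P9) : Dc (fun z => ∑ i ∈ s, a i * f i z) ∧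
      Λ (fun z => ∑ i ∈ s, a i * f i z) S = ∑ i ∈ s, a i * Λ (f i) S := by
  classical
  induction s using Finset.induction_on with
  | empty => simpa using ⟨dc_zero, lam_zero R S⟩
  | insert i s hi ih =>
    simp only [Finset.sum_insert hi, add_comm (a i * _)]
    exact ⟨dc_lin ih.1 _ (h i), by rw [R.lin _ _ _ _ ih.1 (h i), ih.2]⟩

theorem not_mem {x : V × V} (h : ∀ᶠ z in 𝓝 x, φ z = 0) : x ∉ tsupport φ :=
  notMem_tsupport_iff_eventuallyEq.2 h

theorem dc_dz (h : Dc φ) (a : V × V) : Dc (dz a φ) := dc_fderiv h contDiff_const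

theorem dz_E (h : Dc φ) (a : V × V) : dz a (Ef φ) = fun x => Ef (dz a φ) x + 1 * dz a φ x :=
  Ef_const h a

theorem dv_lin (R : RD k Λ) (h : Dc φ) (a : ℂ) (h' : Dc ψ) (x e) (F : Ix → P9) :
    Dv x e Λ (fun z => φ z + a * ψ z) F = Dv x e Λ φ F + a * Dv x e Λ ψ F := by
  have h2 : ∀ m, (dz (e m) fun z => φ z + a * ψ z) = fun z => dz (e m) φ z + a * dz (e m) ψ z :=
    fun m => funext fun z => fderiv_lin h a h' z _
  simp only [Dv, h2, R.lin _ _ _ _ h h', R.lin _ _ _ _ (dc_dz h _) (dc_dz h' _), Finset.mul_sum,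
    ← Finset.sum_add_distrib]
  exact Finset.sum_congr rfl fun m _ => by ring

/-- the derivatives of the cutoff do not contribute to the residue -/
theorem dv_res (R : RD k Λ) (h : Dc Θ) (h1 : ∀ᶠ z in 𝓝 (0 : V × V), Θ z = κ) (x e) {F : Ix → P9}
    (hF : ∀ m, Deg (k + 1) (F m)) :
    Dv x e Λ (Ef Θ) F = Λ (Ef Θ) (∑ m, pderiv (x, m) (F m)) := by
  rw [lam_sumS R (dc_Ef h)]
  refine Finset.sum_congr rfl fun m _ => ?_
  rw [dz_E h, R.lin _ _ _ _ (dc_Ef (dc_dz h _)) (dc_dz h _),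
    R.hom _ _ _ (dc_dz h _) (not_mem (fderiv_ev h1 _)) (hF m)]
  push_cast
  ring

/-- the gradient is again linear, homogeneous and invariant -/
theorem RD.gr (R : RD k Λ) {j x : Fin 9} {e : Ix → V × V} (hj : ¬ 7 ≤ j) (hx : 7 ≤ x)
    (he : ∀ w m, AX w (e m) = ∑ n, w m n • e n) : RD (k + 1) (Gr j x e Λ) := by
  have jx : j ≠ x := fun h => hj (h ▸ hx)
  have g : ∀ φ S, Dc φ → Gr j x e Λ φ S = Λ φ (Dh j x S) + ∑ m, Λ (dz (e m) φ) (X (j, m) * S) :=
    fun φ S h => by rw [Gr, Dv, Finset.sum_add_distrib, ← lam_sumS R h, sum_pd_X jx]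
  refine ⟨fun φ ψ a S h h' => dv_lin R h a h' _ _ _, fun φ a S S' h => ?_, fun φ n S h h0 hS => ?_,
    fun w φ S hw h => ?_⟩
  · simp only [g _ _ h, map_add, Dh_C, mul_add, mul_left_comm (X _) (C a), R.linS _ _ _ _ h,
      R.linS _ _ _ _ (dc_dz h _), Finset.sum_add_distrib, Finset.mul_sum]
    ring
  · have k1 : Λ (Ef φ) (Dh j x S) = (k + 1 - n : ℂ) * Λ φ (Dh j x S) := by
      cases n with
      | zero =>
        have : Dh j x S = 0 := (Dh_apply j x S).trans (Finset.sum_eq_zero fun m _ => by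
          rw [pd_deg0 hS (by simp [wt, hx]), mul_zero])
        rw [this, lam_zeroS R h, lam_zeroS R (dc_Ef h), mul_zero]
      | succ n =>
        rw [R.hom _ n _ h h0 (deg_Dh hj hx hS)]
        push_cast
        ring
    rw [g _ _ h, g _ _ (dc_Ef h), k1, mul_add, Finset.mul_sum]
    push_cast
    congr 1
    refine Finset.sum_congr rfl fun m _ => ?_
    rw [dz_E h, R.lin _ _ _ _ (dc_Ef (dc_dz h _)) (dc_dz h _), R.hom _ _ _ (dc_dz h _)
      (fun k => h0 (tsupport_fderiv_subset ℝ ((tsupport_comp_subset (g := fun L : V × V →L[ℝ] ℂ =>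
        L (e m)) rfl _) k))) (deg_Xm hj m hS)]
    ring
  · have hX : ∀ {φ : V × V → ℂ}, Dc φ → Dc (Xf w φ) := fun h => dc_fderiv h (AX w).contDiff
    have k1 : ∀ m, dz (e m) (Xf w φ) = fun z => Xf w (dz (e m) φ) z +
        1 * ∑ n, (w m n : ℂ) * dz (e n) φ z := fun m => funext fun z => by
      have a := fderiv_vf h (AX w) 0 z (e m)
      have b := fderiv_vf h 0 (e m) z (AX w z)
      simp only [add_zero, zero_add, ContinuousLinearMap.zero_apply, map_zero] at a b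
      refine a.trans ?_
      rw [snd_symm h, ← b, he, map_sum, one_mul]
      simp only [map_smul, Complex.real_smul]
      rfl
    have k2 := fun m => R.inv w _ (X (j, m) * S) hw (dc_dz h (e m))
    have k3 := fun m => lam_sum R Finset.univ (fun n => (w m n : ℂ)) (fun n => dc_dz h (e n))
      (X (j, m) * S)
    simp only [om_mul, om_X, Finset.sum_mul, mul_assoc, lam_addS R (dc_dz h _),
      lam_sumS R (dc_dz h _), lam_CS R (dc_dz h _)] at k2
    have k4 := Finset.sum_eq_zero (s := Finset.univ) fun m _ => k2 m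
    have k5 := R.inv w φ (Dh j x S) hw h
    rw [g _ _ h, g _ _ (hX h), ← om_Dh]
    simp only [k1, R.lin _ _ _ _ (hX (dc_dz h _)) (k3 _).1, (k3 _).2]
    simp only [one_mul, Finset.sum_add_distrib] at k4 ⊢
    rw [Finset.sum_comm (f := fun m n => (w n m : ℂ) * _)] at k4
    linear_combination k4 + k5

theorem ax_u (w : Ix → V) (m : Ix) : AX w (eu m) = ∑ n, w m n • eu n := by
  ext n <;> simp [AX, eu, sim, bas, Prod.fst_sum, Prod.snd_sum]

theorem ax_v (w : Ix → V) (m : Ix) : AX w (ew m) = ∑ n, w m n • ew n := by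
  ext n <;> simp [AX, ew, sim, bas, Prod.fst_sum, Prod.snd_sum]

/-- the residue vanishes on functions that vanish near the origin -/
theorem res_zero (R : RD k Λ) (h : Dc φ) (h0 : ∀ᶠ z in 𝓝 (0 : V × V), φ z = 0) {S : P9}
    (hS : Deg k S) : Λ (Ef φ) S = 0 := by
  rw [R.hom φ k S h (not_mem h0) hS, sub_self, zero_mul]

/-- the residue does not depend on the cutoff -/
theorem res_ind (R : RD k Λ) (h : Dc Θ) (h' : Dc Θ') (h0 : ∀ᶠ z in 𝓝 (0 : V × V), Θ z = κ)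
    (h1 : ∀ᶠ z in 𝓝 (0 : V × V), Θ' z = 1) {S : P9} (hS : Deg k S) :
    Λ (Ef Θ) S = κ * Λ (Ef Θ') S := by
  have h2 := res_zero R (dc_lin h (-κ) h') (by
    filter_upwards [h0, h1] with z a b
    rw [a, b]
    ring) hS
  rw [Ef_lin h _ h', R.lin _ _ _ _ (dc_Ef h) (dc_Ef h')] at h2
  linear_combination h2

theorem res_s12 (R : RD0 Λ) (h : Dc Θ) (h1 : ∀ᶠ z in 𝓝 (0 : V × V), Θ z = 1) {S : P9}
    (hS : Deg 4 S) : Λ (Ef Θ) (s12 S) = Λ (Ef Θ) S := by
  have h2 := res_ind R.toRD (dc_comp h σ12 σ12_inv) h (ev_comp h1 σ12) h1 (deg_s12 hS)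
  rw [Ef_comp (dc_diff h), one_mul] at h2
  rw [← h2]
  exact R.s12 _ S (dc_Ef h)

theorem res_s13 (R : RD0 Λ) (h : Dc Θ) (h1 : ∀ᶠ z in 𝓝 (0 : V × V), Θ z = 1) {S : P9}
    (hS : Deg 4 S) : Λ (Ef Θ) (s13 S) = Λ (Ef Θ) S := by
  have h2 := res_ind R.toRD (dc_comp h σ13 σ13_inv) h (ev_comp h1 σ13) h1 (deg_s13 hS)
  rw [Ef_comp (dc_diff h), one_mul] at h2
  rw [← h2]
  exact R.s13 _ S (dc_Ef h)

theorem res_sym (R : RD0 Λ) (h : Dc Θ) (h1 : ∀ᶠ z in 𝓝 (0 : V × V), Θ z = 1) {S : P9}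
    (hS : Deg 4 S) : Λ (Ef Θ) (sym6 S) = 6 * Λ (Ef Θ) S := by
  have hE := dc_Ef h
  unfold sym6
  simp only [lam_addS R.toRD hE]
  rw [res_s12 R h h1 (deg_s13 (deg_s12 hS)), res_s13 R h h1 (deg_s12 hS),
    res_s12 R h h1 (deg_s13 hS), res_s12 R h h1 hS, res_s13 R h h1 hS]
  ring

theorem res_om (R : RD k Λ) (h : Dc Θ) (h1 : ∀ᶠ z in 𝓝 (0 : V × V), Θ z = 1) {w : Ix → V}
    (hw : So w) {S : P9} (hS : Deg k S) : Λ (Ef Θ) (om w S) = 0 := by
  have h2 := R.inv w (Ef Θ) S hw (dc_Ef h)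
  have h3 := res_zero R (dc_fderiv h (AX w).contDiff) (fderiv_ev h1 _) hS
  rw [Ef_vf h] at h3
  rw [Xf_eq, h3, zero_add] at h2
  exact h2

theorem lam_tr (R : RD0 Λ) (h : Dc φ) (A B A' : P9) :
    Λ φ (dotP 0 1 * A + dotP 2 3 * B + dotP 4 5 * A') = 0 := by
  rw [lam_addS R.toRD h, lam_addS R.toRD h, R.trc _ _ h, ← R.s12 _ _ h, ← R.s13 _ (_ * A') h,
    map_mul, map_mul, s12_dot, s13_dot, zero_add]
  exact (congrArg₂ _ (R.trc _ _ (dc_comp h σ12 σ12_inv))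
    (R.trc _ _ (dc_comp h σ13 σ13_inv))).trans (add_zero _)

theorem lam_s23 (R : RD0 Λ) (h : Dc φ) (S : P9) : Λ (fun z => φ (σ23 z)) (s23 S) = Λ φ S := by
  have h1 := dc_comp h σ12 σ12_inv
  have h2 := dc_comp h1 σ13 σ13_inv
  have e1 := R.s12 φ S h
  have e2 := R.s13 _ (s12 S) h1
  have e3 := R.s12 _ (s13 (s12 S)) h2
  rw [s23_eq, ← e1]
  refine Eq.trans ?_ e2
  refine Eq.trans ?_ e3
  congr 1
  funext z
  rw [← σ23_eq]
  rfl

theorem div_s23 (R : RD0 Λ) (h : Dc φ) (e : Bool) (Ξ : P9) :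
    Div e Λ (fun z => φ (σ23 z)) (s23 Ξ) = Div e Λ φ Ξ := by
  unfold Div Dv
  refine Finset.sum_congr rfl fun m _ => ?_
  have h2 : (dz (eu m) fun z => φ (σ23 z)) = fun z => dz (eu m) φ (σ23 z) := by
    funext z
    unfold dz
    rw [fderiv_comp_clm (dc_diff h)]
    simp [σ23_apply, eu]
  rw [h2, Fm_s23, pd_s23 (.inr rfl), lam_s23 R h, lam_s23 R (dc_dz h _)]

/-- a cutoff on which the divergences vanish -/
theorem exists_div (R : RD0 Λ) (hC : DIVC Λ) (hA : DIVA Λ) : ∃ Θ : V × V → ℂ, Dc Θ ∧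
    (∀ᶠ z in 𝓝 (0 : V × V), Θ z = 1) ∧ ∀ e Ξ, Ok e Ξ → Nl 5 Ξ → Nl 5 (s23 Ξ) →
      Div e Λ (Ef Θ) Ξ = 0 := by
  obtain ⟨θ, hθ, hθ1, hθ0, -⟩ := exists_cut 1 one_pos
  obtain ⟨th, hth, hth1, -, -⟩ := exists_cut 4 (by norm_num)
  obtain ⟨ε1, hε1, hA1⟩ := hA θ hθ
  obtain ⟨ε2, hε2, hA2⟩ := hA _ (cut_neg hθ)
  obtain ⟨r, hr⟩ : ∃ r : ℝ, r = min (min ε1 ε2) 1 / 4 := ⟨_, rfl⟩
  have hr0 : 0 < r := by
    rw [hr]
    positivity
  have hr1 : 4 * r ≤ ε1 := by
    have := (min_le_left (min ε1 ε2) 1).trans (min_le_left ε1 ε2)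
    linarith
  have hr2 : 4 * r ≤ ε2 := by
    have := (min_le_left (min ε1 ε2) 1).trans (min_le_right ε1 ε2)
    linarith
  have hr3 : 4 * r ≤ 1 := by
    have := min_le_right (min ε1 ε2) 1
    linarith
  obtain ⟨χ, hχ, hχ1, hχ0, hχs⟩ := exists_cut r hr0
  have dθ : Dc (cx θ) := dc_cx hθ.1
  have dθ' : Dc (cx fun x => θ (-x)) := dc_cx (cut_neg hθ).1
  have dχ : Dc (cx χ) := dc_cx hχ.1
  have dΘ : Dc fun z : V × V => cx th z.1 * cx θ z.2 := dc_tens (dc_cx hth.1) dθ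
  have d1' : Dc fun z : V × V => (χ z.1 : ℂ) * Ef (cx θ) z.2 := dc_tens dχ (dc_Ef dθ)
  have d2' : Dc fun z : V × V => (χ z.1 : ℂ) * Ef (cx fun x => θ (-x)) z.2 :=
    dc_tens dχ (dc_Ef dθ')
  have d3' := dc_comp d2' σ23 σ23_inv
  have hneg : ∀ v : V, Ef (cx fun x => θ (-x)) (-v) = Ef (cx θ) v := by
    intro v
    have h1 := congrFun (Ef_comp (dc_diff dθ) (-ContinuousLinearMap.id ℝ V)) (-v)
    simp only [ContinuousLinearMap.neg_apply, ContinuousLinearMap.id_apply, neg_neg] at h1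
    exact h1
  have hopen : ∀ (f : V × V → ℝ) (a : ℝ) (x : V × V), Continuous f → f x < a →
      ∀ᶠ z in 𝓝 x, f z < a := fun f a x hf hx => hf.continuousAt.eventually_lt_const hx
  have hopen' : ∀ (f : V × V → ℝ) (a : ℝ) (x : V × V), Continuous f → a < f x →
      ∀ᶠ z in 𝓝 x, a < f z := fun f a x hf hx => hf.continuousAt.eventually_const_lt hx
  have hE1 : ∀ v : V, ‖v‖ < 1 → Ef (cx θ) v = 0 := by
    intro v hv
    have h1 : ∀ᶠ y in 𝓝 v, cx θ y = 1 := by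
      filter_upwards [continuous_norm.continuousAt.eventually_lt_const hv] with y hy
      simp [cx, hθ1 y hy]
    exact (fderiv_ev h1 id).self_of_nhds
  have hE0 : ∀ v : V, 2 * 1 < ‖v‖ → Ef (cx θ) v = 0 := by
    intro v hv
    have h1 : ∀ᶠ y in 𝓝 v, cx θ y = 0 := by
      filter_upwards [continuous_norm.continuousAt.eventually_const_lt hv] with y hy
      simp [cx, hθ0 y hy]
    exact (fderiv_ev h1 id).self_of_nhds
  have hEa : ∀ x : V × V, ‖x.1‖ < 4 →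
      Ef (fun z : V × V => cx th z.1 * cx θ z.2) x = Ef (cx θ) x.2 := by
    intro x hx
    have h1 : ∀ᶠ z in 𝓝 x, cx th z.1 * cx θ z.2 = cx θ (ContinuousLinearMap.snd ℝ V V z) := by
      filter_upwards [hopen (fun z => ‖z.1‖) 4 x (by fun_prop) hx] with z hz
      simp [cx, hth1 _ hz]
    rw [(Ef_congr h1).self_of_nhds, Ef_comp (dc_diff dθ)]
    rfl
  have hEb : ∀ x : V × V, 2 * 1 < ‖x.2‖ →
      Ef (fun z : V × V => cx th z.1 * cx θ z.2) x = 0 := by
    intro x hx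
    have h1 : ∀ᶠ z in 𝓝 x, cx th z.1 * cx θ z.2 = 0 := by
      filter_upwards [hopen' (fun z => ‖z.2‖) _ x (by fun_prop) hx] with z hz
      simp [cx, hθ0 _ hz]
    exact (fderiv_ev h1 id).self_of_nhds
  refine ⟨_, dΘ, ?_, fun e Ξ ok n3 n2 => ?_⟩
  · filter_upwards [hopen (fun z => ‖z.1‖) 4 0 (by fun_prop) (by simp),
      hopen (fun z => ‖z.2‖) 1 0 (by fun_prop) (by simp)] with z h1 h2
    simp [cx, hth1 _ h1, hθ1 _ h2]
  have k1 := hA1 χ hχ (hχs.trans (Metric.closedBall_subset_ball (by linarith))) e Ξ ok n3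
  have k2 := hA2 χ hχ (hχs.trans (Metric.closedBall_subset_ball (by linarith))) e _ ok.s23 n2
  rw [← div_s23 R d2', s23_s23] at k2
  have k3 := hC e _ Ξ ok (dc_lin (dc_lin (dc_Ef dΘ) (-1) d1') (-1) d3') (by
    intro x hx
    by_contra hcon
    refine not_mem ?_ hx
    simp only [σ23_apply, hneg]
    simp only [Set.mem_setOf_eq, not_and_or, not_not] at hcon
    rcases hcon with h0 | h0
    · rcases lt_or_ge ‖x.2‖ 1 with hv | hv
      · filter_upwards [hopen (fun z => ‖z.1‖) 4 x (by fun_prop) (by simp [h0]),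
          hopen (fun z => ‖z.2‖) 1 x (by fun_prop) hv] with z h1 h2
        rw [hEa z h1, hE1 _ h2]
        ring
      · filter_upwards [hopen (fun z => ‖z.1‖) r x (by fun_prop) (by simp [h0, hr0]),
          hopen' (fun z => ‖z.1 - z.2‖) (2 * r) x (by fun_prop) (by
            simp only [h0, zero_sub, norm_neg]
            linarith)] with z h1 h2
        rw [hEa z (by linarith), hχ1 _ h1, hχ0 _ h2]
        push_cast
        ring
    · rcases lt_or_ge ‖x.2‖ 1 with hv | hv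
      · filter_upwards [hopen (fun z => ‖z.1‖) 4 x (by fun_prop) (by
            simp only [h0]
            linarith), hopen (fun z => ‖z.2‖) 1 x (by fun_prop) hv] with z h1 h2
        rw [hEa z h1, hE1 _ h2]
        ring
      · rcases lt_or_ge ‖x.2‖ 4 with hv' | hv'
        · filter_upwards [hopen (fun z => ‖z.1‖) 4 x (by fun_prop) (by simp only [h0, hv']),
            hopen' (fun z => ‖z.1‖) (2 * r) x (by fun_prop) (by
              simp only [h0]
              linarith),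
            hopen (fun z => ‖z.1 - z.2‖) r x (by fun_prop) (by simp [h0, hr0])] with z h1 h2 h3
          rw [hEa z h1, hχ0 _ h2, hχ1 _ h3]
          push_cast
          ring
        · filter_upwards [hopen' (fun z => ‖z.2‖) (2 * 1) x (by fun_prop) (by
            show 2 * 1 < ‖x.2‖
            linarith)] with z h1
          rw [hEb z h1, hE0 _ h1]
          ring)
  unfold Div at k1 k2 k3 ⊢
  rw [dv_lin R.toRD (dc_lin (dc_Ef dΘ) (-1) d1') _ d3', dv_lin R.toRD (dc_Ef dΘ) _ d1', k1,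
    k2] at k3
  linear_combination k3

/-- **row RES.coc** -/
theorem coc_row (R : RD0 Λ) (hC : DIVC Λ) (hA : DIVA Λ) (a1 : ALG1) (a2 : ALG2) : RZ Λ := by
  obtain ⟨g0, hH, h0⟩ := a1
  obtain ⟨N, w, S, Ξ, P, A, B, A', hN, hw, hΞ, gP, hs, he⟩ := a2
  intro Θ κ hΘ hκ
  obtain ⟨Θ1, d1', h1, hdiv⟩ := exists_div R hC hA
  have hE := dc_Ef d1'
  have g5 : Deg 5 (Dh 1 7 S00) := deg_Dh (by decide) (by decide) g0
  have k0 : ∀ e, Λ (Ef Θ1) (s12 (d1 e (Ξ e))) = 0 := fun e => by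
    rw [res_s12 R d1' h1 (deg_d1 e (hΞ e).2.1.deg), d1,
      ← dv_res R.toRD d1' h1 7 eu fun m => deg_Fm e m (hΞ e).2.1.deg]
    exact hdiv e _ (hΞ e).1 (hΞ e).2.1 (hΞ e).2.2
  have k1 := res_sym R d1' h1 gP
  have k2 := congrArg (Λ (Ef Θ1)) he
  rw [hs, lam_zeroS R.toRD hE] at k1
  rw [lam_CS R.toRD hE, lam_addS R.toRD hE, lam_tr R hE] at k2
  simp only [lam_addS R.toRD hE, k0, res_om R.toRD d1' h1 (hw _).1 (hw _).2] at k2
  have k3 : Λ (Ef Θ1) S0 = 0 := mul_left_cancel₀ hN (by linear_combination k2 - k1 / 6)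
  have R3 := R.toRD.gr (j := 5) (x := 8) (by decide) (by decide) ax_v
  have R1 := R3.gr (j := 1) (x := 7) (by decide) (by decide) ax_u
  have k4 := R1.inv wH Θ S00 hH hΘ
  rw [h0, lam_zeroS R1 hΘ, add_zero] at k4
  have k5 : (fun z => Ef Θ z - Xf wH Θ z) = fun z => Ef Θ z + -1 * Xf wH Θ z := by
    funext z
    ring
  rw [k5, R1.lin _ (Xf wH Θ) _ _ (dc_Ef hΘ) (dc_fderiv hΘ (AX wH).contDiff), k4, Gr,
    dv_res R3 hΘ hκ _ _ fun m => deg_Xm (by decide) m g0, sum_pd_X (by decide), Gr,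
    dv_res R.toRD hΘ hκ _ _ fun m => deg_Xm (by decide) m g5, sum_pd_X (by decide),
    res_ind R.toRD hΘ d1' hκ h1 (deg_Dh (by decide) (by decide) g5), ← S0, k3]
  ring

end

end Vale.Agent.P352X.ZZ.RS
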