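import Vale.Agent.P352Z.R.RES.Sp0
import Mathlib.RingTheory.MvPolynomial.EulerIdentity

/-!
# P352Z, block RES: calculus of the sources
-/

set_option linter.all false

open scoped ContDiff

namespace Vale.Agent.P352X.ZZ.RS

open Vale.Agent.P352 Vale.Agent.P352.GF
open Vale.Agent.P352X.RS (So wH Ef Xf)
open MvPolynomial (X C pderiv aeval IsWeightedHomogeneous)

noncomputable section

theorem Dh_apply (w x : Fin 9) (S : P9) : Dh w x S = ∑ m, X (w, m) * pderiv (x, m) S := rfl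
theorem DD_apply (x y : Fin 9) (S : P9) :
    DD x y S = ∑ m, C (eta m : ℂ) * pderiv (x, m) (pderiv (y, m) S) := rfl

theorem pd_X (x p : Fin 9) (m n : Ix) : pderiv (x, m) (X (p, n) : P9) =
    if p = x ∧ n = m then 1 else 0 := by
  classical
  rw [MvPolynomial.pderiv_X, Pi.single_apply]
  simp [Prod.ext_iff]

theorem pd_comm (i j : Fin 9 × Ix) (S : P9) : pderiv i (pderiv j S) = pderiv j (pderiv i S) := by
  classical
  induction S using MvPolynomial.induction_on with
  | C a => simp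
  | add p q hp hq => simp only [map_add, hp, hq]
  | mul_X p k hp =>
    have h : ∀ a b, pderiv a (pderiv b (X k : P9)) = 0 := fun a b => by
      rw [MvPolynomial.pderiv_X, Pi.single_apply]
      split_ifs <;> simp
    simp only [Derivation.leibniz, map_add, smul_eq_mul, hp, h]
    ring

/-- derivations commute with a substitution if they do on the variables -/
theorem comm (s : P9 →ₐ[ℂ] P9) (D D' : Derivation ℂ P9 P9)
    (h : ∀ i, D (s (X i)) = s (D' (X i))) (S : P9) : D (s S) = s (D' S) := by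
  induction S using MvPolynomial.induction_on with
  | C a =>
    have h1 : s (C a) = C a := s.commutes a
    rw [h1, MvPolynomial.derivation_C, MvPolynomial.derivation_C, map_zero]
  | add p q h1 h2 => rw [map_add, map_add, map_add, map_add, h1, h2]
  | mul_X p i h1 =>
    rw [map_mul, Derivation.leibniz, Derivation.leibniz, h1, h i, smul_eq_mul, smul_eq_mul,
      smul_eq_mul, smul_eq_mul, map_add, map_mul, map_mul]

theorem hom_C (s : P9 →ₐ[ℂ] P9) (a : ℂ) : s (C a) = C a := s.commutes a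

theorem rn_X (σ : Fin 9 → Fin 9) (j : Fin 9) (m : Ix) : rn σ (X (j, m)) = X (σ j, m) := by
  simp [rn]

theorem pd_rn {σ : Fin 9 → Fin 9} (hσ : ∀ j k, σ j = σ k → j = k) (j : Fin 9) (m : Ix) (S : P9) :
    pderiv (σ j, m) (rn σ S) = rn σ (pderiv (j, m) S) :=
  comm _ _ _ (fun ⟨k, n⟩ => by
    rw [rn_X, pd_X, pd_X]
    by_cases h : k = j
    · subst h
      by_cases h' : n = m <;> simp [h']
    · simp [h, mt (hσ k j) h]) S

/-! ## the Lorentz action -/

theorem pd_om (w : Ix → V) (j : Fin 9) (a : Ix) (S : P9) : pderiv (j, a) (om w S) =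
    om w (pderiv (j, a) S) + ∑ n, C (w a n : ℂ) * pderiv (j, n) S := by
  classical
  have h : ∀ k m n, pderiv (j, a) (C (w m n : ℂ) * X (k, m) * pderiv (k, n) S : P9) =
      C (w m n : ℂ) * X (k, m) * pderiv (k, n) (pderiv (j, a) S) +
        if k = j then if m = a then C (w m n : ℂ) * pderiv (k, n) S else 0 else 0 := fun k m n => by
    rw [mul_assoc, MvPolynomial.pderiv_C_mul, Derivation.leibniz, MvPolynomial.pderiv_X,
      Pi.single_apply, pd_comm, smul_eq_mul, smul_eq_mul, mul_add, mul_assoc]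
    by_cases h1 : k = j <;> by_cases h2 : m = a <;> simp [h1, h2]
  simp only [om, map_sum, h, Finset.sum_add_distrib]
  simp

def omH (w : Ix → V) : P9 →+ P9 where
  toFun := om w
  map_zero' := by simp [om]
  map_add' a b := by simp [om, mul_add, Finset.sum_add_distrib]

theorem omH_apply (w : Ix → V) (S : P9) : omH w S = om w S := rfl

theorem om_mul (w : Ix → V) (A B : P9) : om w (A * B) = om w A * B + A * om w B := by
  simp only [om, Derivation.leibniz, smul_eq_mul, Finset.sum_mul, Finset.mul_sum,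
    ← Finset.sum_add_distrib]
  exact Finset.sum_congr rfl fun j _ => Finset.sum_congr rfl fun m _ =>
    Finset.sum_congr rfl fun n _ => by ring

theorem om_C (w : Ix → V) (a : ℂ) (S : P9) : om w (C a * S) = C a * om w S := by
  rw [om_mul]; simp [om]

theorem om_X (w : Ix → V) (j : Fin 9) (n : Ix) :
    om w (X (j, n)) = ∑ m, C (w m n : ℂ) * X (j, m) := by
  simp only [om, pd_X]
  rw [Finset.sum_eq_single j]
  · simp
  · intro b _ hb; simp [hb.symm]
  · simp

theorem om_Dh (w : Ix → V) (j x : Fin 9) (S : P9) : om w (Dh j x S) = Dh j x (om w S) := by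
  rw [Dh_apply, Dh_apply, ← omH_apply, map_sum]
  simp only [omH_apply, om_mul, om_X, pd_om, mul_add, Finset.sum_add_distrib, Finset.sum_mul,
    Finset.mul_sum]
  rw [add_comm, add_right_inj, Finset.sum_comm]
  exact Finset.sum_congr rfl fun m _ => Finset.sum_congr rfl fun n _ => by ring

theorem om_dot (w : Ix → V) (hw : So w) (j k : Fin 9) : om w (dotP j k) = 0 := by
  rw [dotP, ← omH_apply, map_sum]
  simp only [omH_apply, mul_assoc, om_C]
  simp only [om_mul, om_X, Finset.sum_mul, Finset.mul_sum, mul_add, Finset.sum_add_distrib]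
  rw [Finset.sum_comm, ← Finset.sum_add_distrib]
  refine Finset.sum_eq_zero fun m _ => ?_
  rw [← Finset.sum_add_distrib]
  refine Finset.sum_eq_zero fun n _ => ?_
  have h : (C (eta n : ℂ) : P9) * C (w m n : ℂ) + C (eta m : ℂ) * C (w n m : ℂ) = 0 := by
    rw [← map_mul, ← map_mul, ← map_add, ← Complex.ofReal_mul, ← Complex.ofReal_mul, hw m n]
    simp
  linear_combination X (j, m) * X (k, n) * h

theorem Dh_mul (w x : Fin 9) (A B : P9) : Dh w x (A * B) = Dh w x A * B + A * Dh w x B := by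
  simp only [Dh_apply, Derivation.leibniz, smul_eq_mul, Finset.sum_mul, Finset.mul_sum,
    ← Finset.sum_add_distrib]
  exact Finset.sum_congr rfl fun m _ => by ring

theorem Dh_C (w x : Fin 9) (a : ℂ) (S : P9) : Dh w x (C a * S) = C a * Dh w x S := by
  simp only [Dh_apply, MvPolynomial.pderiv_C_mul, Finset.mul_sum]
  exact Finset.sum_congr rfl fun m _ => by ring

theorem sum_pd_X {j x : Fin 9} (h : j ≠ x) (S : P9) :
    ∑ m, pderiv (x, m) (X (j, m) * S) = Dh j x S := by
  simp [Dh_apply, Derivation.leibniz, pd_X, h]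

/-! ## components -/

theorem dp_add (j k : Fin 9) (I : I2) (S S' : P9) :
    dp j k I (S + S') = dp j k I S + dp j k I S' := by simp only [dp, map_add]

theorem dp_C (j k : Fin 9) (I : I2) (a : ℂ) (S : P9) : dp j k I (C a * S) = C a * dp j k I S := by
  simp only [dp, MvPolynomial.pderiv_C_mul]

theorem dp_sum {ι : Type} (t : Finset ι) (j k : Fin 9) (I : I2) (S : ι → P9) :
    dp j k I (∑ i ∈ t, S i) = ∑ i ∈ t, dp j k I (S i) := by simp only [dp, map_sum]

theorem dp_pd (j k : Fin 9) (I : I2) (i) (S : P9) :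
    dp j k I (pderiv i S) = pderiv i (dp j k I S) := by simp only [dp, pd_comm i]

theorem dp_comm (j k j' k' : Fin 9) (I J : I2) (S : P9) :
    dp j k I (dp j' k' J S) = dp j' k' J (dp j k I S) := by
  rw [dp, ← dp_pd, ← dp_pd]
  rfl

theorem d6_pd (I J K : I2) (i) (S : P9) : d6 I J K (pderiv i S) = pderiv i (d6 I J K S) := by
  simp only [d6, dp_pd]

/-- the derivative of `L2` at the identity -/
def l2 (w : Ix → V) (K I : I2) : ℂ :=
  (w K.1 I.1 * GF.one K.2 I.2 + GF.one K.1 I.1 * w K.2 I.2 : ℝ)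

theorem dp_om (w : Ix → V) (j k : Fin 9) (I : I2) (S : P9) :
    dp j k I (om w S) = om w (dp j k I S) + ∑ K, C (l2 w I K) * dp j k K S := by
  simp only [dp, pd_om, map_add, map_sum, MvPolynomial.pderiv_C_mul, l2, GF.one, bas,
    Fintype.sum_prod_type, Complex.ofReal_add, add_mul, Finset.sum_add_distrib, add_assoc,
    mul_ite, ite_mul, mul_one, mul_zero, one_mul, zero_mul, apply_ite Complex.ofReal,
    Complex.ofReal_zero, apply_ite C, map_zero, Finset.sum_ite_eq', Finset.mem_univ, if_true,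
    Finset.sum_ite_irrel, Finset.sum_const_zero]

theorem d6_om (w : Ix → V) (I J K : I2) (S : P9) : d6 I J K (om w S) = om w (d6 I J K S) +
    (∑ M, C (l2 w I M) * d6 M J K S + ∑ M, C (l2 w J M) * d6 I M K S +
      ∑ M, C (l2 w K M) * d6 I J M S) := by
  simp only [d6, dp_om, dp_add, dp_sum, dp_C, add_assoc]

theorem d6_lin (I J K : I2) (a : ℂ) (S S' : P9) :
    d6 I J K (S + C a * S') = d6 I J K S + C a * d6 I J K S' := by
  simp only [d6, dp_add, dp_C]

theorem pd_s12 {j k : Fin 9} (h : j ≠ 7) (hk : k = ![2, 3, 0, 1, 4, 5, 6, 7, 8] j) (a : Ix)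
    (S : P9) : pderiv (k, a) (s12 S) = s12 (pderiv (j, a) S) := comm s12 _ _ (fun ⟨i, m⟩ => by
  subst hk
  by_cases e : m = a
  · subst e
    fin_cases j <;> fin_cases i <;> simp [s12, pd_X] at h ⊢
  · fin_cases j <;> fin_cases i <;> simp [s12, pd_X, e]) S

theorem p7_s12 (m : Ix) (S : P9) :
    pderiv (7, m) (s12 S) = s12 (-(pderiv (7, m) S + pderiv (8, m) S)) := by
  have h0 : -(pderiv (7, m) S + pderiv (8, m) S) =
      (-(pderiv (7, m) + pderiv (8, m)) : Derivation ℂ P9 P9) S := by simp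
  rw [h0]
  refine comm s12 _ _ (fun ⟨j, n⟩ => ?_) S
  by_cases h : n = m
  · subst h
    fin_cases j <;> simp [s12, pd_X]
  · fin_cases j <;> simp [s12, pd_X, h]

theorem pd_s23 {j : Fin 9} (h : j = 6 ∨ j = 7) (a : Ix) (S : P9) :
    pderiv (j, a) (s23 S) = s23 (pderiv (j, a) S) := comm s23 _ _ (fun ⟨i, m⟩ => by
  by_cases e : m = a
  · subst e
    rcases h with rfl | rfl <;> fin_cases i <;> simp [s23, pd_X]
  · rcases h with rfl | rfl <;> fin_cases i <;> simp [s23, pd_X, e]) S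

theorem d6_s12 (I J K : I2) (S : P9) : d6 I J K (s12 S) = s12 (d6 J I K S) := by
  rw [d6, d6, dp_comm 0 1 2 3 J]
  simp only [dp, pd_s12 (j := 0) (k := 2) (by decide) rfl, pd_s12 (j := 1) (k := 3) (by decide) rfl,
    pd_s12 (j := 2) (k := 0) (by decide) rfl, pd_s12 (j := 3) (k := 1) (by decide) rfl,
    pd_s12 (j := 4) (k := 4) (by decide) rfl, pd_s12 (j := 5) (k := 5) (by decide) rfl]

theorem d6_s13 (I J K : I2) (S : P9) : d6 I J K (s13 S) = s13 (d6 K J I S) := by
  have h := pd_rn (σ := ![4, 5, 2, 3, 0, 1, 6, 8, 7]) (by decide)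
  have h0 : ∀ a S, pderiv (4, a) (s13 S) = s13 (pderiv (0, a) S) := h 0
  have h1 : ∀ a S, pderiv (5, a) (s13 S) = s13 (pderiv (1, a) S) := h 1
  have h2 : ∀ a S, pderiv (2, a) (s13 S) = s13 (pderiv (2, a) S) := h 2
  have h3 : ∀ a S, pderiv (3, a) (s13 S) = s13 (pderiv (3, a) S) := h 3
  have h4 : ∀ a S, pderiv (0, a) (s13 S) = s13 (pderiv (4, a) S) := h 4
  have h5 : ∀ a S, pderiv (1, a) (s13 S) = s13 (pderiv (5, a) S) := h 5
  rw [d6, d6, dp_comm 2 3 4 5 J I, dp_comm 0 1 4 5 K, dp_comm 0 1 2 3 K]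
  simp only [dp, h0, h1, h2, h3, h4, h5]

theorem s23_eq (S : P9) : s23 S = s12 (s13 (s12 S)) := by
  have h : s23 = s12.comp (s13.comp s12) := by
    refine MvPolynomial.algHom_ext fun ⟨j, m⟩ => ?_
    fin_cases j <;> simp [s12, s13, s23, rn]
    ring
  rw [h]
  rfl

theorem s23_s23 (S : P9) : s23 (s23 S) = S := by
  have h : s23.comp s23 = AlgHom.id ℂ P9 := by
    refine MvPolynomial.algHom_ext fun ⟨j, m⟩ => ?_
    fin_cases j <;> simp [s23]
  exact AlgHom.congr_fun h S

theorem s12_s12 (S : P9) : s12 (s12 S) = S := by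
  have h : s12.comp s12 = AlgHom.id ℂ P9 := by
    refine MvPolynomial.algHom_ext fun ⟨j, m⟩ => ?_
    fin_cases j <;> simp [s12]
  exact AlgHom.congr_fun h S

theorem Fm_s23 (e : Bool) (Ξ : P9) (m : Ix) : Fm e (s23 Ξ) m = s23 (Fm e Ξ m) := by
  cases e
  · simp only [Fm, map_mul, hom_C, pd_s23 (.inl rfl)]
  · simp [Fm, s23]

theorem Ok.s23 {e : Bool} {Ξ : P9} (h : Ok e Ξ) : Ok e (s23 Ξ) := by
  cases e
  · have h1 : tw.comp RS.s23 = RS.s23.comp tw := by
      refine MvPolynomial.algHom_ext fun ⟨j, m⟩ => ?_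
      fin_cases j <;> simp [RS.s23, tw, rn]
    have h2 : th.comp RS.s23 = RS.s23.comp th := by
      refine MvPolynomial.algHom_ext fun ⟨j, m⟩ => ?_
      fin_cases j <;> simp [RS.s23, th, rn]
    exact ⟨(AlgHom.congr_fun h1 Ξ).trans (by rw [AlgHom.comp_apply, h.1, map_neg]),
      (AlgHom.congr_fun h2 Ξ).trans (by rw [AlgHom.comp_apply, h.2, map_neg])⟩
  · trivial

theorem s12_dot : s12 (dotP 2 3) = dotP 0 1 := by simp [dotP, s12]

theorem s13_dot : s13 (dotP 4 5) = dotP 0 1 := by simp [dotP, s13, rn]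

/-! ## degrees -/

theorem deg_X (i : Fin 9 × Ix) : Deg (wt i) (X i) := MvPolynomial.isWeightedHomogeneous_X ℂ _ i

theorem deg_add {n : ℕ} {S T : P9} (h : Deg n S) (h' : Deg n T) : Deg n (S + T) :=
  IsWeightedHomogeneous.add h h'

theorem deg_sub {n : ℕ} {S T : P9} (h : Deg n S) (h' : Deg n T) : Deg n (S - T) :=
  IsWeightedHomogeneous.sub h h'

theorem deg_neg {n : ℕ} {S : P9} (h : Deg n S) : Deg n (-S) := IsWeightedHomogeneous.neg h

theorem deg_sum {ι : Type*} (s : Finset ι) {n : ℕ} {S : ι → P9} (h : ∀ i ∈ s, Deg n (S i)) :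
    Deg n (∑ i ∈ s, S i) := IsWeightedHomogeneous.sum s S n h

theorem deg_mul {m n k : ℕ} {S T : P9} (h : Deg m S) (h' : Deg n T) (hk : m + n = k) :
    Deg k (S * T) := hk ▸ IsWeightedHomogeneous.mul h h'

theorem deg_C {n : ℕ} {S : P9} (a : ℂ) (h : Deg n S) : Deg n (C a * S) :=
  IsWeightedHomogeneous.C_mul h a

theorem deg_pd {n n' : ℕ} {S : P9} (i : Fin 9 × Ix) (h : Deg n S) (h' : n' + wt i = n) :
    Deg n' (pderiv i S) := IsWeightedHomogeneous.pderiv h h'

theorem pd_deg0 {S : P9} (h : Deg 0 S) {i : Fin 9 × Ix} (hi : wt i = 1) : pderiv i S = 0 := by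
  induction h using IsWeightedHomogeneous.induction_on with
  | zero => exact map_zero _
  | add p q _ _ h1 h2 => rw [map_add, h1, h2, add_zero]
  | monomial d r hr =>
    have := Finsupp.le_weight_of_ne_zero' wt (f := d) (s := i)
    have e : d i = 0 := by
      by_contra k
      have := this k
      omega
    rw [MvPolynomial.pderiv_monomial, e]
    simp

theorem deg_aeval (f : Fin 9 × Ix → P9) (hf : ∀ i, Deg (wt i) (f i)) {n : ℕ} {S : P9}
    (h : Deg n S) : Deg n (aeval f S) := by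
  induction h using IsWeightedHomogeneous.induction_on with
  | zero =>
    rw [map_zero]
    exact MvPolynomial.isWeightedHomogeneous_zero ℂ _ n
  | add p q hp hq h1 h2 =>
    rw [map_add]
    exact deg_add h1 h2
  | monomial d r hr =>
    rw [MvPolynomial.aeval_monomial, ← hr, Finsupp.weight_apply]
    exact deg_C r (IsWeightedHomogeneous.prod d.support (fun i => f i ^ d i)
      (fun i => d i • wt i) fun i _ => IsWeightedHomogeneous.pow (hf i) (d i))

theorem deg_s12 {n : ℕ} {S : P9} (h : Deg n S) : Deg n (s12 S) := by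
  refine deg_aeval _ (fun ⟨j, m⟩ => ?_) h
  fin_cases j
  exacts [deg_X (2, m), deg_X (3, m), deg_X (0, m), deg_X (1, m), deg_X (4, m), deg_X (5, m),
    deg_X (6, m), deg_neg (deg_X (7, m)), deg_sub (deg_X (8, m)) (deg_X (7, m))]

theorem deg_s13 {n : ℕ} {S : P9} (h : Deg n S) : Deg n (s13 S) := by
  refine deg_aeval _ (fun ⟨j, m⟩ => ?_) h
  fin_cases j
  exacts [deg_X (4, m), deg_X (5, m), deg_X (2, m), deg_X (3, m), deg_X (0, m), deg_X (1, m),
    deg_X (6, m), deg_X (8, m), deg_X (7, m)]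

theorem deg_Xm {n : ℕ} {S : P9} {j : Fin 9} (hj : ¬ 7 ≤ j) (m : Ix) (h : Deg n S) :
    Deg n (X (j, m) * S) := deg_mul (deg_X (j, m)) h (by simp [wt, hj])

theorem deg_Dh {n : ℕ} {S : P9} {j x : Fin 9} (hj : ¬ 7 ≤ j) (hx : 7 ≤ x) (h : Deg (n + 1) S) :
    Deg n (Dh j x S) :=
  deg_sum _ fun m _ => deg_Xm hj m (deg_pd (x, m) h (by simp [wt, hx]))

theorem deg_Dh0 {n : ℕ} {S : P9} {j x : Fin 9} (hj : ¬ 7 ≤ j) (hx : ¬ 7 ≤ x) (h : Deg n S) :
    Deg n (Dh j x S) :=
  deg_sum _ fun m _ => deg_Xm hj m (deg_pd (x, m) h (by simp [wt, hx]))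

theorem deg_Fm {n : ℕ} {S : P9} (e : Bool) (m : Ix) (h : Deg n S) : Deg n (Fm e S m) := by
  cases e
  exacts [deg_C _ (deg_pd (6, m) h rfl), deg_Xm (by decide) m h]

theorem deg_d1 {n : ℕ} {S : P9} (e : Bool) (h : Deg (n + 1) S) : Deg n (d1 e S) :=
  deg_sum _ fun m _ => deg_pd (7, m) (deg_Fm e m h) rfl

theorem dp_deg {n : ℕ} {S : P9} (h : Deg n S) {j k : Fin 9} (hj : ¬ 7 ≤ j) (hk : ¬ 7 ≤ k) (I : I2) :
    Deg n (dp j k I S) :=
  deg_pd _ (deg_pd (n' := n) _ h (by simp [wt, hk])) (by simp [wt, hj])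

theorem d6_deg {n : ℕ} {S : P9} (h : Deg n S) (I J K : I2) : Deg n (d6 I J K S) :=
  dp_deg (dp_deg (dp_deg h (by decide) (by decide) K) (by decide) (by decide) J) (by decide)
    (by decide) I

/-! ## on-shell plus gauge -/

theorem pd_DD (x y : Fin 9) (i) (S : P9) : DD x y (pderiv i S) = pderiv i (DD x y S) := by
  simp only [DD_apply, map_sum, MvPolynomial.pderiv_C_mul, pd_comm i]

theorem Nl.deg {d : ℕ} {S : P9} (h : Nl d S) : Deg d S := by
  obtain ⟨Ξ, ζ, h1, h2, -, -, rfl⟩ := h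
  exact deg_add h1 (deg_Dh (by decide) (by decide) h2)

theorem Nl.pd {d e : ℕ} {S : P9} (h : Nl d S) {j : Fin 9} (hj : j ≠ 4) (m : Ix)
    (he : e + wt (j, m) = d) : Nl e (pderiv (j, m) S) := by
  obtain ⟨Ξ, ζ, h1, h2, h3, h4, rfl⟩ := h
  refine ⟨pderiv (j, m) Ξ, pderiv (j, m) ζ, deg_pd _ h1 he, deg_pd _ h2 (by omega),
    by rw [pd_DD, h3, map_zero], by rw [pd_DD, pd_DD, h4, map_zero], ?_⟩
  simp [Dh_apply, pd_X, hj.symm, pd_comm (j, m)]

theorem Nl.s12 {d : ℕ} {S : P9} (h : Nl d S) : Nl d (s12 S) := by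
  obtain ⟨Ξ, ζ, h1, h2, h3, h4, rfl⟩ := h
  have a := pd_s12 (j := 4) (k := 4) (by decide) rfl
  have b := pd_s12 (j := 5) (k := 5) (by decide) rfl
  have c := pd_s12 (j := 8) (k := 8) (by decide) rfl
  have x : ∀ m, RS.s12 (X (4, m)) = X (4, m) := fun m => by simp [RS.s12]
  refine ⟨RS.s12 Ξ, RS.s12 ζ, deg_s12 h1, deg_s12 h2, ?_, ?_, ?_⟩
  · simpa only [DD_apply, map_sum, map_mul, hom_C, c, map_zero] using congrArg RS.s12 h3
  · simpa only [DD_apply, map_sum, map_mul, hom_C, a, b, c, map_zero,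
      MvPolynomial.pderiv_C_mul] using congrArg RS.s12 h4
  · simp only [Dh_apply, map_add, map_sum, map_mul, c, x]

/-! ## evaluation -/

/-- the coordinates -/
def cv (i : Fin 9 × Ix) : V × V →L[ℝ] ℂ :=
  ![0, 0, 0, 0, 0, 0, 0, Complex.ofRealCLM ∘L .proj i.2 ∘L .fst ℝ V V,
    Complex.ofRealCLM ∘L .proj i.2 ∘L .snd ℝ V V] i.1

theorem ev8_X (i : Fin 9 × Ix) (z : V × V) : ev8 (X i) z = cv i z := by
  obtain ⟨j, m⟩ := i
  fin_cases j <;> simp [ev8, cv]

theorem ev8_C (a : ℂ) (z : V × V) : ev8 (C a) z = a := by simp [ev8]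

theorem ev8_zero (z : V × V) : ev8 0 z = 0 := map_zero _

theorem ev8_add (S S' : P9) (z : V × V) : ev8 (S + S') z = ev8 S z + ev8 S' z := map_add _ _ _

theorem ev8_neg (S : P9) (z : V × V) : ev8 (-S) z = -ev8 S z := map_neg _ _

theorem ev8_mul (S S' : P9) (z : V × V) : ev8 (S * S') z = ev8 S z * ev8 S' z := map_mul _ _ _

theorem ev8_sum {ι : Type} (t : Finset ι) (S : ι → P9) (z : V × V) :
    ev8 (∑ i ∈ t, S i) z = ∑ i ∈ t, ev8 (S i) z := map_sum _ _ _

theorem ev8_smooth (S : P9) : ContDiff ℝ ∞ (ev8 S) := by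
  induction S using MvPolynomial.induction_on with
  | C a => exact funext (ev8_C a) ▸ contDiff_const
  | add p q hp hq => exact funext (ev8_add p q) ▸ hp.add hq
  | mul_X p k hp => exact funext (ev8_mul p _) ▸ hp.mul (funext (ev8_X k) ▸ (cv k).contDiff)

theorem ev8_diff (S : P9) (z : V × V) : DifferentiableAt ℝ (ev8 S) z :=
  (ev8_smooth S).differentiable (by simp) z

theorem ev8_der (S : P9) (z y : V × V) :
    fderiv ℝ (ev8 S) z y = ∑ i, cv i y * ev8 (pderiv i S) z := by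
  classical
  induction S using MvPolynomial.induction_on with
  | C a =>
    rw [funext (ev8_C a)]
    simp [ev8]
  | add p q hp hq =>
    rw [funext (ev8_add p q), fderiv_fun_add (ev8_diff p z) (ev8_diff q z)]
    simp only [ContinuousLinearMap.add_apply, hp, hq, map_add, ev8_add, mul_add,
      Finset.sum_add_distrib]
  | mul_X p k hp =>
    have h : ∀ i, cv i y * ev8 (pderiv i (p * X k)) z = (if k = i then ev8 p z * cv i y else 0) +
        cv k z * (cv i y * ev8 (pderiv i p) z) := fun i => by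
      rw [Derivation.leibniz, MvPolynomial.pderiv_X, Pi.single_apply, ev8_add, smul_eq_mul,
        smul_eq_mul, ev8_mul, ev8_mul, ev8_X]
      split_ifs <;> simp [ev8] <;> ring
    rw [funext (ev8_mul p _), fderiv_fun_mul (ev8_diff p z) (ev8_diff _ z), funext (ev8_X k),
      (cv k).fderiv]
    simp only [h, Finset.sum_add_distrib, ← Finset.mul_sum, ← hp, Finset.sum_ite_eq,
      Finset.mem_univ, if_true, ContinuousLinearMap.add_apply, ContinuousLinearMap.smul_apply,
      smul_eq_mul]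

theorem ev8_om (w : Ix → V) (S : P9) (z : V × V) : ev8 (om w S) z = Xf w (ev8 S) z := by
  have h : ∀ j n, cv (j, n) (sim 1 w 0 z.1, sim 1 w 0 z.2) = ∑ m, (w m n : ℂ) * cv (j, m) z :=
    fun j n => by fin_cases j <;> simp [cv, sim, mul_comm]
  simp only [Xf, ev8_der, om, ev8_sum, ev8_mul, ev8_C, ev8_X, Fintype.sum_prod_type, h,
    Finset.sum_mul]
  exact Finset.sum_congr rfl fun j _ => Finset.sum_comm

theorem ev8_E {n : ℕ} {S : P9} (h : Deg n S) (z : V × V) : Ef (ev8 S) z = n * ev8 S z := by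
  have k := congrArg (ev8 · z) h.sum_weight_X_mul_pderiv
  simp only [ev8_sum, nsmul_eq_mul, ← MvPolynomial.C_eq_coe_nat, ev8_mul, ev8_C, ev8_X] at k
  rw [← k, Ef, ev8_der]
  refine Finset.sum_congr rfl fun ⟨j, m⟩ _ => ?_
  fin_cases j <;> simp [cv, wt]

theorem ev8_hom (φ : P9 →ₐ[ℂ] P9) {z z' : V × V} (h : ∀ i, ev8 (φ (X i)) z = cv i z')
    (S : P9) : ev8 (φ S) z = ev8 S z' := by
  induction S using MvPolynomial.induction_on with
  | C a => simp [ev8]
  | add p q hp hq => simp only [map_add, ev8_add, hp, hq]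
  | mul_X p k hp => simp only [map_mul, ev8_mul, hp, h, ev8_X]

theorem ev8_s12 (S : P9) (z : V × V) : ev8 (s12 S) z = ev8 S (-z.1, z.2 - z.1) :=
  ev8_hom s12 (fun ⟨j, m⟩ => by fin_cases j <;> simp [s12, ev8, cv]) S

theorem ev8_s13 (S : P9) (z : V × V) : ev8 (s13 S) z = ev8 S (z.2, z.1) :=
  ev8_hom s13 (fun ⟨j, m⟩ => by fin_cases j <;> simp [s13, rn, ev8, cv]) S

theorem ev8_tw (S : P9) (z : V × V) : ev8 (tw S) z = ev8 S z :=
  ev8_hom tw (fun ⟨j, m⟩ => by fin_cases j <;> simp [tw, rn, ev8, cv]) S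

theorem ev8_th (S : P9) (z : V × V) : ev8 (th S) z = ev8 S z :=
  ev8_hom th (fun ⟨j, m⟩ => by fin_cases j <;> simp [th, rn, ev8, cv]) S

theorem ev8_eu (m : Ix) (S : P9) (z : V × V) :
    fderiv ℝ (ev8 S) z (eu m) = ev8 (pderiv (7, m) S) z := by
  rw [ev8_der, Finset.sum_eq_single (7, m) (fun ⟨j, n⟩ _ h => by
    fin_cases j <;> simp_all [cv, bas, eu]) (by simp)]
  simp [cv, bas, eu]

theorem ev8_ew (m : Ix) (S : P9) (z : V × V) :
    fderiv ℝ (ev8 S) z (ew m) = ev8 (pderiv (8, m) S) z := by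
  rw [ev8_der, Finset.sum_eq_single (8, m) (fun ⟨j, n⟩ _ h => by
    fin_cases j <;> simp_all [cv, bas, ew]) (by simp)]
  simp [cv, bas, ew]

end

end Vale.Agent.P352X.ZZ.RS
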