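import Vale.Agent.P352Z.R.RES.Data

/-!
# P352Z, row ALG: the certificate is checked (symmetrisation)
-/

set_option linter.all false

namespace Vale.Agent.P352X.ZZ.RS.Alg

open Vale.Agent.P352X.RS.Alg

theorem ck_sy : zt prG (sy pR) = true := by decide +kernel

theorem ck_deg : dg wG 4 pR = true ∧ dg wC 6 pM0 = true ∧ dg wC 5 pM1 = true ∧
    dg wC 5 pM2 = true := by decide +kernel

end Vale.Agent.P352X.ZZ.RS.Alg
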