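import Vale.Agent.P352Z.R.RES.Ops

/-!
# P352Z, row ALG: the certificate
-/

set_option linter.all false

namespace Vale.Agent.P352X.ZZ.RS.Alg

open Vale.Agent.P352X.RS.Alg

noncomputable def q01 : GV := (0, 1)
noncomputable def q02 : GV := (0, 2)
noncomputable def q03 : GV := (0, 3)
noncomputable def q04 : GV := (0, 4)
noncomputable def q05 : GV := (0, 5)
noncomputable def q07 : GV := (0, 7)
noncomputable def q08 : GV := (0, 8)
noncomputable def q12 : GV := (1, 2)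
noncomputable def q13 : GV := (1, 3)
noncomputable def q14 : GV := (1, 4)
noncomputable def q15 : GV := (1, 5)
noncomputable def q17 : GV := (1, 7)
noncomputable def q18 : GV := (1, 8)
noncomputable def q24 : GV := (2, 4)
noncomputable def q25 : GV := (2, 5)
noncomputable def q27 : GV := (2, 7)
noncomputable def q28 : GV := (2, 8)
noncomputable def q34 : GV := (3, 4)
noncomputable def q35 : GV := (3, 5)
noncomputable def q37 : GV := (3, 7)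
noncomputable def q38 : GV := (3, 8)
noncomputable def q45 : GV := (4, 5)
noncomputable def q47 : GV := (4, 7)
noncomputable def q48 : GV := (4, 8)
noncomputable def q57 : GV := (5, 7)
noncomputable def q58 : GV := (5, 8)
noncomputable def q67 : GV := (6, 7)
noncomputable def q68 : GV := (6, 8)
noncomputable def q77 : GV := (7, 7)
noncomputable def q78 : GV := (7, 8)
noncomputable def q88 : GV := (8, 8)
noncomputable def c00 : CV := (0, 0)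
noncomputable def c01 : CV := (0, 1)
noncomputable def c02 : CV := (0, 2)
noncomputable def c03 : CV := (0, 3)
noncomputable def c04 : CV := (0, 4)
noncomputable def c11 : CV := (1, 1)
noncomputable def c12 : CV := (1, 2)
noncomputable def c13 : CV := (1, 3)
noncomputable def c14 : CV := (1, 4)
noncomputable def c22 : CV := (2, 2)
noncomputable def c23 : CV := (2, 3)
noncomputable def c24 : CV := (2, 4)

noncomputable def pXc0 : Po GV := [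
  (6696080,[q01,q34,q57,q77,q78]), (-1190400,[q01,q34,q58,q77,q78]),
  (-187200,[q01,q37,q45,q77,q78]), (-4403520,[q01,q37,q47,q58,q77]),
  (6413760,[q01,q37,q47,q58,q78]), (-469440,[q01,q37,q48,q57,q78]),
  (-366720,[q01,q37,q48,q58,q77]), (-273600,[q01,q38,q47,q57,q77]),
  (-76800,[q01,q38,q48,q57,q77]), (-12112720,[q03,q14,q57,q77,q78]),
  (-4250592,[q03,q14,q57,q77,q88]), (-4237632,[q03,q14,q57,q78,q78]),
  (10631920,[q03,q14,q58,q77,q77]), (-9959616,[q03,q14,q58,q77,q78]),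
  (1470048,[q03,q15,q47,q77,q78]), (2646528,[q03,q15,q47,q77,q88]),
  (-18192384,[q03,q15,q47,q78,q78]), (-1119888,[q03,q15,q48,q77,q77]),
  (6667776,[q03,q15,q48,q77,q78]), (-426240,[q03,q17,q45,q77,q78]),
  (-1276800,[q03,q17,q45,q77,q88]), (1554048,[q03,q17,q45,q78,q78]),
  (1912320,[q03,q17,q47,q57,q78]), (6106752,[q03,q17,q47,q57,q88]),
  (-4642560,[q03,q17,q47,q58,q77]), (5898816,[q03,q17,q47,q58,q78]),
  (-239040,[q03,q17,q48,q57,q77]), (7107264,[q03,q17,q48,q57,q78]),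
  (-1543680,[q03,q17,q48,q58,q77]), (-16560,[q03,q18,q45,q77,q77]),
  (6874752,[q03,q18,q45,q77,q78]), (6281280,[q03,q18,q47,q57,q77]),
  (-48100608,[q03,q18,q47,q57,q78]), (3791232,[q03,q18,q47,q58,q77]),
  (5764224,[q03,q18,q48,q57,q77]), (-532320,[q04,q13,q57,q77,q88]),
  (861120,[q04,q13,q57,q78,q78]), (-28800,[q04,q13,q58,q77,q77]), (691200,[q04,q13,q58,q77,q78]),
  (1881888,[q04,q15,q37,q77,q78]), (339552,[q04,q15,q37,q77,q88]),
  (-576576,[q04,q15,q37,q78,q78]), (261792,[q04,q15,q38,q77,q77]),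
  (-1905216,[q04,q15,q38,q77,q78]), (172800,[q04,q17,q35,q77,q78]),
  (-588096,[q04,q17,q35,q77,q88]), (1195776,[q04,q17,q35,q78,q78]),
  (-1382400,[q04,q17,q37,q57,q78]), (2332800,[q04,q17,q37,q57,q88]),
  (-4230720,[q04,q17,q37,q58,q77]), (518400,[q04,q17,q37,q58,q78]),
  (-100800,[q04,q17,q38,q57,q77]), (6413760,[q04,q17,q38,q57,q78]),
  (-86400,[q04,q17,q38,q58,q77]), (-1115760,[q04,q18,q35,q77,q77]),
  (486720,[q04,q18,q35,q77,q78]), (6693120,[q04,q18,q37,q57,q77]),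
  (-7721280,[q04,q18,q37,q57,q78]), (-2041920,[q04,q18,q37,q58,q77]),
  (-406080,[q04,q18,q38,q57,q77]), (100800,[q05,q13,q47,q77,q78]),
  (2402496,[q05,q13,q47,q77,q88]), (-18782208,[q05,q13,q47,q78,q78]),
  (-19872,[q05,q13,q48,q77,q77]), (3696192,[q05,q13,q48,q77,q78]),
  (-11600080,[q05,q14,q37,q77,q78]), (-3766752,[q05,q14,q37,q77,q88]),
  (-5401152,[q05,q14,q37,q78,q78]), (-10038320,[q05,q14,q38,q77,q77]),
  (30807744,[q05,q14,q38,q77,q78]), (6969680,[q05,q17,q34,q77,q78]),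
  (-4367232,[q05,q17,q34,q78,q78]), (-2188800,[q05,q17,q37,q47,q78]),
  (4367232,[q05,q17,q37,q47,q88]), (273600,[q05,q17,q37,q48,q77]),
  (12743424,[q05,q17,q37,q48,q78]), (16220736,[q05,q17,q38,q47,q78]),
  (-4982400,[q05,q17,q38,q48,q77]), (6697152,[q05,q18,q34,q77,q78]),
  (6793920,[q05,q18,q37,q47,q77]), (-44077248,[q05,q18,q37,q47,q78]),
  (4154304,[q05,q18,q37,q48,q77]), (4018752,[q05,q18,q38,q47,q77]),
  (-892800,[q07,q13,q47,q57,q78]), (194112,[q07,q13,q48,q57,q77]),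
  (-28379200,[q07,q14,q35,q77,q78]), (-8787968,[q07,q14,q35,q77,q88]),
  (26604096,[q07,q14,q35,q78,q78]), (-21673760,[q07,q14,q37,q57,q78]),
  (-13905408,[q07,q14,q37,q57,q88]), (41931520,[q07,q14,q37,q58,q77]),
  (-27792576,[q07,q14,q37,q58,q78]), (-40254080,[q07,q14,q38,q57,q77]),
  (54888384,[q07,q14,q38,q57,q78]), (-18747808,[q07,q14,q38,q58,q77]),
  (12964288,[q07,q15,q34,q77,q78]), (510272,[q07,q15,q34,q77,q88]),
  (-522816,[q07,q15,q34,q78,q78]), (4310976,[q07,q15,q37,q47,q78]),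
  (-13056,[q07,q15,q37,q47,q88]), (-4787712,[q07,q15,q37,q48,q77]),
  (2996928,[q07,q15,q37,q48,q78]), (1075968,[q07,q15,q38,q47,q77]),
  (-6474432,[q07,q15,q38,q47,q78]), (717984,[q07,q15,q38,q48,q77]),
  (12844960,[q07,q17,q34,q57,q78]), (7116480,[q07,q17,q34,q58,q78]),
  (-2174400,[q07,q17,q35,q48,q78]), (-8259840,[q07,q17,q37,q47,q58]),
  (-921600,[q07,q17,q38,q47,q57])]

noncomputable def pXc1 : Po GV := [
  (-25920,[q07,q17,q38,q47,q58]), (-1713600,[q07,q17,q38,q48,q57]),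
  (561600,[q07,q18,q34,q57,q77]), (8884800,[q07,q18,q34,q57,q78]),
  (-2637920,[q07,q18,q34,q58,q77]), (-4059840,[q07,q18,q35,q47,q77]),
  (-1334592,[q07,q18,q35,q47,q78]), (391392,[q07,q18,q35,q48,q77]),
  (11312640,[q07,q18,q37,q47,q57]), (3251520,[q07,q18,q37,q47,q58]),
  (1540800,[q07,q18,q37,q48,q57]), (15840,[q08,q13,q45,q77,q77]), (-311040,[q08,q13,q47,q57,q77]),
  (1457280,[q08,q13,q47,q58,q77]), (983040,[q08,q13,q48,q57,q77]),
  (-6985360,[q08,q14,q35,q77,q77]), (26904192,[q08,q14,q35,q77,q78]),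
  (-12011920,[q08,q14,q37,q57,q77]), (26985024,[q08,q14,q37,q57,q78]),
  (-14493888,[q08,q14,q37,q58,q77]), (25435392,[q08,q14,q38,q57,q77]),
  (3278512,[q08,q15,q34,q77,q77]), (401664,[q08,q15,q34,q77,q78]),
  (1570848,[q08,q15,q37,q47,q77]), (278208,[q08,q15,q37,q47,q78]),
  (3165504,[q08,q15,q37,q48,q77]), (-2852736,[q08,q15,q38,q47,q77]),
  (6557840,[q08,q17,q34,q57,q77]), (-14287680,[q08,q17,q34,q57,q78]),
  (2652480,[q08,q17,q34,q58,q77]), (-138240,[q08,q17,q35,q47,q77]),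
  (3534912,[q08,q17,q35,q47,q78]), (756288,[q08,q17,q35,q48,q77]),
  (-325440,[q08,q17,q37,q45,q77]), (1105920,[q08,q17,q37,q47,q57]),
  (-2355840,[q08,q17,q37,q47,q58]), (-8542080,[q08,q17,q37,q48,q57]),
  (-1777920,[q08,q17,q38,q45,q77]), (10667520,[q08,q17,q38,q47,q57]),
  (1267200,[q08,q18,q34,q57,q77]), (366720,[q08,q18,q37,q45,q77]),
  (-5944320,[q08,q18,q37,q47,q57])]

noncomputable def pXc : Po GV := ap pXc0 pXc1

noncomputable def pZc : Po GV := [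
  (-4320,[q01,q35,q78,q88,q88]), (-33840,[q01,q38,q57,q88,q88]), (-149760,[q01,q38,q58,q78,q88]),
  (3249712,[q03,q15,q78,q88,q88]), (339040,[q03,q17,q57,q88,q88]), (83520,[q03,q18,q57,q88,q88]),
  (6641360,[q03,q18,q58,q78,q88]), (-7042960,[q05,q13,q78,q88,q88]),
  (-42708480,[q05,q17,q38,q78,q88]), (10548400,[q05,q17,q38,q88,q88]),
  (-10021040,[q05,q18,q37,q88,q88]), (-20014560,[q05,q18,q38,q77,q88]),
  (122576640,[q05,q18,q38,q78,q78]), (-11666320,[q05,q18,q38,q78,q88]),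
  (-339040,[q07,q15,q37,q88,q88]), (3626880,[q07,q15,q38,q78,q88]),
  (-1174608,[q07,q15,q38,q88,q88]), (34848,[q07,q18,q35,q88,q88]), (190080,[q07,q18,q38,q57,q88]),
  (-2643840,[q07,q18,q38,q58,q78]), (-1058160,[q08,q13,q57,q88,q88]),
  (281952,[q08,q15,q37,q88,q88]), (1262880,[q08,q15,q38,q77,q88]),
  (-6322560,[q08,q15,q38,q78,q78]), (1798368,[q08,q15,q38,q78,q88]),
  (-2355840,[q08,q17,q38,q57,q88]), (6387840,[q08,q17,q38,q58,q78]),
  (-4348800,[q08,q17,q38,q58,q88]), (-227520,[q08,q18,q35,q78,q88]),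
  (-311040,[q08,q18,q37,q58,q88]), (-3744000,[q08,q18,q38,q57,q78]),
  (6347520,[q08,q18,q38,q57,q88])]

noncomputable def pXa : Po GV := [
  (-272160,[q01,q28,q34,q57,q67,q88]), (1117440,[q01,q28,q34,q58,q67,q78]),
  (-372960,[q01,q28,q35,q47,q67,q88]), (-431520,[q02,q13,q47,q58,q67,q88]),
  (451680,[q02,q13,q48,q57,q67,q88]), (-80640,[q02,q13,q48,q58,q67,q78]),
  (10080,[q02,q14,q35,q67,q78,q88]), (20160,[q02,q15,q34,q67,q78,q88]),
  (29760,[q02,q17,q34,q58,q67,q88]), (562080,[q02,q17,q35,q48,q67,q88]),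
  (-147840,[q02,q18,q34,q57,q67,q88]), (-2880,[q02,q18,q34,q58,q67,q78]),
  (-498720,[q02,q18,q35,q47,q67,q88]), (-123840,[q02,q18,q35,q48,q67,q78]),
  (-36000,[q03,q14,q28,q57,q67,q88]), (590400,[q03,q14,q28,q58,q67,q78]),
  (180000,[q03,q15,q28,q47,q67,q88]), (-201600,[q03,q15,q28,q48,q67,q78]),
  (72000,[q03,q17,q28,q48,q58,q67]), (-72000,[q03,q18,q28,q45,q67,q78]),
  (-878400,[q03,q18,q28,q47,q58,q67]), (-374400,[q03,q18,q28,q48,q57,q67]),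
  (492480,[q04,q13,q28,q57,q67,q88]), (48960,[q04,q13,q28,q58,q67,q78]),
  (514080,[q04,q17,q28,q35,q67,q88]), (92160,[q04,q18,q28,q35,q67,q78]),
  (10080,[q05,q12,q34,q67,q78,q88]), (-227520,[q05,q13,q28,q47,q67,q88]),
  (-426240,[q05,q13,q28,q48,q67,q78]), (-95040,[q05,q17,q28,q34,q67,q88]),
  (673920,[q05,q18,q28,q34,q67,q78]), (461280,[q07,q12,q34,q58,q67,q88]),
  (110400,[q07,q12,q35,q48,q67,q88]), (-8640,[q07,q13,q28,q48,q58,q67]),
  (-4320,[q07,q14,q28,q35,q67,q88]), (322560,[q07,q15,q28,q34,q67,q88]),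
  (-350880,[q07,q18,q24,q35,q67,q88]), (-1615680,[q07,q18,q28,q34,q58,q67]),
  (-627840,[q07,q18,q28,q35,q48,q67]), (-599520,[q08,q12,q34,q57,q67,q88]),
  (77760,[q08,q12,q34,q58,q67,q78]), (-67200,[q08,q12,q35,q47,q67,q88]),
  (-43200,[q08,q12,q35,q48,q67,q78]), (-1229760,[q08,q13,q28,q45,q67,q78]),
  (552960,[q08,q13,q28,q47,q58,q67]), (1632960,[q08,q13,q28,q48,q57,q67]),
  (-584640,[q08,q14,q28,q35,q67,q78]), (-319680,[q08,q15,q28,q34,q67,q78]),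
  (532320,[q08,q17,q24,q35,q67,q88]), (-103680,[q08,q17,q28,q34,q58,q67]),
  (1460160,[q08,q17,q28,q35,q48,q67]), (-120960,[q08,q18,q24,q35,q67,q78]),
  (515520,[q08,q18,q28,q34,q57,q67]), (999360,[q08,q18,q28,q35,q47,q67])]

noncomputable def pZ3 : Po GV := [
  (132000,[q02,q13,q57,q67,q88,q88]), (132000,[q02,q17,q35,q67,q88,q88]),
  (734400,[q08,q13,q28,q57,q67,q88]), (-1238400,[q08,q13,q28,q58,q67,q78]),
  (734400,[q08,q17,q28,q35,q67,q88]), (-1238400,[q08,q18,q28,q35,q67,q78])]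

noncomputable def pZ1 : Po GV := [
  (-100800,[q02,q13,q57,q67,q78,q88]), (-734400,[q03,q17,q27,q58,q68,q78]),
  (122400,[q03,q18,q27,q58,q68,q77]), (-129600,[q07,q13,q27,q58,q68,q78]),
  (21600,[q08,q13,q27,q58,q68,q77])]

noncomputable def pR0 : Po GV := [
  (-305280,[q02,q13,q47,q57,q77]), (-938880,[q02,q13,q47,q57,q78]), (20160,[q02,q13,q47,q57,q88]),
  (1486080,[q02,q13,q47,q58,q77]), (-943680,[q02,q13,q47,q58,q78]),
  (-1283040,[q02,q13,q47,q58,q88]), (1171392,[q02,q13,q48,q57,q77]),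
  (874560,[q02,q13,q48,q57,q78]), (1349280,[q02,q13,q48,q57,q88]),
  (-106560,[q02,q13,q48,q58,q77]), (-253440,[q02,q13,q48,q58,q78]), (-2880,[q02,q13,q48,q58,q88]),
  (-6986080,[q02,q14,q35,q77,q77]), (-1480768,[q02,q14,q35,q77,q78]),
  (-8790848,[q02,q14,q35,q77,q88]), (26650176,[q02,q14,q35,q78,q78]),
  (24480,[q02,q14,q35,q78,q88]), (-720,[q02,q14,q35,q88,q88]), (-12006160,[q02,q14,q37,q57,q77]),
  (5265184,[q02,q14,q37,q57,q78]), (-14363328,[q02,q14,q37,q57,q88]),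
  (27466432,[q02,q14,q37,q58,q77]), (-25367616,[q02,q14,q37,q58,q78]),
  (957600,[q02,q14,q37,q58,q88]), (-14824448,[q02,q14,q38,q57,q77]),
  (54421824,[q02,q14,q38,q57,q78]), (102240,[q02,q14,q38,q57,q88]),
  (-19364128,[q02,q14,q38,q58,q77]), (-1782720,[q02,q14,q38,q58,q78]),
  (-2880,[q02,q14,q38,q58,q88]), (3277792,[q02,q15,q34,q77,q77]),
  (13377472,[q02,q15,q34,q77,q78]), (534752,[q02,q15,q34,q77,q88]),
  (-508416,[q02,q15,q34,q78,q78]), (72000,[q02,q15,q34,q78,q88]), (-720,[q02,q15,q34,q88,q88]),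
  (1576608,[q02,q15,q37,q47,q77]), (4543104,[q02,q15,q37,q47,q78]),
  (1617024,[q02,q15,q37,q47,q88]), (-1627968,[q02,q15,q37,q48,q77]),
  (2406528,[q02,q15,q37,q48,q78]), (-1061280,[q02,q15,q37,q48,q88]),
  (-1782528,[q02,q15,q38,q47,q77]), (-6580992,[q02,q15,q38,q47,q78]),
  (-545760,[q02,q15,q38,q47,q88]), (919584,[q02,q15,q38,q48,q77]), (558720,[q02,q15,q38,q48,q78]),
  (5760,[q02,q15,q38,q48,q88]), (6554960,[q02,q17,q34,q57,q77]), (-1419680,[q02,q17,q34,q57,q78]),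
  (-109440,[q02,q17,q34,q57,q88]), (2629440,[q02,q17,q34,q58,q77]),
  (7190400,[q02,q17,q34,q58,q78]), (66240,[q02,q17,q34,q58,q88]), (-141120,[q02,q17,q35,q47,q77]),
  (3523392,[q02,q17,q35,q47,q78]), (37440,[q02,q17,q35,q47,q88]), (767808,[q02,q17,q35,q48,q77]),
  (-1174080,[q02,q17,q35,q48,q78]), (1715040,[q02,q17,q35,q48,q88]),
  (1117440,[q02,q17,q37,q47,q57]), (-10558080,[q02,q17,q37,q47,q58]),
  (-8553600,[q02,q17,q37,q48,q57]), (-866880,[q02,q17,q37,q48,q58]),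
  (9734400,[q02,q17,q38,q47,q57]), (728640,[q02,q17,q38,q47,q58]),
  (-1411200,[q02,q17,q38,q48,q57]), (-158400,[q02,q17,q38,q48,q58]),
  (1840320,[q02,q18,q34,q57,q77]), (8534400,[q02,q18,q34,q57,q78]),
  (-432000,[q02,q18,q34,q57,q88]), (-2632160,[q02,q18,q34,q58,q77]),
  (14400,[q02,q18,q34,q58,q78]), (-2880,[q02,q18,q34,q58,q88]), (-4065600,[q02,q18,q35,q47,q77]),
  (-2404032,[q02,q18,q35,q47,q78]), (-1501920,[q02,q18,q35,q47,q88]),
  (267552,[q02,q18,q35,q48,q77]), (-417600,[q02,q18,q35,q48,q78]), (5760,[q02,q18,q35,q48,q88]),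
  (5322240,[q02,q18,q37,q47,q57]), (1601280,[q02,q18,q37,q47,q58]),
  (-388800,[q02,q18,q37,q48,q57]), (-984960,[q02,q18,q37,q48,q58]),
  (1304640,[q02,q18,q38,q47,q57]), (2623680,[q02,q18,q38,q47,q58]),
  (1077120,[q02,q18,q38,q48,q57]), (11520,[q02,q18,q38,q48,q58]), (6287040,[q03,q12,q47,q57,q77]),
  (-46234368,[q03,q12,q47,q57,q78]), (6086592,[q03,q12,q47,q57,q88]),
  (-822528,[q03,q12,q47,q58,q77]), (6842496,[q03,q12,q47,q58,q78]),
  (1306080,[q03,q12,q47,q58,q88]), (5519424,[q03,q12,q48,q57,q77]),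
  (6336384,[q03,q12,q48,q57,q78]), (-1360800,[q03,q12,q48,q57,q88]),
  (-1488960,[q03,q12,q48,q58,q77]), (230400,[q03,q12,q48,q58,q78]), (-2880,[q03,q12,q48,q58,q88]),
  (10631200,[q03,q14,q25,q77,q77]), (-22078096,[q03,q14,q25,q77,q78]),
  (-4273632,[q03,q14,q25,q77,q88]), (-4231872,[q03,q14,q25,q78,q78]),
  (-36000,[q03,q14,q25,q78,q88]), (-720,[q03,q14,q25,q88,q88]), (-12106960,[q03,q14,q27,q57,q77]),
  (-32746784,[q03,q14,q27,q57,q78]), (-8043264,[q03,q14,q27,q57,q88]),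
  (32596864,[q03,q14,q27,q58,q77])]

noncomputable def pR1 : Po GV := [
  (-22344192,[q03,q14,q27,q58,q78]), (-934560,[q03,q14,q27,q58,q88]),
  (-20619664,[q03,q14,q28,q57,q77]), (-7905024,[q03,q14,q28,q57,q78]),
  (-113760,[q03,q14,q28,q57,q88]), (-9395136,[q03,q14,q28,q58,q77]),
  (1759680,[q03,q14,q28,q58,q78]), (-2880,[q03,q14,q28,q58,q88]),
  (-1120608,[q03,q15,q24,q77,q77]), (8149344,[q03,q15,q24,q77,q78]),
  (2630688,[q03,q15,q24,q77,q88]), (-18258624,[q03,q15,q24,q78,q78]),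
  (-48960,[q03,q15,q24,q78,q88]), (-720,[q03,q15,q24,q88,q88]), (1475808,[q03,q15,q27,q47,q77]),
  (-33490752,[q03,q15,q27,q47,q78]), (3662976,[q03,q15,q27,q47,q88]),
  (2182464,[q03,q15,q27,q48,q77]), (14029632,[q03,q15,q27,q48,q78]),
  (1049760,[q03,q15,q27,q48,q88]), (6757344,[q03,q15,q28,q47,q77]),
  (-36174528,[q03,q15,q28,q47,q78]), (534240,[q03,q15,q28,q47,q88]),
  (6466176,[q03,q15,q28,q48,q77]), (-650880,[q03,q15,q28,q48,q78]), (5760,[q03,q15,q28,q48,q88]),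
  (-241920,[q03,q17,q24,q57,q77]), (9042624,[q03,q17,q24,q57,q78]),
  (6233472,[q03,q17,q24,q57,q88]), (-6209280,[q03,q17,q24,q58,q77]),
  (5859456,[q03,q17,q24,q58,q78]), (-112320,[q03,q17,q24,q58,q88]),
  (-4645440,[q03,q17,q25,q47,q77]), (7799616,[q03,q17,q25,q47,q78]),
  (6017472,[q03,q17,q25,q47,q88]), (-1771200,[q03,q17,q25,q48,q77]),
  (6106944,[q03,q17,q25,q48,q78]), (-1657440,[q03,q17,q25,q48,q88]),
  (1923840,[q03,q17,q27,q47,q57]), (-3328704,[q03,q17,q27,q47,q58]),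
  (6617664,[q03,q17,q27,q48,q57]), (-2324160,[q03,q17,q27,q48,q58]),
  (14114304,[q03,q17,q28,q47,q57]), (5040576,[q03,q17,q28,q47,q58]),
  (6804864,[q03,q17,q28,q48,q57]), (273600,[q03,q17,q28,q48,q58]),
  (12057024,[q03,q18,q24,q57,q77]), (-47853888,[q03,q18,q24,q57,q78]),
  (455040,[q03,q18,q24,q57,q88]), (3802752,[q03,q18,q24,q58,q77]), (31680,[q03,q18,q24,q58,q78]),
  (-2880,[q03,q18,q24,q58,q88]), (10066752,[q03,q18,q25,q47,q77]),
  (-46927488,[q03,q18,q25,q47,q78]), (1490400,[q03,q18,q25,q47,q88]),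
  (5888064,[q03,q18,q25,q48,q77]), (325440,[q03,q18,q25,q48,q78]), (5760,[q03,q18,q25,q48,q88]),
  (-35584128,[q03,q18,q27,q47,q57]), (9232704,[q03,q18,q27,q47,q58]),
  (13561728,[q03,q18,q27,q48,q57]), (961920,[q03,q18,q27,q48,q58]),
  (-49301568,[q03,q18,q28,q47,q57]), (-2646720,[q03,q18,q28,q47,q58]),
  (-1169280,[q03,q18,q28,q48,q57]), (11520,[q03,q18,q28,q48,q58]),
  (-1116480,[q04,q12,q35,q77,q77]), (653760,[q04,q12,q35,q77,q78]),
  (-601056,[q04,q12,q35,q77,q88]), (1221696,[q04,q12,q35,q78,q78]), (-5760,[q04,q12,q35,q78,q88]),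
  (-720,[q04,q12,q35,q88,q88]), (6698880,[q04,q12,q37,q57,q77]), (-9149760,[q04,q12,q37,q57,q78]),
  (5353920,[q04,q12,q37,q57,q88]), (-6243840,[q04,q12,q37,q58,q77]),
  (555840,[q04,q12,q37,q58,q78]), (-339840,[q04,q12,q37,q58,q88]),
  (-512640,[q04,q12,q38,q57,q77]), (5431680,[q04,q12,q38,q57,q78]),
  (-1483200,[q04,q12,q38,q57,q88]), (-161280,[q04,q12,q38,q58,q77]),
  (-158400,[q04,q12,q38,q58,q78]), (-2880,[q04,q12,q38,q58,q88]), (-29520,[q04,q13,q25,q77,q77]),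
  (685440,[q04,q13,q25,q77,q78]), (-545280,[q04,q13,q25,q77,q88]), (887040,[q04,q13,q25,q78,q78]),
  (-5760,[q04,q13,q25,q78,q88]), (-720,[q04,q13,q25,q88,q88]), (5760,[q04,q13,q27,q57,q77]),
  (1676160,[q04,q13,q27,q57,q78]), (-4085760,[q04,q13,q27,q57,q88]),
  (604800,[q04,q13,q27,q58,q77]), (1344960,[q04,q13,q27,q58,q78]), (362880,[q04,q13,q27,q58,q88]),
  (-1070400,[q04,q13,q28,q57,q77]), (2808000,[q04,q13,q28,q57,q78]),
  (1471680,[q04,q13,q28,q57,q88]), (714240,[q04,q13,q28,q58,q77]), (135360,[q04,q13,q28,q58,q78]),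
  (-2880,[q04,q13,q28,q58,q88]), (1887648,[q04,q15,q27,q37,q77]), (2564544,[q04,q15,q27,q37,q78]),
  (679104,[q04,q15,q27,q37,q88]), (-863808,[q04,q15,q27,q38,q77]),
  (-4138752,[q04,q15,q27,q38,q78]), (1503360,[q04,q15,q27,q38,q88]),
  (2555232,[q04,q15,q28,q37,q77]), (-721152,[q04,q15,q28,q37,q78])]

noncomputable def pR2 : Po GV := [
  (-1514880,[q04,q15,q28,q37,q88]), (-1905216,[q04,q15,q28,q38,q77]),
  (-46080,[q04,q15,q28,q38,q78]), (5760,[q04,q15,q28,q38,q88]), (-4233600,[q04,q17,q25,q37,q77]),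
  (-875520,[q04,q17,q25,q37,q78]), (5457600,[q04,q17,q25,q37,q88]),
  (-175680,[q04,q17,q25,q38,q77]), (5293440,[q04,q17,q25,q38,q78]),
  (-1513440,[q04,q17,q25,q38,q88]), (169920,[q04,q17,q27,q35,q77]),
  (2725632,[q04,q17,q27,q35,q78]), (-4352832,[q04,q17,q27,q35,q88]),
  (-1370880,[q04,q17,q27,q37,q57]), (-7885440,[q04,q17,q27,q37,q58]),
  (6200640,[q04,q17,q27,q38,q57]), (820800,[q04,q17,q27,q38,q58]),
  (-991872,[q04,q17,q28,q35,q77]), (3511872,[q04,q17,q28,q35,q78]),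
  (1571040,[q04,q17,q28,q35,q88]), (3271680,[q04,q17,q28,q37,q57]),
  (-578880,[q04,q17,q28,q37,q58]), (6413760,[q04,q17,q28,q38,q57]), (57600,[q04,q17,q28,q38,q58]),
  (4645440,[q04,q18,q25,q37,q77]), (-7545600,[q04,q18,q25,q37,q78]),
  (-249120,[q04,q18,q25,q37,q88]), (-498240,[q04,q18,q25,q38,q77]),
  (-322560,[q04,q18,q25,q38,q78]), (5760,[q04,q18,q25,q38,q88]), (-3982080,[q04,q18,q27,q35,q77]),
  (901440,[q04,q18,q27,q35,q78]), (237600,[q04,q18,q27,q35,q88]), (5618880,[q04,q18,q27,q37,q57]),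
  (-4083840,[q04,q18,q27,q37,q58]), (457920,[q04,q18,q27,q38,q57]),
  (-2364480,[q04,q18,q27,q38,q58]), (578880,[q04,q18,q28,q35,q77]),
  (230400,[q04,q18,q28,q35,q78]), (5760,[q04,q18,q28,q35,q88]), (-8887680,[q04,q18,q28,q37,q57]),
  (2341440,[q04,q18,q28,q37,q58]), (-46080,[q04,q18,q28,q38,q57]), (11520,[q04,q18,q28,q38,q58]),
  (-720,[q05,q12,q34,q77,q77]), (13661072,[q05,q12,q34,q77,q78]), (-2880,[q05,q12,q34,q77,q88]),
  (-4321152,[q05,q12,q34,q78,q78]), (24480,[q05,q12,q34,q78,q88]), (-720,[q05,q12,q34,q88,q88]),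
  (6799680,[q05,q12,q37,q47,q77]), (-46173888,[q05,q12,q37,q47,q78]),
  (3134592,[q05,q12,q37,q47,q88]), (4404864,[q05,q12,q37,q48,q77]),
  (10877184,[q05,q12,q37,q48,q78]), (-345600,[q05,q12,q37,q48,q88]),
  (3995712,[q05,q12,q38,q47,q77]), (16998336,[q05,q12,q38,q47,q78]),
  (659520,[q05,q12,q38,q47,q88]), (-4504320,[q05,q12,q38,q48,q77]),
  (1370880,[q05,q12,q38,q48,q78]), (5760,[q05,q12,q38,q48,q88]), (-20592,[q05,q13,q24,q77,q77]),
  (3791232,[q05,q13,q24,q77,q78]), (2379456,[q05,q13,q24,q77,q88]),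
  (-18776448,[q05,q13,q24,q78,q78]), (-36000,[q05,q13,q24,q78,q88]), (-720,[q05,q13,q24,q88,q88]),
  (106560,[q05,q13,q27,q47,q77]), (-37270656,[q05,q13,q27,q47,q78]),
  (6141312,[q05,q13,q27,q47,q88]), (3593664,[q05,q13,q27,q48,q77]),
  (9051264,[q05,q13,q27,q48,q78]), (299520,[q05,q13,q27,q48,q88]),
  (4882752,[q05,q13,q28,q47,q77]), (-38549376,[q05,q13,q28,q47,q78]),
  (-705600,[q05,q13,q28,q47,q88]), (3321792,[q05,q13,q28,q48,q77]),
  (-1186560,[q05,q13,q28,q48,q78]), (5760,[q05,q13,q28,q48,q88]),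
  (-11594320,[q05,q14,q27,q37,q77]), (-33910304,[q05,q14,q27,q37,q78]),
  (-7481664,[q05,q14,q27,q37,q88]), (-9368576,[q05,q14,q27,q38,q77]),
  (61765248,[q05,q14,q27,q38,q78]), (-385920,[q05,q14,q27,q38,q88]),
  (-19156624,[q05,q14,q28,q37,q77]), (-11159424,[q05,q14,q28,q37,q78]),
  (339840,[q05,q14,q28,q37,q88]), (30859584,[q05,q14,q28,q38,q77]), (92160,[q05,q14,q28,q38,q78]),
  (5760,[q05,q14,q28,q38,q88]), (270720,[q05,q17,q24,q37,q77]), (10543104,[q05,q17,q24,q37,q78]),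
  (3468672,[q05,q17,q24,q37,q88]), (-4970880,[q05,q17,q24,q38,q77]),
  (15736896,[q05,q17,q24,q38,q78]), (313920,[q05,q17,q24,q38,q88]),
  (6966800,[q05,q17,q27,q34,q77]), (5193376,[q05,q17,q27,q34,q78]),
  (846720,[q05,q17,q27,q34,q88]), (-2177280,[q05,q17,q27,q37,q47]),
  (13244544,[q05,q17,q27,q37,q48]), (16174656,[q05,q17,q27,q38,q47]),
  (-8945280,[q05,q17,q27,q38,q48]), (6981200,[q05,q17,q28,q34,q77]),
  (-8250624,[q05,q17,q28,q34,q78]), (-256320,[q05,q17,q28,q34,q88]),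
  (6499584,[q05,q17,q28,q37,q47]), (11931264,[q05,q17,q28,q37,q48])]

noncomputable def pR3 : Po GV := [
  (16324416,[q05,q17,q28,q38,q47]), (-184320,[q05,q17,q28,q38,q48]),
  (10942464,[q05,q18,q24,q37,q77]), (-41191488,[q05,q18,q24,q37,q78]),
  (786240,[q05,q18,q24,q37,q88]), (3344832,[q05,q18,q24,q38,q77]),
  (-2067840,[q05,q18,q24,q38,q78]), (5760,[q05,q18,q24,q38,q88]), (6691392,[q05,q18,q27,q34,q77]),
  (10612224,[q05,q18,q27,q34,q78]), (-797760,[q05,q18,q27,q34,q88]),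
  (-30397248,[q05,q18,q27,q37,q47]), (8204928,[q05,q18,q27,q37,q48]),
  (8273664,[q05,q18,q27,q38,q47]), (-662400,[q05,q18,q27,q38,q48]),
  (7371072,[q05,q18,q28,q34,q77]), (1975680,[q05,q18,q28,q34,q78]), (5760,[q05,q18,q28,q34,q88]),
  (-44520768,[q05,q18,q28,q37,q47]), (846720,[q05,q18,q28,q37,q48]),
  (92160,[q05,q18,q28,q38,q47]), (-57600,[q05,q18,q28,q38,q48]), (567360,[q07,q12,q34,q57,q77]),
  (21683680,[q07,q12,q34,q57,q78]), (-138240,[q07,q12,q34,q57,q88]),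
  (-2609120,[q07,q12,q34,q58,q77]), (8116800,[q07,q12,q34,q58,q78]),
  (1395360,[q07,q12,q34,q58,q88]), (-4054080,[q07,q12,q35,q47,q77]),
  (-1242432,[q07,q12,q35,q47,q78]), (95040,[q07,q12,q35,q47,q88]), (368352,[q07,q12,q35,q48,q77]),
  (-2100480,[q07,q12,q35,q48,q78]), (308160,[q07,q12,q35,q48,q88]),
  (11255040,[q07,q12,q37,q47,q57]), (-5192640,[q07,q12,q37,q47,q58]),
  (1632960,[q07,q12,q37,q48,q57]), (-1154880,[q07,q12,q37,q48,q58]),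
  (-829440,[q07,q12,q38,q47,q57]), (-466560,[q07,q12,q38,q47,q58]),
  (-3441600,[q07,q12,q38,q48,q57]), (-20160,[q07,q12,q38,q48,q58]),
  (199872,[q07,q13,q24,q57,q77]), (-938880,[q07,q13,q24,q57,q78]), (138240,[q07,q13,q24,q57,q88]),
  (28800,[q07,q13,q24,q58,q77]), (-1000320,[q07,q13,q24,q58,q78]),
  (-1372320,[q07,q13,q24,q58,q88]), (5760,[q07,q13,q25,q47,q77]), (-800640,[q07,q13,q25,q47,q78]),
  (8640,[q07,q13,q25,q47,q88]), (171072,[q07,q13,q25,q48,q77]), (-281280,[q07,q13,q25,q48,q78]),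
  (-354240,[q07,q13,q25,q48,q88]), (-950400,[q07,q13,q27,q47,q57]),
  (-184320,[q07,q13,q27,q47,q58]), (480384,[q07,q13,q27,q48,q57]),
  (1362240,[q07,q13,q27,q48,q58]), (-800640,[q07,q13,q28,q47,q57]),
  (648000,[q07,q13,q28,q47,q58]), (1520640,[q07,q13,q28,q48,q57]), (-72000,[q07,q13,q28,q48,q58]),
  (41937280,[q07,q14,q25,q37,q77]), (-49374176,[q07,q14,q25,q37,q78]),
  (-14101248,[q07,q14,q25,q37,q88]), (-59024928,[q07,q14,q25,q38,q77]),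
  (55377984,[q07,q14,q25,q38,q78]), (-10080,[q07,q14,q25,q38,q88]),
  (-28373440,[q07,q14,q27,q35,q77]), (-3458048,[q07,q14,q27,q35,q78]),
  (-17276416,[q07,q14,q27,q35,q88]), (-21731360,[q07,q14,q27,q37,q57]),
  (55886144,[q07,q14,q27,q37,q58]), (-25527616,[q07,q14,q27,q38,q57]),
  (-38434496,[q07,q14,q27,q38,q58]), (-45978176,[q07,q14,q28,q35,q77]),
  (52511232,[q07,q14,q28,q35,q78]), (-36000,[q07,q14,q28,q35,q88]),
  (-49392416,[q07,q14,q28,q37,q57]), (-26646336,[q07,q14,q28,q37,q58]),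
  (54784704,[q07,q14,q28,q38,q57]), (-46080,[q07,q14,q28,q38,q58]),
  (-4781952,[q07,q15,q24,q37,q77]), (7261824,[q07,q15,q24,q37,q78]),
  (2109504,[q07,q15,q24,q37,q88]), (1788192,[q07,q15,q24,q38,q77]),
  (-6748032,[q07,q15,q24,q38,q78]), (-973440,[q07,q15,q24,q38,q88]),
  (12970048,[q07,q15,q27,q34,q77]), (24836864,[q07,q15,q27,q34,q78]),
  (-1102016,[q07,q15,q27,q34,q88]), (4253376,[q07,q15,q27,q37,q47]),
  (-6486336,[q07,q15,q27,q37,q48]), (-4230336,[q07,q15,q27,q38,q47]),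
  (1139328,[q07,q15,q27,q38,q48]), (13979072,[q07,q15,q28,q34,q77]),
  (-668352,[q07,q15,q28,q34,q78]), (961920,[q07,q15,q28,q34,q88]),
  (4377024,[q07,q15,q28,q37,q47]), (3086208,[q07,q15,q28,q37,q48]),
  (-6578112,[q07,q15,q28,q38,q47]), (92160,[q07,q15,q28,q38,q48]), (-2880,[q07,q17,q24,q35,q77]),
  (-2185920,[q07,q17,q24,q35,q78]), (155520,[q07,q17,q24,q35,q88]), (11520,[q07,q17,q24,q37,q57]),
  (-8202240,[q07,q17,q24,q37,q58]), (-2646720,[q07,q17,q24,q38,q57]),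
  (1641600,[q07,q17,q24,q38,q58]), (-2880,[q07,q17,q25,q34,q77])]

noncomputable def pR4 : Po GV := [
  (19949920,[q07,q17,q25,q34,q78]), (-207360,[q07,q17,q25,q34,q88]),
  (-8248320,[q07,q17,q25,q37,q47]), (-46080,[q07,q17,q25,q37,q48]),
  (-993600,[q07,q17,q25,q38,q47]), (-2442240,[q07,q17,q25,q38,q48]),
  (12856480,[q07,q17,q27,q34,q57]), (7174080,[q07,q17,q27,q34,q58]),
  (11520,[q07,q17,q27,q35,q47]), (-2220480,[q07,q17,q27,q35,q48]),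
  (12833440,[q07,q17,q28,q34,q57]), (5345280,[q07,q17,q28,q34,q58]),
  (-46080,[q07,q17,q28,q35,q47]), (-1238400,[q07,q17,q28,q35,q48]),
  (-3674208,[q07,q18,q24,q35,q77]), (-2105472,[q07,q18,q24,q35,q78]),
  (-1058400,[q07,q18,q24,q35,q88]), (12807360,[q07,q18,q24,q37,q57]),
  (-1589760,[q07,q18,q24,q37,q58]), (1152000,[q07,q18,q24,q38,q57]),
  (4835520,[q07,q18,q24,q38,q58]), (-2082080,[q07,q18,q25,q34,q77]),
  (9759360,[q07,q18,q25,q34,q78]), (1046880,[q07,q18,q25,q34,q88]),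
  (14656320,[q07,q18,q25,q37,q47]), (-1679040,[q07,q18,q25,q37,q48]),
  (-475200,[q07,q18,q25,q38,q47]), (1975680,[q07,q18,q25,q38,q48]),
  (9961920,[q07,q18,q27,q34,q57]), (-434560,[q07,q18,q27,q34,q58]),
  (-9362112,[q07,q18,q27,q35,q47]), (3795264,[q07,q18,q27,q35,q48]),
  (7836480,[q07,q18,q28,q34,q57]), (-4858560,[q07,q18,q28,q34,q58]),
  (-1066752,[q07,q18,q28,q35,q47]), (-1791360,[q07,q18,q28,q35,q48]),
  (7819280,[q08,q12,q34,q57,q77]), (-15357120,[q08,q12,q34,q57,q78]),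
  (-1804320,[q08,q12,q34,q57,q88]), (2704320,[q08,q12,q34,q58,q77]),
  (221760,[q08,q12,q34,q58,q78]), (-2880,[q08,q12,q34,q58,q88]), (-161280,[q08,q12,q35,q47,q77]),
  (3253632,[q08,q12,q35,q47,q78]), (-224640,[q08,q12,q35,q47,q88]),
  (764928,[q08,q12,q35,q48,q77]), (-37440,[q08,q12,q35,q48,q78]), (5760,[q08,q12,q35,q48,q88]),
  (-4746240,[q08,q12,q37,q47,q57]), (-846720,[q08,q12,q37,q47,q58]),
  (31680,[q08,q12,q37,q48,q57]), (2016000,[q08,q12,q37,q48,q58]), (8377920,[q08,q12,q38,q47,q57]),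
  (-1704960,[q08,q12,q38,q47,q58]), (-4806720,[q08,q12,q38,q48,q57]),
  (11520,[q08,q12,q38,q48,q58]), (666240,[q08,q13,q24,q57,q77]), (1173120,[q08,q13,q24,q57,q78]),
  (1792800,[q08,q13,q24,q57,q88]), (1353600,[q08,q13,q24,q58,q77]),
  (-244800,[q08,q13,q24,q58,q78]), (-2880,[q08,q13,q24,q58,q88]), (1123200,[q08,q13,q25,q47,q77]),
  (73920,[q08,q13,q25,q47,q78]), (178560,[q08,q13,q25,q47,q88]), (1078080,[q08,q13,q25,q48,q77]),
  (221760,[q08,q13,q25,q48,q78]), (5760,[q08,q13,q25,q48,q88]), (-529920,[q08,q13,q27,q47,q57]),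
  (1612800,[q08,q13,q27,q47,q58]), (-6815040,[q08,q13,q27,q48,q57]),
  (-2108160,[q08,q13,q27,q48,q58]), (2082240,[q08,q13,q28,q47,q57]),
  (1612800,[q08,q13,q28,q47,q58]), (4991040,[q08,q13,q28,q48,q57]), (11520,[q08,q13,q28,q48,q58]),
  (-26528848,[q08,q14,q25,q37,q77]), (24398784,[q08,q14,q25,q37,q78]),
  (-136800,[q08,q14,q25,q37,q88]), (26071872,[q08,q14,q25,q38,q77]),
  (1846080,[q08,q14,q25,q38,q78]), (5760,[q08,q14,q25,q38,q88]), (-1060288,[q08,q14,q27,q35,q77]),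
  (56187264,[q08,q14,q27,q35,q78]), (90720,[q08,q14,q27,q35,q88]),
  (3053344,[q08,q14,q27,q37,q57]), (-28884096,[q08,q14,q27,q37,q58]),
  (52258944,[q08,q14,q27,q38,q57]), (408960,[q08,q14,q27,q38,q58]),
  (26371392,[q08,q14,q28,q35,q77]), (-1661760,[q08,q14,q28,q35,q78]),
  (5760,[q08,q14,q28,q35,q88]), (25389504,[q08,q14,q28,q37,q57]), (-501120,[q08,q14,q28,q37,q58]),
  (92160,[q08,q14,q28,q38,q57]), (11520,[q08,q14,q28,q38,q58]), (4730592,[q08,q15,q24,q37,q77]),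
  (-709632,[q08,q15,q24,q37,q78]), (-1114560,[q08,q15,q24,q37,q88]),
  (-2533056,[q08,q15,q24,q38,q77]), (912960,[q08,q15,q24,q38,q78]), (5760,[q08,q15,q24,q38,q88]),
  (13509952,[q08,q15,q27,q34,q77]), (1894848,[q08,q15,q27,q34,q78]),
  (1103040,[q08,q15,q27,q34,q88]), (3512064,[q08,q15,q27,q37,q47]),
  (6227328,[q08,q15,q27,q37,q48]), (-4216512,[q08,q15,q27,q38,q47]),
  (2664000,[q08,q15,q27,q38,q48]), (81984,[q08,q15,q28,q34,q77])]

noncomputable def pR5 : Po GV := [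
  (-1005120,[q08,q15,q28,q34,q78]), (5760,[q08,q15,q28,q34,q88]),
  (-1418112,[q08,q15,q28,q37,q47]), (-2479680,[q08,q15,q28,q37,q48]),
  (92160,[q08,q15,q28,q38,q47]), (-57600,[q08,q15,q28,q38,q48]), (629568,[q08,q17,q24,q35,q77]),
  (4478592,[q08,q17,q24,q35,q78]), (1625760,[q08,q17,q24,q35,q88]),
  (-7447680,[q08,q17,q24,q37,q57]), (-3749760,[q08,q17,q24,q37,q58]),
  (10255680,[q08,q17,q24,q38,q57]), (368640,[q08,q17,q24,q38,q58]),
  (9221840,[q08,q17,q25,q34,q77]), (-15231360,[q08,q17,q25,q34,q78]),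
  (-1568160,[q08,q17,q25,q34,q88]), (-1296000,[q08,q17,q25,q37,q47]),
  (-452160,[q08,q17,q25,q37,q48]), (8311680,[q08,q17,q25,q38,q47]),
  (-4564800,[q08,q17,q25,q38,q48]), (-1183520,[q08,q17,q27,q34,q57]),
  (6595200,[q08,q17,q27,q34,q58]), (3212352,[q08,q17,q27,q35,q47]),
  (-6369984,[q08,q17,q27,q35,q48]), (-13875840,[q08,q17,q28,q34,q57]),
  (-253440,[q08,q17,q28,q34,q58]), (6098112,[q08,q17,q28,q35,q47]),
  (4196160,[q08,q17,q28,q35,q48]), (-120960,[q08,q18,q24,q35,q77]),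
  (-408960,[q08,q18,q24,q35,q78]), (5760,[q08,q18,q24,q35,q88]), (-5204160,[q08,q18,q24,q37,q57]),
  (-1019520,[q08,q18,q24,q37,q58]), (-1592640,[q08,q18,q24,q38,q57]),
  (11520,[q08,q18,q24,q38,q58]), (1388160,[q08,q18,q25,q34,q77]), (316800,[q08,q18,q25,q34,q78]),
  (5760,[q08,q18,q25,q34,q88]), (-3303360,[q08,q18,q25,q37,q47]), (1635840,[q08,q18,q25,q37,q48]),
  (-2905920,[q08,q18,q25,q38,q47]), (-57600,[q08,q18,q25,q38,q48]),
  (1897920,[q08,q18,q27,q34,q57]), (996480,[q08,q18,q27,q34,q58]),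
  (-2848320,[q08,q18,q27,q35,q47]), (-1451520,[q08,q18,q27,q35,q48]),
  (1500480,[q08,q18,q28,q34,q57]), (11520,[q08,q18,q28,q34,q58]), (3090240,[q08,q18,q28,q35,q47]),
  (-57600,[q08,q18,q28,q35,q48])]

noncomputable def pR : Po GV := ap pR0 (ap pR1 (ap pR2 (ap pR3 (ap pR4 pR5))))

noncomputable def pP : Po (Fin 3 × Fin 3) := [
  (-30,[(1,1),(2,2),(2,2),(0,0),(0,0)]), (336,[(1,1),(2,2),(2,0),(2,0),(0,0)]),
  (-416,[(1,1),(2,0),(2,0),(2,0),(2,0)]), (24,[(1,2),(1,2),(2,2),(0,0),(0,0)]),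
  (-192,[(1,2),(1,2),(2,0),(2,0),(0,0)]), (-96,[(1,2),(1,0),(2,2),(2,0),(0,0)]),
  (512,[(1,2),(1,0),(2,0),(2,0),(2,0)]), (6,[(1,2),(2,2),(2,2),(0,0),(0,0)]),
  (-96,[(1,2),(2,2),(2,0),(2,0),(0,0)]), (160,[(1,2),(2,0),(2,0),(2,0),(2,0)]),
  (24,[(1,0),(1,0),(2,2),(2,2),(0,0)]), (-192,[(1,0),(1,0),(2,2),(2,0),(2,0)]),
  (24,[(1,0),(2,2),(2,2),(2,0),(0,0)]), (-64,[(1,0),(2,2),(2,0),(2,0),(2,0)])]

noncomputable def pM0 : Po CV := [
  (-30,[c11,c22,c22,c00,c04]), (240,[c11,c22,c02,c02,c04]), (-108,[c11,c22,c02,c23,c04,c04]),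
  (252,[c11,c22,c02,c24,c00]), (576,[c11,c22,c02,c24,c03,c04]),
  (-180,[c11,c22,c23,c24,c03,c04,c04]), (60,[c11,c22,c24,c24,c00,c03]),
  (576,[c11,c22,c24,c24,c03,c03,c04]), (-624,[c11,c02,c02,c02,c24]),
  (-1040,[c11,c02,c02,c24,c24,c03]), (-2016,[c11,c02,c24,c24,c24,c03,c03]),
  (-2592,[c11,c24,c24,c24,c24,c03,c03,c03]), (24,[c12,c12,c22,c00,c04]),
  (-36,[c12,c01,c22,c24,c00]), (704,[c12,c01,c02,c02,c24]), (72,[c12,c13,c22,c02,c04,c04]),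
  (360,[c12,c13,c22,c24,c03,c04,c04]), (-352,[c12,c13,c02,c02,c24,c04]),
  (-240,[c12,c13,c02,c24,c24,c00]), (-576,[c12,c13,c02,c24,c24,c03,c04]),
  (-112,[c12,c13,c24,c24,c24,c00,c03]), (-3072,[c12,c13,c24,c24,c24,c03,c03,c04]),
  (-84,[c12,c14,c22,c02,c00]), (-168,[c12,c14,c22,c24,c00,c03]), (160,[c12,c14,c02,c02,c02]),
  (-32,[c12,c14,c02,c02,c23,c04]), (480,[c12,c14,c02,c02,c24,c03]),
  (-384,[c01,c13,c22,c02,c24,c04]), (1120,[c01,c13,c02,c24,c24,c24,c03]),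
  (18,[c01,c14,c22,c22,c00]), (-192,[c01,c14,c22,c02,c02]), (24,[c13,c13,c22,c22,c04,c04,c04]),
  (-672,[c13,c13,c22,c24,c24,c03,c04,c04]), (4000,[c13,c13,c24,c24,c24,c24,c03,c03,c04]),
  (-672,[c13,c14,c22,c02,c24,c03,c04]), (336,[c13,c14,c22,c24,c24,c00,c03]),
  (3200,[c13,c14,c02,c24,c24,c24,c03,c03]), (4800,[c13,c14,c24,c24,c24,c24,c03,c03,c03]),
  (12,[c13,c22,c22,c02,c04,c04]), (8,[c13,c22,c22,c23,c04,c04,c04]),
  (24,[c13,c22,c22,c24,c00,c04]), (36,[c13,c22,c22,c24,c03,c04,c04]),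
  (-192,[c13,c22,c02,c02,c24,c04]), (-120,[c13,c22,c02,c24,c24,c00]),
  (-288,[c13,c22,c02,c24,c24,c03,c04]), (-56,[c13,c22,c24,c24,c24,c00,c03]),
  (-256,[c13,c22,c24,c24,c24,c03,c03,c04]), (400,[c13,c02,c02,c02,c24,c24]),
  (560,[c13,c02,c02,c24,c24,c24,c03]), (720,[c13,c02,c24,c24,c24,c24,c03,c03]),
  (880,[c13,c24,c24,c24,c24,c24,c03,c03,c03]), (42,[c14,c14,c22,c22,c00,c03]),
  (-112,[c14,c14,c22,c02,c02,c03]), (-12,[c14,c22,c22,c02,c00]), (32,[c14,c22,c02,c02,c02])]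

noncomputable def pM1 : Po CV := [
  (108,[c12,c22,c02,c00,c04]), (72,[c12,c22,c24,c00,c03,c04]), (-160,[c12,c02,c02,c23,c04,c04]),
  (-272,[c12,c02,c02,c24,c00]), (6,[c01,c22,c22,c00,c04]), (-144,[c01,c22,c02,c24,c00]),
  (800,[c01,c02,c02,c24,c24,c03]), (18,[c13,c22,c22,c00,c04,c04]),
  (-48,[c13,c22,c02,c24,c03,c04,c04]), (-336,[c13,c22,c24,c24,c00,c03,c04]),
  (1920,[c13,c02,c24,c24,c24,c03,c03,c04]), (720,[c13,c24,c24,c24,c24,c00,c03,c03]),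
  (-4800,[c13,c24,c24,c24,c24,c03,c03,c03,c04]), (-24,[c14,c22,c22,c00,c03,c04]),
  (-32,[c14,c22,c02,c02,c03,c04]), (-432,[c14,c22,c24,c24,c00,c03,c03]),
  (1440,[c14,c02,c02,c24,c24,c03,c03]), (36,[c22,c22,c02,c00,c04]), (9,[c22,c22,c24,c00,c00]),
  (-96,[c22,c02,c02,c02,c04]), (-144,[c22,c02,c02,c24,c00]), (240,[c02,c02,c02,c02,c24]),
  (-2880,[c24,c24,c24,c24,c24,c03,c03,c03,c03])]

noncomputable def pM2 : Po CV := [
  (-156,[c11,c22,c02,c00,c04]), (36,[c11,c22,c23,c03,c04,c04,c04]),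
  (-96,[c11,c22,c24,c00,c03,c04]), (208,[c11,c02,c02,c02,c04]), (416,[c11,c02,c02,c24,c03,c04]),
  (864,[c11,c02,c24,c24,c03,c03,c04]), (1152,[c11,c24,c24,c24,c03,c03,c03,c04]),
  (12,[c12,c01,c22,c00,c04]), (-352,[c12,c01,c02,c02,c04]), (-72,[c12,c13,c22,c03,c04,c04,c04]),
  (256,[c12,c13,c02,c02,c04,c04]), (96,[c12,c13,c02,c24,c00,c04]),
  (192,[c12,c13,c02,c24,c03,c04,c04]), (48,[c12,c13,c24,c24,c00,c03,c04]),
  (1152,[c12,c13,c24,c24,c03,c03,c04,c04]), (24,[c12,c14,c22,c00,c03,c04]),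
  (80,[c12,c14,c02,c02,c00]), (96,[c01,c13,c22,c02,c04,c04]),
  (-480,[c01,c13,c02,c24,c24,c03,c04]), (48,[c01,c14,c22,c02,c00]),
  (-320,[c01,c14,c02,c02,c24,c03]), (192,[c13,c13,c22,c24,c03,c04,c04,c04]),
  (-1600,[c13,c13,c24,c24,c24,c03,c03,c04,c04]), (144,[c13,c14,c22,c02,c03,c04,c04]),
  (-1920,[c13,c14,c02,c24,c24,c03,c03,c04]), (-320,[c13,c14,c24,c24,c24,c00,c03,c03]),
  (-20,[c13,c22,c22,c03,c04,c04,c04]), (48,[c13,c22,c02,c02,c04,c04]),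
  (48,[c13,c22,c02,c24,c00,c04]), (96,[c13,c22,c02,c24,c03,c04,c04]),
  (24,[c13,c22,c24,c24,c00,c03,c04]), (96,[c13,c22,c24,c24,c03,c03,c04,c04]),
  (-160,[c13,c02,c02,c02,c24,c04]), (-240,[c13,c02,c02,c24,c24,c03,c04]),
  (-320,[c13,c02,c24,c24,c24,c03,c03,c04]), (-400,[c13,c24,c24,c24,c24,c03,c03,c03,c04]),
  (144,[c14,c14,c22,c24,c00,c03,c03]), (-480,[c14,c14,c02,c02,c24,c03,c03]),
  (-3,[c14,c22,c22,c00,c00]), (48,[c14,c22,c02,c02,c00]), (-80,[c14,c02,c02,c02,c02])]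

noncomputable def pS : Po CV := [
  (-1,[c11,c24,c24,c24,c24,c03,c03,c03,c03]), (1,[c12,c24,c24,c24,c24,c03,c03,c03,c03]),
  (2,[c13,c14,c24,c24,c24,c24,c03,c03,c03,c03]), (-1,[c13,c24,c24,c24,c24,c24,c03,c03,c03,c03]),
  (-1,[c14,c23,c24,c24,c24,c24,c03,c03,c03,c03])]

/-- antisymmetrisation in `w`, `g2`, `h2` -/
noncomputable def asy (p : Po GV) : Po GV :=
  ap p (ap (rp (t9 0 1 3 6 4 5 2 7 8) p) (ap (rp (t9 0 1 6 2 4 5 3 7 8) p) (sc (-1)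
    (ap (rp (t9 0 1 3 2 4 5 6 7 8) p) (ap (rp (t9 0 1 6 3 4 5 2 7 8) p)
      (rp (t9 0 1 2 6 4 5 3 7 8) p))))))

noncomputable def pXb : Po GV := asy pXa
noncomputable def pPol : Po GV := dh 5 8 (nm (dh 1 7 (nm (dh 0 6 (dh 2 6 (nm (dh 3 6 (dh 4 6
  (nm (bd (sub fun a => bil (vt a.1) (vt a.2)) pP))))))))))
/-- the on-shell part -/
noncomputable def os (p z : Po GV) : Po GV := ap p (sc (-1) (dh 4 8 z))
/-- the test for on-shell plus gauge -/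
noncomputable def nl (p z : Po GV) : Prop := dg wG 5 (os p z) = true ∧ dg wG 6 z = true ∧
  zt prG (dd 8 8 (os p z)) = true ∧ zt prG (dd 8 4 (dd 8 5 (os p z))) = true

end Vale.Agent.P352X.ZZ.RS.Alg
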