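import Vale.Agent.P352Z.R.RES.Cal
import Vale.Agent.P352Z.Spec
import Vale.Agent.P352X.R.RES.DvA

/-!
# P352Z, block RES: the use of NULL
-/

set_option linter.all false

open scoped ContDiff

namespace Vale.Agent.P352X.ZZ.RS

open Vale.Agent.P352 Vale.Agent.P352.GF
open Vale.Agent.P352X.RS.Dva (P4 fi fisch fi_adj)
open MvPolynomial (X C pderiv aeval)

noncomputable section

/-- the restriction to `g = h = w = 0`, `u = 0` -/
def w4 : P9 →ₐ[ℂ] P4 := aeval fun i : Fin 9 × Ix => if i.1 = 8 then X i.2 else 0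

theorem w4_X (j : Fin 9) (m : Ix) : w4 (X (j, m)) = if j = 8 then X m else 0 := by simp [w4]

theorem w4_C (a : ℂ) : w4 (C a) = C a := by simp [w4]

theorem w4_pd (m : Ix) (S : P9) : pderiv m (w4 S) = w4 (pderiv (8, m) S) := by
  classical
  induction S using MvPolynomial.induction_on with
  | C a => simp [w4_C]
  | add p q hp hq => simp only [map_add, hp, hq]
  | mul_X p k hp =>
    have h : pderiv m (w4 (X k)) = w4 (pderiv (8, m) (X k)) := by
      obtain ⟨j, n⟩ := k
      rw [w4_X, pd_X]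
      by_cases e : j = 8 <;> simp [e, MvPolynomial.pderiv_X, Pi.single_apply, apply_ite]
    simp only [map_mul, Derivation.leibniz, map_add, smul_eq_mul, hp, h]

theorem w4_deg {n : ℕ} {S : P9} (h : Deg n S) : (w4 S).IsHomogeneous n := by
  induction h using MvPolynomial.IsWeightedHomogeneous.induction_on with
  | zero => simpa using MvPolynomial.isHomogeneous_zero _ _ _
  | add p q _ _ hp hq => simpa using hp.add hq
  | monomial d r hr =>
    rw [w4, MvPolynomial.aeval_monomial, ← hr, Finsupp.weight_apply]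
    refine .C_mul (.prod _ _ _ fun ⟨j, m⟩ _ => ?_) _
    beta_reduce
    rw [smul_eq_mul, mul_comm]
    refine .pow ?_ _
    split_ifs with e
    · obtain rfl : j = 8 := e
      exact MvPolynomial.isHomogeneous_X _ _
    · exact MvPolynomial.isHomogeneous_zero _ _ _

theorem ev_w4 (S : P9) (v : V) : evp (w4 S) v = ev8 S (0, v) := by
  induction S using MvPolynomial.induction_on with
  | C a => simp [evp, ev8_C, w4_C]
  | add p q hp hq => rw [map_add, ev8_add, ← hp, ← hq, evp, map_add]; rfl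
  | mul_X p k hp =>
    rw [map_mul, ev8_mul, ← hp, evp, map_mul, ev8_X]
    obtain ⟨j, n⟩ := k
    congr 1
    fin_cases j <;> simp [w4, cv]

/-- the hypotheses of NULL on the overlap polynomials -/
structure Ov (d : ℕ) (π : Ix → Ix → P4) : Prop where
  hom : ∀ r s, (π r s).IsHomogeneous d
  con : ∀ s, ∑ r, C (eta r : ℂ) * X r * π r s = 0
  trc : ∑ r, C (eta r : ℂ) * π r r = 0
  dv1 : ∀ r s k, mup ∣ π r s * X k - π k s * X r
  dv2 : ∀ r s k, mup ∣ π r s * X k - π r k * X s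

theorem null (hN : NULL) {d : ℕ} {π : Ix → Ix → P4} (h : Ov d π) {S : P9} (hS : Nl d S) :
    ∑ K : I2, fi (π K.1 K.2) (w4 (dp 4 5 K S)) = 0 := by
  classical
  obtain ⟨Ξ, ζ, h1, h2, h3, h4, rfl⟩ := hS
  have a := hN fi d π (fun r s => w4 (dp 4 5 (r, s) Ξ)) fisch h.hom h.con h.trc h.dv1 h.dv2
    (fun r s => w4_deg (dp_deg h1 (by decide) (by decide) _))
    (fun r s => by
      have : DD 8 8 (dp 4 5 (r, s) Ξ) = 0 := by rw [dp, pd_DD, pd_DD, h3, map_zero, map_zero]
      simpa only [DD_apply, map_sum, map_mul, w4_C, map_zero, w4_pd] using congrArg w4 this)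
    (by
      have := congrArg w4 h4
      simp only [DD_apply, map_sum, map_mul, w4_C, map_zero, MvPolynomial.pderiv_C_mul,
        Finset.mul_sum] at this
      rw [← this, Finset.sum_comm]
      refine Finset.sum_congr rfl fun s _ => Finset.sum_congr rfl fun r _ => ?_
      rw [w4_pd, w4_pd, dp, pd_comm (8, s) (4, r), map_mul, mul_assoc])
  have g : ∀ s Z, ∑ r, fi (π r s) (pderiv r Z) = 0 := fun s Z => by
    have := congrArg (fi · Z) (h.con s)
    simpa [mul_assoc, MvPolynomial.C_mul', fi_adj, ← mul_assoc, RS.Dva.eta_sq] using this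
  have e : ∀ r s, w4 (dp 4 5 (r, s) (Dh 4 8 ζ)) = pderiv r (w4 (pderiv (5, s) ζ)) := fun r s => by
    rw [w4_pd, pd_comm (8, r), dp, pd_comm, Dh_apply]
    simp only [map_sum, Derivation.leibniz, pd_X, smul_eq_mul, true_and, mul_ite, mul_one, mul_zero,
      Finset.sum_add_distrib, Finset.sum_ite_eq', Finset.mem_univ, if_true, map_add, map_mul, w4_X]
    simp
  simp only [Fintype.sum_prod_type, dp_add, map_add, Finset.sum_add_distrib, a, e, zero_add]
  rw [Finset.sum_comm, Finset.sum_eq_zero fun s _ => g s _]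

/-- iterated derivatives in `u` -/
def dU : (k : ℕ) → (Fin k → Ix) → P9 → P9
  | 0, _, S => S
  | k + 1, γ, S => pderiv (7, γ 0) (dU k (Fin.tail γ) S)

theorem dU_pd (k : ℕ) (γ : Fin k → Ix) (i) (S : P9) :
    dU k γ (pderiv i S) = pderiv i (dU k γ S) := by
  induction k with
  | zero => rfl
  | succ k ih => rw [dU, dU, ih, pd_comm]

theorem Nl.dU {d k : ℕ} {S : P9} (h : Nl (d + k) S) (γ : Fin k → Ix) : Nl d (dU k γ S) := by
  induction k generalizing d with
  | zero => exact h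
  | succ k ih => exact (ih (d := d + 1) (by rwa [add_right_comm]) _).pd (by decide) _ rfl

theorem iter_ev8 (k : ℕ) (γ : Fin k → Ix) (S : P9) (u v : V) :
    iteratedFDeriv ℝ k (fun u => ev8 S (u, v)) u (fun i => bas (γ i) 1) = ev8 (dU k γ S) (u, v) := by
  induction k generalizing u with
  | zero => simp [dU]
  | succ k ih =>
    have s : ContDiff ℝ ∞ fun u => ev8 S (u, v) :=
      (ev8_smooth S).comp (contDiff_id.prodMk contDiff_const)
    rw [iteratedFDeriv_succ_apply_left, ← fderiv_continuousMultilinear_apply_const_apply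
      (s.differentiable_iteratedFDeriv (by exact_mod_cast ENat.coe_lt_top k) u),
      show (fun y => iteratedFDeriv ℝ k (fun u => ev8 S (u, v)) y
        (Fin.tail fun i => bas (γ i) 1)) = ev8 (dU k (Fin.tail γ) S) ∘ fun y => (y, v) from
        funext (ih _), ((ev8_diff _ _).hasFDerivAt.comp u (hasFDerivAt_prodMk_left u v)).fderiv]
    exact ev8_eu _ _ _

/-- the components with an index vector in front -/
theorem ev8_pX (j : Fin 9) (hj : ¬ 7 ≤ j) (a m : Ix) (R : P9) (z : V × V) :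
    ev8 (pderiv (j, a) (X (j, m) * R)) z = if m = a then ev8 R z else 0 := by
  have h0 : ev8 (X (j, m)) z = 0 := by fin_cases j <;> simp [ev8] at hj ⊢
  have h1 : ev8 1 z = 1 := by simpa using ev8_C 1 z
  rw [Derivation.leibniz, pd_X, smul_eq_mul, smul_eq_mul, ev8_add, ev8_mul, ev8_mul, h0]
  by_cases e : m = a <;> simp [e, h1, ev8_zero]

/-- the components of the parameter of the Bianchi identity -/
def a3 (l m n : Ix) (S : P9) : P9 := pderiv (6, l) (pderiv (0, m) (pderiv (1, n) S))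

/-- the components in the slots 2 and 3 -/
def d4 (J K : I2) (S : P9) : P9 := dp 2 3 J (dp 4 5 K S)

theorem d4_pd (J K : I2) (i) (S : P9) : d4 J K (pderiv i S) = pderiv i (d4 J K S) := by
  simp only [d4, dp_pd]

theorem a3_tw {Ξ : P9} (h : tw Ξ = -Ξ) (l m n : Ix) (J K : I2) (z : V × V) :
    ev8 (d4 J K (a3 m l n Ξ)) z = -ev8 (d4 J K (a3 l m n Ξ)) z := by
  have k := pd_rn (σ := ![6, 1, 2, 3, 4, 5, 0, 7, 8]) (by decide)
  have k0 : ∀ a S, pderiv (6, a) (tw S) = tw (pderiv (0, a) S) := k 0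
  have k1 : ∀ a S, pderiv (1, a) (tw S) = tw (pderiv (1, a) S) := k 1
  have k2 : ∀ a S, pderiv (2, a) (tw S) = tw (pderiv (2, a) S) := k 2
  have k3 : ∀ a S, pderiv (3, a) (tw S) = tw (pderiv (3, a) S) := k 3
  have k4 : ∀ a S, pderiv (4, a) (tw S) = tw (pderiv (4, a) S) := k 4
  have k5 : ∀ a S, pderiv (5, a) (tw S) = tw (pderiv (5, a) S) := k 5
  have k6 : ∀ a S, pderiv (0, a) (tw S) = tw (pderiv (6, a) S) := k 6
  have e : d4 J K (a3 l m n (tw Ξ)) = tw (d4 J K (a3 m l n Ξ)) := by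
    simp only [d4, a3, dp, k0, k1, k2, k3, k4, k5, k6, pd_comm (0, l) (6, m)]
  rw [← ev8_tw, ← e, h, ← ev8_neg]
  simp only [d4, a3, dp, map_neg]

theorem a3_th {Ξ : P9} (h : th Ξ = -Ξ) (l m n : Ix) (J K : I2) (z : V × V) :
    ev8 (d4 J K (a3 l n m Ξ)) z = -ev8 (d4 J K (a3 l m n Ξ)) z := by
  have k := pd_rn (σ := ![1, 0, 2, 3, 4, 5, 6, 7, 8]) (by decide)
  have k0 : ∀ a S, pderiv (1, a) (th S) = th (pderiv (0, a) S) := k 0
  have k1 : ∀ a S, pderiv (0, a) (th S) = th (pderiv (1, a) S) := k 1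
  have k2 : ∀ a S, pderiv (2, a) (th S) = th (pderiv (2, a) S) := k 2
  have k3 : ∀ a S, pderiv (3, a) (th S) = th (pderiv (3, a) S) := k 3
  have k4 : ∀ a S, pderiv (4, a) (th S) = th (pderiv (4, a) S) := k 4
  have k5 : ∀ a S, pderiv (5, a) (th S) = th (pderiv (5, a) S) := k 5
  have k6 : ∀ a S, pderiv (6, a) (th S) = th (pderiv (6, a) S) := k 6
  have e : d4 J K (a3 l m n (th Ξ)) = th (d4 J K (a3 l n m Ξ)) := by
    simp only [d4, a3, dp, k0, k1, k2, k3, k4, k5, k6, pd_comm (1, m) (0, n)]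
  rw [← ev8_th, ← e, h, ← ev8_neg]
  simp only [d4, a3, dp, map_neg]

theorem six (h : Ix → Ix → Ix → ℂ) : ∑ l, ∑ m, ∑ n,
    (h l m n + h l n m + h m n l + h m l n + h n l m + h n m l) = 6 * ∑ l, ∑ m, ∑ n, h l m n := by
  have a : ∀ h : Ix → Ix → Ix → ℂ, ∑ l, ∑ m, ∑ n, h l n m = ∑ l, ∑ m, ∑ n, h l m n :=
    fun h => Finset.sum_congr rfl fun _ _ => Finset.sum_comm
  have b : ∀ h : Ix → Ix → Ix → ℂ, ∑ l, ∑ m, ∑ n, h m l n = ∑ l, ∑ m, ∑ n, h l m n :=
    fun h => Finset.sum_comm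
  have c : ∑ l, ∑ m, ∑ n, h m n l = ∑ l, ∑ m, ∑ n, h l m n :=
    (b fun l m n => h l n m).trans (a h)
  have d : ∑ l, ∑ m, ∑ n, h n l m = ∑ l, ∑ m, ∑ n, h l m n :=
    (a fun l m n => h m l n).trans (b h)
  have e : ∑ l, ∑ m, ∑ n, h n m l = ∑ l, ∑ m, ∑ n, h l m n :=
    (a fun l m n => h m n l).trans c
  simp only [Finset.sum_add_distrib, a h, b h, c, d, e]
  ring

end

end Vale.Agent.P352X.ZZ.RS
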