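import Vale.Agent.P352Z.R.STRUCT
import Vale.Agent.P352Z.R.RES.DvA
import Vale.Agent.P352X.R.RES.Divc
import Vale.Agent.P352X.R.RES.DvD

/-!
# P352Z, block RES: field equations of first order in the first slot of the three point function
-/

set_option linter.all false

open MeasureTheory Filter Topology Set Metric
open scoped SchwartzMap ContDiff LineDeriv ComplexConjugate

namespace Vale.Agent.P352X.ZZ.RS

open Vale.Agent.P352 Vale.Agent.P352.GF Vale.Agent.P352.BW Vale.Agent.P352.H755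
open Vale.Agent.P352X.RS.Dvc (late_mono pr_tens sd Lt lt_near time_lt lt_of_time dis_near)
open Vale.Agent.P352X.RS.Dva (P4 d_mul legs_d d0 dg_ten2 rs_tens RR QQ RR_app RR_tens ka ex_cj Lc
  Lc_app Lc_nF nF Mu Mu_app Cf Cl closed_Cl ft_cor d0_star)
open UniformSpace (Completion)
open Api4 SchwartzMap

noncomputable section

/-- operators of first order -/
structure Fo where
  n : ℕ
  a : Fin n → ℝ
  K : Fin n → I2
  m : Fin n → Ix

variable {D : Type*} [NormedAddCommGroup D] [InnerProductSpace ℂ D] (c : Ctx D) (κ : Fo)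

/-- the field equation -/
def Fo.Eq : Prop := ∀ f v, IsTest f →
  ∑ i, (κ.a i : ℂ) • c.T (κ.K i).1 (κ.K i).2 (pd (κ.m i) f) v = 0

/-- the operator in the first slot of a two point function -/
def Fo.w (w : I2 → I2 → S2 →L[ℂ] Completion D) (J : I2) : S2 →L[ℂ] Completion D :=
  ∑ i, (κ.a i : ℂ) • (w (κ.K i) J ∘L p21 (κ.m i))

theorem Fo.w_app (w : I2 → I2 → S2 →L[ℂ] Completion D) (J : I2) (G : S2) : κ.w w J G =
    ∑ i, (κ.a i : ℂ) • w (κ.K i) J (∂_{((bas (κ.m i) 1, 0) : V × V)} G) := by simp [Fo.w, p21]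

/-- the operator in the first slot of the three point function -/
def D3 (J K : I2) : S3 →L[ℂ] ℂ := ∑ i, (κ.a i : ℂ) • (c.t (κ.K i) J K ∘L p31 (κ.m i))

theorem D3_app (J K : I2) (F : S3) : D3 c κ J K F =
    ∑ i, (κ.a i : ℂ) * c.t (κ.K i) J K (∂_{((bas (κ.m i) 1, 0, 0) : V × V × V)} F) := by
  simp [D3, p31]

theorem D3_tens (J K : I2) (f : Sch) (G : S2) : D3 c κ J K (ST.tens f G) =
    ∑ i, (κ.a i : ℂ) * c.t (κ.K i) J K (ST.tens (∂_{(bas (κ.m i) 1 : V)} f) G) := by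
  rw [D3_app]
  exact Finset.sum_congr rfl fun i _ => congrArg (_ * c.t _ J K ·) (RS.Dvc.d_tens _ f G)

variable {c κ}

theorem cons0 (h : κ.Eq c) (f : Sch) : ∑ i, (κ.a i : ℂ) • ((c.T (κ.K i).1 (κ.K i).2
    (ev (∂_{(bas (κ.m i) 1 : V)} f)) c.Q.vac : D) : Completion D) = 0 := by
  rw [← Stz.coe_sum']
  have := h (ev f) c.Q.vac ⟨f, rfl⟩
  simp only [Grp.pd_ev] at this
  rw [this, Completion.coe_zero]

theorem cons1 (h : κ.Eq c) (f : Sch) : ∑ i, (κ.a i : ℂ) • ((c.T (κ.K i).1 (κ.K i).2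
    (bar (ev (∂_{(bas (κ.m i) 1 : V)} f))) c.Q.vac : D) : Completion D) = 0 := by
  rw [← Stz.coe_sum']
  have h := h (bar (ev f)) c.Q.vac (Ap.test_bar ⟨f, rfl⟩)
  have e : ∀ m, pd m (bar (ev f)) = bar (ev (∂_{(bas m 1 : V)} f)) := fun m => by
    rw [← Grp.pd_ev, ← Ap.dv_bas, ← Ap.dv_bas]
    funext x
    exact Ap.dv_bar f.differentiableAt _
  simp only [e] at h
  rw [h, Completion.coe_zero]

theorem inn_l (x : Fin κ.n → Completion D) (y : Completion D) :
    ∑ i, (κ.a i : ℂ) * inner ℂ (x i) y = inner ℂ (∑ i, (κ.a i : ℂ) • x i) y := by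
  simp only [sum_inner, inner_smul_left, Complex.conj_ofReal]

theorem inn_r (x : Fin κ.n → Completion D) (y : Completion D) :
    ∑ i, (κ.a i : ℂ) * inner ℂ y (x i) = inner ℂ y (∑ i, (κ.a i : ℂ) • x i) := by
  simp only [inner_sum, inner_smul_right]

variable [Fact c.tp] {J K : I2} {f g k : Sch}

/-- the first point is the latest -/
theorem z1 (q : κ.Eq c) {G : S2}
    (h : Late (tsupport f) (Prod.fst '' tsupport G ∪ Prod.snd '' tsupport G)) :
    D3 c κ J K (ST.tens f G) = 0 := by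
  rw [D3_tens, Finset.sum_congr rfl fun i _ => congrArg (_ * ·) (c.hTP.fac1 _ J K _ G _
    (fun _ _ _ => rfl) (late_mono h (sd _ f) subset_rfl)), inn_l, cons1 q, inner_zero_left]

/-- the first point is the earliest -/
theorem z2 (q : κ.Eq c) {G : S2}
    (h : Late (Prod.fst '' tsupport G ∪ Prod.snd '' tsupport G) (tsupport f)) :
    D3 c κ J K (ST.tens f G) = 0 := by
  obtain ⟨G', hG'⟩ := Ap.sw_star (Ap.sw_coe G)
  have e : ∀ I m, c.t I J K (ST.tens (∂_{(bas m 1 : V)} f) G) = inner ℂ (c.wm J K G')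
      ((c.T I.1 I.2 (ev (∂_{(bas m 1 : V)} f)) c.Q.vac : D) : Completion D) := fun I m => by
    let e1 : (V × V × V) ≃L[ℝ] V × V × V := (ContinuousLinearEquiv.prodAssoc ℝ V V V).symm.trans
      (((ContinuousLinearEquiv.prodComm ℝ V V).prodCongr (.refl ℝ V)).trans
        (ContinuousLinearEquiv.prodAssoc ℝ V V V))
    let e2 : (V × V × V) ≃L[ℝ] V × V × V :=
      (ContinuousLinearEquiv.refl ℝ V).prodCongr (ContinuousLinearEquiv.prodComm ℝ V V)
    let F1 := SchwartzMap.compCLMOfContinuousLinearEquiv ℂ e1 (ST.tens (∂_{(bas m 1 : V)} f) G)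
    let F2 := SchwartzMap.compCLMOfContinuousLinearEquiv ℂ e2 F1
    rw [c.hTP.swap1 _ _ _ _ F1 fun _ _ _ => rfl, c.hTP.swap2 _ _ _ _ F2 fun _ _ _ => rfl]
    exact c.hTP.fac3 J K I G G' _ F2 (fun _ _ _ => mul_comm _ _) (congrFun hG')
      (late_mono h subset_rfl (sd m f))
  simp only [D3_tens, e]
  rw [inn_r, cons0 q, inner_zero_right]

/-- the second point is the latest -/
theorem z3 (q : κ.Eq c) (h1 : Late (tsupport g) (tsupport f)) (h2 : Late (tsupport g) (tsupport k))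
    (h3 : Disjoint (tsupport f) (tsupport k)) : D3 c κ J K (ST.tens f (ST.tens g k)) = 0 := by
  have e : ∀ I m, c.t I J K (ST.tens (∂_{(bas m 1 : V)} f) (ST.tens g k)) =
      inner ℂ ((c.T J.1 J.2 (bar (ev g)) c.Q.vac : D) : Completion D)
        (c.wp I K (∂_{((bas m 1, 0) : V × V)} (ST.tens f k))) := fun I m => by
    have e0 : ∂_{((bas m 1, 0) : V × V)} (ST.tens f k) = ST.tens (∂_{(bas m 1 : V)} f) k := by
      ext ⟨x, y⟩
      exact Str.d_tens m f k x y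
    rw [e0, c.hTP.swap1 _ _ _ _ (ST.tens g (ST.tens (∂_{(bas m 1 : V)} f) k))
      fun _ _ _ => mul_left_comm _ _ _]
    refine c.hTP.fac1 J I K g _ _ (fun _ _ _ => rfl) fun x hx y hy => ?_
    rcases pr_tens _ _ hy with hy | hy
    exacts [h1 x hx y (sd m f hy), h2 x hx y hy]
  have h0 := Stz.off (fun m n => c.Q.bose_fld _ (c.hT.bose m n)) c.hTP.tp _ κ.K κ.m q K
    (κ.w_app c.wp K) (ST.tens f k) fun x hx =>
      Set.disjoint_left.1 h3 (ST.tsupport_tens f k hx).1 (ST.tsupport_tens f k hx).2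
  simp only [D3_tens, e]
  rw [inn_r, ← κ.w_app, h0, inner_zero_right]

theorem zsw : D3 c κ J K (ST.tens f (ST.tens g k)) = D3 c κ K J (ST.tens f (ST.tens k g)) := by
  rw [D3_tens, D3_tens]
  exact Finset.sum_congr rfl fun i _ => congrArg (_ * ·) (c.hTP.swap2 _ _ _ _ _ fun x y z =>
    congrArg ((∂_{(bas (κ.m i) 1 : V)} f : Sch) x * ·) (mul_comm (k y) (g z)))

/-- the field equation holds away from `z1 = z2` and `z1 = z3` -/
theorem off3 (hq : κ.Eq c) (J K : I2) (F : S3)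
    (hF : ∀ q ∈ tsupport F, q.1 ≠ q.2.1 ∧ q.1 ≠ q.2.2) : D3 c κ J K F = 0 := by
  refine ST.ker3_local _ F fun q hq => ?_
  obtain ⟨h2, h3⟩ := hF q hq
  obtain ⟨x, y, z⟩ := q
  simp only at h2 h3 ⊢
  suffices h : ∀ᶠ δ in 𝓝[>] (0 : ℝ), ∀ f g k : Sch, tsupport f ⊆ ball x δ →
      tsupport g ⊆ ball y δ → tsupport k ⊆ ball z δ →
      D3 c κ J K (ST.tens f (ST.tens g k)) = 0 by
    obtain ⟨δ, h1, h0⟩ := (h.and self_mem_nhdsWithin).exists
    exact ⟨δ, h0, fun f g k _ _ _ => h1 f g k⟩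
  by_cases a : Lt x y ∧ Lt x z
  · filter_upwards [lt_near a.1, lt_near a.2] with δ d1 d2 f g k s1 s2 s3
    refine z1 ‹_› fun u hu v hv => ?_
    rcases pr_tens _ _ hv with hv | hv
    exacts [d1 u (s1 hu) v (s2 hv), d2 u (s1 hu) v (s3 hv)]
  by_cases b : Lt y x ∧ Lt z x
  · filter_upwards [lt_near b.1, lt_near b.2] with δ d1 d2 f g k s1 s2 s3
    refine z2 ‹_› fun u hu v hv => ?_
    rcases pr_tens _ _ hu with hu | hu
    exacts [d1 u (s2 hu) v (s1 hv), d2 u (s3 hu) v (s1 hv)]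
  rcases not_and_or.1 a with a | a
  · have t1 := time_lt h2 a
    have t2 := time_lt h3.symm fun b' => b ⟨lt_of_time t1, b'⟩
    filter_upwards [lt_near (lt_of_time t1), lt_near (lt_of_time (t2.trans t1)), dis_near h3]
      with δ d1 d2 d3 f g k s1 s2 s3
    exact z3 ‹_› (late_mono d1 s2 s1) (late_mono d2 s2 s3) (d3.mono s1 s3)
  · have t1 := time_lt h3 a
    have t2 := time_lt h2.symm fun b' => b ⟨b', lt_of_time t1⟩
    filter_upwards [lt_near (lt_of_time t1), lt_near (lt_of_time (t2.trans t1)), dis_near h2]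
      with δ d1 d2 d3 f g k s1 s2 s3
    rw [zsw]
    exact z3 ‹_› (late_mono d1 s3 s1) (late_mono d2 s3 s2) (d3.mono s1 s2)

/-- the third point is not earlier than the two others -/
theorem facA (J K : I2) {G : S2} {f : Sch} {F : S3}
    (e : ∀ x y z, F (x, y, z) = G (x, y) * f z) (h : Late (tsupport f) (Far.legs G)) :
    D3 c κ J K F =
      inner ℂ ((c.T K.1 K.2 (bar (ev f)) c.Q.vac : D) : Completion D) (κ.w c.wp J G) := by
  rw [D3_app, κ.w_app, ← inn_r]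
  refine Finset.sum_congr rfl fun i _ => congrArg (_ * ·) ?_
  rw [c.hTP.swap2 _ J K _ (compCLMOfContinuousLinearEquiv ℂ Far.sw2 _) fun _ _ _ => rfl,
    c.hTP.swap1 _ K J _ (ST.tens f (∂_{((bas (κ.m i) 1, 0) : V × V)} G)) fun x y z =>
      (mul_comm _ _).trans (d_mul e _ y z x).symm]
  exact c.hTP.fac1 K _ J f _ _ (fun _ _ _ => rfl) fun x hx y hy => h x hx y (legs_d _ _ hy)

/-- the third point is not later than the two others -/
theorem facB (J K : I2) {G G' : S2} {f : Sch} {F : S3}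
    (e : ∀ x y z, F (x, y, z) = G (x, y) * f z) (e' : ∀ x, G' x = star (G x))
    (h : Late (Far.legs G) (tsupport f)) : D3 c κ J K F =
      inner ℂ (κ.w c.wm J G') ((c.T K.1 K.2 (ev f) c.Q.vac : D) : Completion D) := by
  rw [D3_app, κ.w_app, ← inn_l]
  exact Finset.sum_congr rfl fun i _ => congrArg (_ * ·) (c.hTP.fac3 _ J K _ _ f _ (d_mul e _)
    (fun x => by simp only [lineDerivOp_apply, lineDeriv, e', deriv.star])
    fun x hx y hy => h x (legs_d _ _ hx) y hy)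

/-! ## the contact terms -/

/-- families of polynomials -/
abbrev Pf := (k : ℕ) → (Fin k → Ix) → P4

/-- the overlaps of the contact terms with `T` -/
structure Ovl (c : Ctx D) (Λ : I2 → S2 →L[ℂ] Completion D) (k0 : ℕ) (π : I2 → Ix → Ix → Pf) :
    Prop where
  ov : ∀ J k γ, Ov (5 - k) fun r s => π J r s k γ
  zero : ∀ J r s k γ, 5 < k → π J r s k γ = 0
  eq : ∀ J r s (m g f : Sch), HasCompactSupport m → HasCompactSupport g →
    inner ℂ ((c.T r s (ev f) c.Q.vac : D) : Completion D) (Λ J (ten2 m g)) =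
      ∑ k ∈ Finset.range (k0 + 1), ∑ γ, (k.factorial : ℂ)⁻¹ * (d0 γ m *
        ∫ p in Fc, evp (π J r s k γ) p * (conj (ft (ev f) p) * ft (ev g) p))

theorem ex_ovl (t : T3 c) {Λ : I2 → S2 →L[ℂ] Completion D} {r k0 : ℕ} (hr : Odd r)
    {O : (k : ℕ) → (Fin (k + r) → Ix) → Sch →L[ℂ] Completion D}
    (h1 : ∀ k, CovM c.Q (k + r) (5 - k) (O k)) (ix : ∀ k, I2 → (Fin k → Ix) → Fin (k + r) → Ix)
    (h3 : ∀ J (G : S2), HasCompactSupport G → Λ J G = ∑ k ∈ Finset.range (k0 + 1),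
      ∑ γ : Fin k → Ix, ((k.factorial : ℂ)⁻¹) • O k (ix k J γ) (dg γ G)) :
    ∃ k0 π, Ovl c Λ k0 π := by
  obtain ⟨r', hr⟩ := hr
  choose π p1 p2 p3 p4 p5 p6 p7 using fun k : ℕ => t.poly (k + r) (5 - k) (O k)
    (by exact_mod_cast h1 k) ⟨2 - r' - k, by rw [hr]; push_cast; ring⟩
  refine ⟨k0, fun J r s k γ => π k r s (ix k J γ), fun J k γ => ⟨fun r s => ?_,
    fun s => p3 k s _, p4 k _, fun r s l => p5 k r s l _, fun r s l => p6 k r s l _⟩,
    fun J r s k γ hk => (p2 k r s _).2 (by omega), fun J r s m g f hm hg => ?_⟩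
  · exact (show (5 - k : ℤ).toNat = 5 - k by omega) ▸ (p2 k r s _).1
  · rw [h3 J (ten2 m g) (dc_tenE (sh2 V) (dc_of_sch m hm) (dc_of_sch g hg)).2]
    simp only [inner_sum, inner_smul_right, dg_ten2, map_smul, p1]

variable {k0 k1 : ℕ} {π π' : I2 → Ix → Ix → Pf} {ρ : Sch}

theorem thmA (h : Ovl c (κ.w c.wp) k0 π) (h1 : ∫ y, ρ y = 1) (J K : I2) (φ : S2)
    (hφ : tsupport φ ⊆ {z | ¬ Cl (z.1 - z.2) ∧ ¬ Cl (0 - z.2)}) :
    D3 c κ J K (red3 ρ φ) = RR k0 (π J K.1 K.2) (Lc Fc) φ := by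
  refine ka _ _ ((closed_Cl.isOpen_compl.preimage (f := fun z : V × V => z.1 - z.2)
    (by fun_prop)).inter (closed_Cl.isOpen_compl.preimage (f := fun z : V × V => 0 - z.2)
    (by fun_prop))) (fun m g f hm hg hf hs => ?_) h1 φ hφ
  have e : bar (ev f) = ev (sch fun z => star (f z)) := (coe_sch (dc_star (dc_of_sch f hf))).symm
  rw [facA J K (fun x y z => ten3_tens m g f (x, y, z)) ?_, e, h.eq _ _ _ _ _ _ hm hg, ← e]
  · simp only [RR_app, rs_tens, map_smul, Lc_app, ft_cor, ft_bar, neg_neg, Complex.conj_conj,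
      smul_eq_mul, mul_comm (ft (ev f) _)]
  · rintro x hx _ (⟨q, hq, rfl⟩ | ⟨q, hq, rfl⟩)
    · simpa [Cl] using (hs q hq x hx).1
    · simpa [Cl] using (hs q hq x hx).2

theorem thmB (h : Ovl c (κ.w c.wm) k1 π') (h1 : ∫ y, ρ y = 1) (J K : I2) : ∃ π'', ∀ φ : S2,
    tsupport φ ⊆ {z | ¬ Cl (z.2 - z.1) ∧ ¬ Cl (z.2 - 0)} →
      D3 c κ J K (red3 ρ φ) = RR k1 π'' (Lc nF) φ := by
  choose cj hj using ex_cj
  refine ⟨fun k γ => cj (π' J K.1 K.2 k γ), ka _ _ ((closed_Cl.isOpen_compl.preimage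
    (f := fun z : V × V => z.2 - z.1) (by fun_prop)).inter (closed_Cl.isOpen_compl.preimage
    (f := fun z : V × V => z.2 - 0) (by fun_prop))) (fun m g f hm hg hf hs => ?_) h1⟩
  have em := coe_sch (dc_star (dc_of_sch m hm))
  have eg := coe_sch (dc_star (dc_of_sch g hg))
  rw [facB J K (G' := ten2 (sch fun z => star (m z)) (sch fun z => star (g z)))
    (fun x y z => ten3_tens m g f (x, y, z))
    (fun x => by simp only [ten2_apply, em, eg, star_mul']) ?_,
    ← inner_conj_symm, h.eq _ _ _ _ _ _ (em.symm ▸ (dc_star (dc_of_sch m hm)).2)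
      (eg.symm ▸ (dc_star (dc_of_sch g hg)).2),
    show ev (sch fun z => star (g z)) = bar (ev g) from eg, em]
  · simp only [RR_app, rs_tens, map_smul, Lc_nF, ft_cor, ft_bar, smul_eq_mul, map_sum, map_mul,
      map_inv₀, map_natCast, d0_star _ (m.smooth ⊤), Complex.conj_conj, ← integral_conj, hj,
      mul_comm (ft (ev f) _)]
  · rintro _ (⟨q, hq, rfl⟩ | ⟨q, hq, rfl⟩) x hx
    · simpa [Cl] using (hs q hq x hx).1
    · simpa [Cl] using (hs q hq x hx).2

/-- the field equation near `u = 0` -/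
theorem glue (t : T3 c) (h : Ovl c (κ.w c.wp) k0 π) (h' : Ovl c (κ.w c.wm) k1 π')
    (h1 : ∫ y, ρ y = 1) {O : Set V} (hO : IsOpen O) {ε : ℝ} (hε : ε ≤ 1) {a : V → ℂ}
    (ha : Cf O ε a) (J K : I2) (φ : S2) (hc : HasCompactSupport φ)
    (hφ : tsupport φ ⊆ ball 0 ε ×ˢ O) :
    D3 c κ J K (red3 ρ φ) = RR k0 (π J K.1 K.2) (Mu a) φ := by
  obtain ⟨π'', hB⟩ := thmB h' h1 J K
  refine sub_eq_zero.1 (t.ker V V (D3 c κ J K ∘L red3 ρ - RR k0 (π J K.1 K.2) (Mu a)) _ _
    isOpen_ball hO (fun m f G _ hm _ hf e => sub_eq_zero.2 ?_) φ hc hφ)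
  have z0 : ‖(0 : V)‖ < ε := by simpa using ha.pos
  have A : ∀ g : Sch, (∀ v ∈ tsupport g, ∀ u, ‖u‖ < ε → ¬ Cl (u - v)) →
      D3 c κ J K (red3 ρ (ST.tens m g)) = Lc Fc (QQ k0 (π J K.1 K.2) m) g := fun g hg => by
    rw [thmA h h1 J K _ fun z hz => ?_, RR_tens]
    have := ST.tsupport_tens _ _ hz
    exact ⟨hg _ this.2 _ (by simpa using hm this.1), hg _ this.2 _ z0⟩
  have B : ∀ g : Sch, (∀ v ∈ tsupport g, ∀ u, ‖u‖ < ε → ¬ Cl (v - u)) →
      D3 c κ J K (red3 ρ (ST.tens m g)) = Lc nF (QQ k1 π'' m) g := fun g hg => by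
    rw [hB _ fun z hz => ?_, RR_tens]
    have := ST.tsupport_tens _ _ hz
    exact ⟨hg _ this.2 _ (by simpa using hm this.1), hg _ this.2 _ z0⟩
  have s := RS.Dva.sep t.gff fun g hg =>
    (A g fun v hv u hu => (RS.Dva.far (hg hv) (hu.trans_le hε)).1).symm.trans
      (B g fun v hv u hu => (RS.Dva.far (hg hv) (hu.trans_le hε)).2)
  have e1 := smulLeftCLM_apply ha.tg f
  change D3 c κ J K (red3 ρ G) = RR k0 (π J K.1 K.2) (Mu a) G
  rw [show G = ST.tens m f from SchwartzMap.ext fun z => e z.1 z.2, RR_tens, Mu_app,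
    ← add_sub_cancel (smulLeftCLM ℂ a f) f, ← ST.tensR_apply, map_add,
    map_add, map_add, ST.tensR_apply, ST.tensR_apply, A _ fun v hv => ?_, B _ fun v hv => ?_, ← s,
    map_sub]
  · simp only [add_sub_cancel]
    ring
  · rw [show ((f - smulLeftCLM ℂ a f : Sch) : V → ℂ) = fun x => (1 - a) x * f x from
      funext fun x => by simp [e1, sub_mul]] at hv
    exact ha.B v (hf (tsupport_mul_subset_right hv)) (tsupport_mul_subset_left hv)
  · rw [e1] at hv
    exact ha.A v (hf (tsupport_smul_subset_right _ _ hv)) (tsupport_smul_subset_left _ _ hv)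

/-! ## the two field equations -/

variable (c κ) in
/-- the field equation holds, and the contact terms have polynomial overlaps -/
structure Fo.Good : Prop where
  eq : κ.Eq c
  ov : ∀ e w, TP2 c.Q c.T e w → ∃ k0 π, Ovl c (κ.w w) k0 π

/-- conservation -/
abbrev kc (n : Ix) : Fo := ⟨4, fun _ => 1, fun m => (m, n), id⟩

/-- the Bianchi identity -/
abbrev kb (l m n : Ix) : Fo := ⟨6, ![eta l, -eta l, eta m, -eta m, eta n, -eta n],
  ![(m, n), (n, m), (n, l), (l, n), (l, m), (m, l)], ![l, l, m, m, n, n]⟩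

theorem good_c (t : T3 c) (n : Ix) : (kc n).Good c := by
  refine ⟨fun f v hf => by simpa [kc] using c.ct0.conserved n f v hf, fun e w hw => ?_⟩
  obtain ⟨k0, O, h1, -, h3⟩ := t.struct.dv e w hw
  refine ex_ovl t (k0 := k0) (by decide) h1 (fun _ => ix3 n) fun J G hG => ?_
  rw [← h3 n J G hG, Fo.w_app]
  simp [kc, dv1]

theorem good_b (t : T3 c) (l m n : Ix) : (kb l m n).Good c := by
  refine ⟨fun f v hf => ?_, fun e w hw => ?_⟩
  · rw [← c.ct0.bian l m n f v hf]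
    simp [kb, Fin.sum_univ_six, cu, smul_sub, sub_eq_add_neg, add_assoc]
  obtain ⟨k0, O, h1, -, h3⟩ := t.struct.bi e w hw
  refine ex_ovl t (k0 := k0) (by decide) h1 (fun _ => ix5 l m n) fun J G hG => ?_
  rw [← h3 l m n J G hG, Fo.w_app]
  simp [kb, Fin.sum_univ_six, bi1, cu1, p21, smul_sub, sub_eq_add_neg, add_assoc]

end

end Vale.Agent.P352X.ZZ.RS
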