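import Vale.Agent.P352Z.R.RES.Red
import Vale.Agent.P352Z.R.RES.DvB

/-!
# P352Z, block RES: the rows `divc` and `diva`
-/

set_option linter.all false

open MeasureTheory Filter Topology Set Metric
open scoped SchwartzMap ContDiff LineDeriv

namespace Vale.Agent.P352X.ZZ.RS

open Vale.Agent.P352 Vale.Agent.P352.GF Vale.Agent.P352.H755
open Vale.Agent.P352X.RS (Ef)
open Vale.Agent.P352X.RS.Dva (red_d ex_cf Mu Mu_pair RR_app rs_app d0 d0_mul ts_vec)
open MvPolynomial (X C pderiv)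
open Api4

noncomputable section

variable {D : Type*} [NormedAddCommGroup D] [InnerProductSpace ℂ D] {c : Ctx D}
  {ρ0 : V → ℝ} {φ : V × V → ℂ}

theorem dcm (hφ : Dc φ) (S : P9) : Dc fun z => φ z * ev8 S z := dc_mul_right hφ (ev8_smooth S)

/-- the test function of a source -/
def sx (φ : V × V → ℂ) (S : P9) : S2 := sch fun z => φ z * ev8 S z

theorem sx_congr (hφ : Dc φ) {S S' : P9} {a : ℂ} (h : ∀ z, ev8 S z = a * ev8 S' z) :
    sx φ S = a • sx φ S' := by
  rw [sx, sx, ← sch_const_mul a (dcm hφ _)]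
  simp only [h, mul_left_comm]

theorem sx_der (hφ : Dc φ) {a : V × V} {i} (he : ∀ S z, fderiv ℝ (ev8 S) z a = ev8 (pderiv i S) z)
    (S : P9) : sx φ (pderiv i S) + sx (dz a φ) S = ∂_{a} (sx φ S) := by
  rw [sx, sx, sx, ← sch_fderiv (dcm hφ S),
    ← sch_add (dcm hφ _) (dcm (φ := dz a φ) (dc_fderiv hφ contDiff_const) _)]
  congr 1 with z
  rw [mul_der hφ, he, one_mul, add_comm]
  rfl

theorem lam_sx (h : Tst ρ0) (hφ : Dc φ) (S : P9) : Lam c ρ0 φ S =
    ∑ I, ∑ J, ∑ K, c.t I J K (red3 (sch (cx ρ0)) (sx φ (d6 I J K S))) := by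
  simp only [lam_eq, sx, ← (sch_red3 (dc_cx h) (dcm hφ _)).2]
  rfl

theorem dv_eq (h : Tst ρ0) (hφ : Dc φ) {x : Fin 9} {e : Ix → V × V}
    (he : ∀ m S z, fderiv ℝ (ev8 S) z (e m) = ev8 (pderiv (x, m) S) z) (F : Ix → P9) :
    Dv x e (Lam c ρ0) φ F = ∑ m, ∑ I, ∑ J, ∑ K,
      c.t I J K (red3 (sch (cx ρ0)) (∂_{e m} (sx φ (d6 I J K (F m))))) := by
  simp only [Dv, lam_sx h hφ, lam_sx (φ := dz _ φ) h (dc_fderiv hφ contDiff_const), d6_pd,
    ← Finset.sum_add_distrib, ← map_add, sx_der hφ (he _)]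

theorem red_u (ρ : Sch) (m : Ix) (ψ : S2) : red3 ρ (∂_{eu m} ψ) = p31 m (red3 ρ ψ) := red_d ρ ψ _

theorem D3_p (κ : Fo) (J K : I2) (F : S3) :
    D3 c κ J K F = ∑ i, (κ.a i : ℂ) * c.t (κ.K i) J K (p31 (κ.m i) F) := D3_app c κ J K F

theorem d6_X0 (a b m : Ix) (J K : I2) (S : P9) (z : V × V) :
    ev8 (d6 (a, b) J K (X (0, m) * S)) z =
      (if m = a then 1 else 0) * ev8 (d4 J K (pderiv (1, b) S)) z := by
  rw [d6, dp_X (by decide) (by decide), dp_X (by decide) (by decide), dp, pd_comm, ← d4, d4_pd,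
    pd_comm, show pderiv (1, b) (X (0, m) * d4 J K S) = X (0, m) * pderiv (1, b) (d4 J K S) by
      simp [Derivation.leibniz, pd_X], ev8_pX 0 (by decide)]
  simp

theorem div_zero [Fact c.tp] (t : T3 c) (h : Tst ρ0) (hφ : Dc φ) {e : Bool} {Ξ : P9} (ho : Ok e Ξ)
    (H : ∀ κ : Fo, κ.Good c → ∀ J S, (Nl 5 Ξ → Nl 5 S) →
      ∑ K, D3 c κ J K (red3 (sch (cx ρ0)) (sx φ (d4 J K S))) = 0) :
    Div e (Lam c ρ0) φ Ξ = 0 := by
  rw [Div, dv_eq h hφ ev8_eu]
  simp only [red_u, Fintype.sum_prod_type (α₁ := Ix) (f := fun I : I2 => ∑ J : I2, ∑ K : I2, _)]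
  cases e
  · set A := fun l m n J K => red3 (sch (cx ρ0)) (sx φ (d4 J K (a3 l m n Ξ))) with hA
    have a1 : ∀ l m n J K, A m l n J K = -A l m n J K := fun l m n J K => by
      simp only [hA]
      rw [sx_congr (a := -1) hφ fun z => (a3_tw ho.1 l m n J K z).trans (neg_one_mul _).symm,
        neg_one_smul, map_neg]
    have a2 : ∀ l m n J K, A l n m J K = -A l m n J K := fun l m n J K => by
      simp only [hA]
      rw [sx_congr (a := -1) hφ fun z => (a3_th ho.2 l m n J K z).trans (neg_one_mul _).symm,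
        neg_one_smul, map_neg]
    have k := six fun l m n => ∑ J, ∑ K, (eta l : ℂ) * c.t (m, n) J K (p31 l (A l m n J K))
    rw [Finset.sum_eq_zero fun l _ => Finset.sum_eq_zero fun m _ =>
      Finset.sum_eq_zero fun n _ => ?_] at k
    · refine Eq.trans (Finset.sum_congr rfl fun l _ => Finset.sum_congr rfl fun m _ =>
        Finset.sum_congr rfl fun n _ => Finset.sum_congr rfl fun J _ =>
          Finset.sum_congr rfl fun K _ => ?_) ((mul_eq_zero.1 k.symm).resolve_left (by norm_num))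
      rw [sx_congr (S' := d4 J K (a3 l m n Ξ)) (a := eta l) hφ fun z => by
        simp only [Fm, d6, d4, a3, dp_C, ev8_mul, ev8_C, dp_pd]
        rfl]
      simp only [hA, map_smul, smul_eq_mul]
    · simp only [← Finset.sum_add_distrib]
      refine Finset.sum_eq_zero fun J _ => Eq.trans (Finset.sum_congr rfl fun K _ => ?_)
        (H _ (good_b t l m n) J (a3 l m n Ξ) fun k => ((k.pd (by decide) _ rfl).pd (by decide) _
          rfl).pd (by decide) _ rfl)
      rw [a1 m n l, a1 l n m, a2 m l n, a1 l m n, a2 l m n, D3_p, Fin.sum_univ_six]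
      simp [hA]
  · simp only [Fm, fun a b m J K => sx_congr hφ (d6_X0 a b m J K Ξ), map_smul, smul_eq_mul, ite_mul,
      one_mul, zero_mul, Finset.sum_ite_irrel, Finset.sum_const_zero, Finset.sum_ite_eq,
      Finset.mem_univ, if_true]
    rw [Finset.sum_comm]
    refine Finset.sum_eq_zero fun b _ => ?_
    rw [Finset.sum_comm]
    refine Finset.sum_eq_zero fun J _ => Finset.sum_comm.trans (Eq.trans
      (Finset.sum_congr rfl fun K _ => ?_)
        (H _ (good_c t b) J (pderiv (1, b) Ξ) fun k => k.pd (by decide) _ rfl))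
    simp [D3_p]

/-- row RES.divc -/
theorem divc_row [Fact c.tp] (t : T3 c) (h : Tst ρ0) : DIVC (Lam c ρ0) := fun e φ Ξ ho hφ hs => by
  refine div_zero t h hφ ho fun κ hκ J S _ => Finset.sum_eq_zero fun K _ =>
    off3 hκ.eq J K _ fun q hq => ?_
  obtain ⟨k1, k2⟩ := sch_red3 (dc_cx h) (dcm hφ (d4 J K S))
  rw [sx, ← k2, tsupport_sch k1] at hq
  obtain ⟨h1, h2⟩ := hs (RS.Dvc.supp_lf (cx ρ0) φ (ev8 (d4 J K S)) hq)
  exact ⟨fun e => h1 (sub_eq_zero.2 e), fun e => h2 (congrArg (· - q.2.1) e)⟩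

/-- row RES.diva -/
theorem diva_row [Fact c.tp] (t : T3 c) (h : Tst ρ0) (h1 : ∫ x, ρ0 x = 1) : DIVA (Lam c ρ0) := by
  intro θ hθ
  obtain ⟨r0, r0p, hr0⟩ := Metric.eventually_nhds_iff_ball.1 hθ.2
  obtain ⟨R, hR⟩ := hθ.1.2.isCompact.isBounded.subset_ball_lt 1 0
  have hr : 0 < min (r0 / 2) 1 := by positivity
  obtain ⟨a, ha⟩ := ex_cf hr ((min_le_right _ _).trans_lt hR.1)
  set O := {v : V | min (r0 / 2) 1 < ‖v‖ ∧ ‖v‖ < R}
  have hc := dc_cx hθ.1
  have hO : tsupport (fderiv ℝ (cx θ)) ⊆ O := fun v hv => ⟨by_contra fun k => by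
    refine notMem_tsupport_iff_eventuallyEq.2 ?_ hv
    have : cx θ =ᶠ[𝓝 v] fun _ => 1 := by
      filter_upwards [isOpen_ball.mem_nhds (mem_ball_zero_iff.2 ((not_lt.1 k).trans_lt
        ((min_le_left _ _).trans_lt (half_lt_self r0p))))] with y hy
      simp [cx, hr0 y hy]
    exact this.fderiv.trans (.of_forall fun y => by simp), mem_ball_zero_iff.1 (hR.2
      (tsupport_comp_subset (g := Complex.ofReal) rfl θ (tsupport_fderiv_subset ℝ hv)))⟩
  obtain ⟨κ0, hκ⟩ := Mu_pair t.gff ha hc hO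
  refine ⟨_, ha.pos, fun χ hχ sχ e Ξ ho hΞ => ?_⟩
  have hE : Dc (Ef (cx θ)) := dc_fderiv hc contDiff_id
  have hφ : Dc fun z : V × V => (χ z.1 : ℂ) * Ef (cx θ) z.2 := dc_tens (dc_cx hχ.1) hE
  refine div_zero t h hφ ho fun κ hk J S hS => ?_
  replace hS := hS hΞ
  obtain ⟨k0, π, hπ⟩ := hk.ov _ _ c.hTP.tp
  obtain ⟨k1, π', hπ'⟩ := hk.ov _ _ c.hTP.tm
  have dm := dcm hφ
  have g : ∀ K S, D3 c κ J K (red3 (sch (cx ρ0)) (sx (fun z : V × V =>
      (χ z.1 : ℂ) * Ef (cx θ) z.2) S)) = ∑ k ∈ Finset.range (k0 + 1), ∑ γ,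
        (k.factorial : ℂ)⁻¹ * Mu a (π J K.1 K.2 k γ)
          (sch fun v => Ef (cx θ) v * evp (w4 (dU k γ S)) v) := fun K S => by
    rw [sx, glue t hπ hπ' (int_sch h h1) ((isOpen_lt continuous_const continuous_norm).inter
        (isOpen_lt continuous_norm continuous_const))
      (by linarith [min_le_right (r0 / 2) 1]) ha J K _ (by rw [coe_sch (dm S)]; exact (dm S).2)
      (by
        rw [coe_sch (dm S)]
        exact tsupport_mul_subset_left.trans ((closure_minimal (fun z (hz : _ * _ ≠ 0) =>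
          Set.mk_mem_prod (subset_tsupport _ fun e => hz (by simp [e]))
            (subset_tsupport _ (right_ne_zero_of_mul hz)))
          ((isClosed_tsupport χ).prod (isClosed_tsupport (Ef (cx θ))))).trans
            (Set.prod_mono sχ ((ts_vec _ id).trans hO)))), RR_app]
    refine Finset.sum_congr rfl fun k _ => Finset.sum_congr rfl fun γ _ => ?_
    congr 2
    refine (sch_eq _ fun v => ?_).symm
    rw [rs_app, coe_sch (dm S), ev_w4, ← iter_ev8, ← d0, ← d0_mul γ (m := fun u => ev8 S (u, v))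
      ((ev8_smooth S).comp (contDiff_id.prodMk contDiff_const)), d0, d0,
      (EventuallyEq.iteratedFDeriv ℝ (hχ.2.mono fun u hu => ?_) k).eq_of_nhds]
    simp [hu]
  simp only [g]
  rw [Finset.sum_comm]
  refine Finset.sum_eq_zero fun k _ => ?_
  rw [Finset.sum_comm]
  refine Finset.sum_eq_zero fun γ _ => ?_
  rw [← Finset.mul_sum]
  refine mul_eq_zero_of_right _ ?_
  rcases lt_or_ge 5 k with hk | hk
  · simp [hπ.zero _ _ _ _ _ hk]
  have n1 : Nl (5 - k) (dU k γ (dp 2 3 J S)) :=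
    Nl.dU ((Nat.sub_add_cancel hk).symm ▸ (hS.pd (by decide) _ rfl).pd (by decide) _ rfl) γ
  have e : ∀ K, dU k γ (d4 J K S) = dp 4 5 K (dU k γ (dp 2 3 J S)) := fun K => by
    rw [d4, dp_comm, dp, dU_pd, dU_pd]
    rfl
  simp only [e, hκ _ _ _ ((hπ.ov J k γ).hom _ _)
    (w4_deg (dp_deg n1.deg (j := 4) (k := 5) (by decide) (by decide) _)),
    ← Finset.mul_sum, null t.null (hπ.ov J k γ) n1, mul_zero]

end

end Vale.Agent.P352X.ZZ.RS
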