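import Vale.Agent.P352Z.R.RES.Div
import Vale.Agent.P352X.R.RES.Link

/-!
# P352Z, block RES: row `link`
-/

set_option linter.all false

open MeasureTheory Filter Topology
open scoped SchwartzMap ContDiff LineDeriv

namespace Vale.Agent.P352X.ZZ.RS

open Vale.Agent.P352.GF Vale.Agent.P352.H755 Vale.Agent.P352X.Api4
open Vale.Agent.P352X.RS (wH Ef Xf)
open Vale.Agent.P352X.RS.Link (dc_Ps flow const)
open MvPolynomial (X C pderiv)

noncomputable section

theorem ld_comm {E : Type*} [NormedAddCommGroup E] [NormedSpace ℝ E] (v w : E) (F : 𝓢(E, ℂ)) :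
    ∂_{v} (∂_{w} F) = (∂_{w} (∂_{v} F) : 𝓢(E, ℂ)) := by
  have d2 := fun x => ((F.smooth ⊤).fderiv_right (m := ∞) le_rfl).differentiable (by simp) x
  have e : ∀ (h k x : E), (∂_{h} (∂_{k} F) : 𝓢(E, ℂ)) x = fderiv ℝ (fderiv ℝ F) x h k :=
    fun h k x => by
      rw [SchwartzMap.lineDerivOp_apply_eq_fderiv, show ((∂_{k} F : 𝓢(E, ℂ)) : E → ℂ) =
        fun y => fderiv ℝ F y k from funext (SchwartzMap.lineDerivOp_apply_eq_fderiv k F),
        fderiv_clm_apply (d2 x) (differentiableAt_const _)]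
      simp
  ext x
  rw [e, e]
  exact ((F.smooth ⊤).contDiffAt.isSymmSndFDerivAt (by simp; norm_cast)).eq v w

theorem red_w (ρ : Sch) (m : Ix) (ψ : S2) : red3 ρ (∂_{ew m} ψ) = p33 m (red3 ρ ψ) := by
  ext z
  simp [p33, ew, SchwartzMap.lineDerivOp_apply, lineDeriv, add_sub_right_comm, Prod.mk_add_mk]

theorem p_comm (n q : Ix) (F : S3) : p33 q (p31 n F) = p31 n (p33 q F) := ld_comm _ _ F

theorem p31_tsl (n : Ix) (a : V) (F G : S3) (h : ∀ x y z, G (x, y, z) = F (x + a, y + a, z + a))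
    (x y z : V) : p31 n G (x, y, z) = p31 n F (x + a, y + a, z + a) := by
  simp [p31, SchwartzMap.lineDerivOp_apply, lineDeriv, h, add_right_comm]

theorem p33_tsl (n : Ix) (a : V) (F G : S3) (h : ∀ x y z, G (x, y, z) = F (x + a, y + a, z + a))
    (x y z : V) : p33 n G (x, y, z) = p33 n F (x + a, y + a, z + a) := by
  simp [p33, SchwartzMap.lineDerivOp_apply, lineDeriv, h, add_right_comm]

theorem pd_lin (j k : Fin 9) (a : Ix) (w : V) :
    pderiv (j, a) (linP w k) = if k = j then C ((eta a * w a : ℝ) : ℂ) else 0 := by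
  simp only [linP, map_sum, MvPolynomial.pderiv_C_mul, pd_X]
  by_cases h : k = j <;> simp [h]

theorem pd_Q0 {j : Fin 9} (h7 : 7 ≠ j) (h8 : 8 ≠ j) (a : Ix) : pderiv (j, a) Q0 = 0 := by
  simp [Q0, Derivation.leibniz, Derivation.leibniz_pow, pd_X, pd_lin, h7, h8]

theorem d6_S00 (I J K : I2) (m n : Ix) (z : V × V) :
    ev8 (d6 I J K (X (5, m) * (X (1, n) * S00))) z = (if m = K.2 then if n = I.2 then
      ((eta I.1 * va I.1 * (eta J.1 * va J.1) * (eta J.2 * va J.2) * (eta K.1 * va K.1) : ℝ) : ℂ)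
        else 0 else 0) * ev8 Q0 z := by
  have q0 := pd_Q0 (j := 0) (by decide) (by decide)
  have q1 := pd_Q0 (j := 1) (by decide) (by decide)
  have q2 := pd_Q0 (j := 2) (by decide) (by decide)
  have q3 := pd_Q0 (j := 3) (by decide) (by decide)
  have q4 := pd_Q0 (j := 4) (by decide) (by decide)
  have q5 := pd_Q0 (j := 5) (by decide) (by decide)
  by_cases h : m = K.2 <;> by_cases h' : n = I.2 <;>
    simp [d6, dp, S00, Derivation.leibniz, pd_X, pd_lin, q0, q1, q2, q3, q4, q5, h, h', ev8_mul,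
      ev8_C, ev8_zero]
  ring

theorem ev8_Q0 (y : V) (z : V × V) : ev8 Q0 z = Ph0 (y + z.1) y (y + z.2) := by
  simp [ev8, Q0, linP, Ph0, d2_eq, al, mdot, Fin.sum_univ_four, -mul_eq_mul_left_iff]
  ring

variable {D : Type*} [NormedAddCommGroup D] [InnerProductSpace ℂ D] {c : Ctx D}

theorem gr_eq {ρ0 : V → ℝ} {φ : V × V → ℂ} (h : Tst ρ0) (hφ : Dc φ) :
    Gr 1 7 eu (Gr 5 8 ew (Lam c ρ0)) φ S00 = c.t0 (red3 (sch (cx ρ0)) (sx φ Q0)) := by
  have e : ∀ m n S, X (5, m) * pderiv (7, n) S = (pderiv (7, n) (X (5, m) * S) : P9) :=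
    fun m n S => by simp [Derivation.leibniz, pd_X]
  rw [Gr, Dv]
  simp only [Gr, dv_eq h hφ ev8_ew, dv_eq (φ := dz _ φ) h (dc_fderiv hφ contDiff_const) ev8_ew, e,
    d6_pd, red_w, ← Finset.sum_add_distrib, ← map_add, sx_der hφ (ev8_eu _), red_u, p_comm,
    fun I J K m n => sx_congr hφ (d6_S00 I J K m n), map_smul, smul_eq_mul]
  rw [Finset.sum_congr rfl fun n _ => Finset.sum_comm, Finset.sum_comm]
  simp only [Ctx.t0, Fintype.sum_prod_type]
  refine Finset.sum_congr rfl fun a _ => Finset.sum_congr rfl fun b _ => ?_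
  rw [Finset.sum_eq_single b (fun n _ hn => by simp [hn]) (by simp), Finset.sum_comm]
  refine Finset.sum_congr rfl fun k _ => Finset.sum_comm.trans
    (Finset.sum_congr rfl fun l _ => Finset.sum_comm.trans (Finset.sum_congr rfl fun p _ =>
      Finset.sum_comm.trans (Finset.sum_congr rfl fun q _ => ?_)))
  simp

theorem t0_fib [Fact c.tp] {ρ : Sch} (h1 : ∫ y, ρ y = 1) (G : S3) :
    c.t0 G = c.t0 (red3 ρ (fib3 volume G)) := by
  simp only [Ctx.t0]
  exact Finset.sum_congr rfl fun m _ => Finset.sum_congr rfl fun n _ => Finset.sum_congr rfl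
    fun k _ => Finset.sum_congr rfl fun l _ => Finset.sum_congr rfl fun p _ => Finset.sum_congr rfl
      fun q _ => congrArg _ (t_fib (c.t (m, n) (k, l) (p, q) ∘L p31 n ∘L p33 q) (fun a F F' e =>
        t_tsl c _ _ _ a _ _ (p31_tsl n a _ _ (p33_tsl q a _ _ e))) h1 G)

/-- row RES.link -/
theorem link_row [Fact c.tp] (hR : ∀ ρ0, Tst ρ0 → ∫ x, ρ0 x = 1 → RZ (Lam c ρ0)) : RES c := by
  intro ρ1 κ2 κ3 ρ2 θ1 θ3 G h1 h2 h3 h4 h5 h6 k1 k2 hG
  let b : ContDiffBump (0 : V) := ⟨1, 2, one_pos, one_lt_two⟩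
  have r0 : Tst (b.normed volume) := ⟨b.contDiff_normed, b.hasCompactSupport_normed⟩
  have hΘ := (sch_fib3 volume (dc_Ps h1 h2 h3 h4 h5 h6)).1
  have k := hR _ r0 b.integral_normed _ _ hΘ (const h1 h4 k1 k2)
  rw [gr_eq r0 (dc_sub (show Dc (Ef _) from dc_fderiv hΘ contDiff_id) (show Dc (Xf wH _) from
    dc_fderiv hΘ (X := fun z => (sim 1 wH 0 z.1, sim 1 wH 0 z.2)) (by unfold sim; fun_prop)))] at k
  rw [t0_fib (int_sch r0 b.integral_normed), ← k]
  refine congrArg (fun F => c.t0 (red3 _ F)) (sch_eq _ fun z => ?_).symm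
  beta_reduce
  rw [fib3_apply, flow h1 h2 h3 h4 h5 h6, ← integral_mul_const]
  refine integral_congr_ae (.of_forall fun y => ?_)
  beta_reduce
  rw [hG, ev8_Q0 y]
  push_cast
  ring

end

end Vale.Agent.P352X.ZZ.RS
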