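import Vale.Agent.P352Z.R.RES.Cal
import Vale.Agent.P352X.R.RES.Alg.Eng

/-!
# P352Z, row ALG: the operators on polynomials in the scalar products
-/

set_option linter.all false

namespace Vale.Agent.P352X.ZZ.RS.Alg

open Vale.Agent.P352 Vale.Agent.P352.GF
open Vale.Agent.P352X.RS (So wH)
open Vale.Agent.P352X.RS.Alg
open MvPolynomial (X C pderiv aeval)

export Vale.Agent.P352X.RS.Alg (Po mo ap mp sc cm bd der sub zt dg)

noncomputable section

abbrev GV := Fin 9 × Fin 9
/-- the scalar products -/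
def gG (a : GV) : P9 := dotP a.1 a.2

abbrev evl {α : Type} (g : α → P9) (p : Po α) : P9 := Vale.Agent.P352X.RS.Alg.ev g p

theorem eta_sq (m : Ix) : (C (eta m : ℂ) : P9) * C (eta m : ℂ) = 1 := by
  rw [← map_mul]
  unfold eta
  split_ifs <;> simp

theorem pd_dot (x p q : Fin 9) (m : Ix) : pderiv (x, m) (dotP p q) =
    (if p = x then C (eta m : ℂ) * X (q, m) else 0) +
      (if q = x then C (eta m : ℂ) * X (p, m) else 0) := by
  simp only [dotP, map_sum, Derivation.leibniz, pd_X, MvPolynomial.pderiv_C, smul_eq_mul]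
  by_cases hp : p = x <;> by_cases hq : q = x <;>
    simp [hp, hq, Finset.sum_add_distrib, mul_comm, add_comm]

theorem Dh_dot (w x p q : Fin 9) : Dh w x (dotP p q) =
    (if p = x then dotP w q else 0) + (if q = x then dotP p w else 0) := by
  simp only [Dh_apply, pd_dot, mul_add, Finset.sum_add_distrib]
  congr 1
  · split_ifs
    · exact Finset.sum_congr rfl fun m _ => by ring
    · simp
  · split_ifs
    · exact Finset.sum_congr rfl fun m _ => by ring
    · simp

theorem cross (x y p q : Fin 9) (B : P9) :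
    ∑ m, C (eta m : ℂ) * (pderiv (x, m) (dotP p q) * pderiv (y, m) B) =
      (if p = x then Dh q y B else 0) + (if q = x then Dh p y B else 0) := by
  simp only [pd_dot, add_mul, mul_add, Finset.sum_add_distrib, Dh_apply]
  congr 1
  · split_ifs
    · exact Finset.sum_congr rfl fun m _ => by linear_combination (X (q, m) * pderiv (y, m) B) * eta_sq m
    · simp
  · split_ifs
    · exact Finset.sum_congr rfl fun m _ => by linear_combination (X (p, m) * pderiv (y, m) B) * eta_sq m
    · simp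

theorem DD_dot (x y p q : Fin 9) : DD x y (dotP p q) =
    (if p = x then if q = y then 4 else 0 else 0) +
      (if q = x then if p = y then 4 else 0 else 0) := by
  have h : ∀ m, C (eta m : ℂ) * pderiv (x, m) (pderiv (y, m) (dotP p q)) =
      (if p = x then if q = y then 1 else 0 else 0) +
        (if q = x then if p = y then 1 else 0 else 0) := by
    intro m
    rw [pd_dot, map_add]
    simp only [apply_ite (pderiv _), MvPolynomial.pderiv_C_mul, pd_X, map_zero, and_true]
    split_ifs <;> first | linear_combination eta_sq m | linear_combination 2 * eta_sq m | ring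
  simp only [DD_apply, h, Finset.sum_const, Finset.card_univ, Fintype.card_fin]
  split_ifs <;> norm_num

theorem DD_mul (x y : Fin 9) (A B : P9) : DD x y (A * B) = DD x y A * B +
    (∑ m, C (eta m : ℂ) * (pderiv (x, m) A * pderiv (y, m) B) +
    (∑ m, C (eta m : ℂ) * (pderiv (y, m) A * pderiv (x, m) B) + A * DD x y B)) := by
  simp only [DD_apply, Derivation.leibniz, smul_eq_mul, map_add, Finset.sum_mul, Finset.mul_sum,
    ← Finset.sum_add_distrib]
  exact Finset.sum_congr rfl fun m _ => by ring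

/-! ## the same operators on lists -/

def ie {α : Type} (p x : Fin 9) (A : Po α) : Po α :=
  Bool.rec (motive := fun _ => Po α) [] A (Nat.beq p.val x.val)

theorem ev_ie {α : Type} (g : α → P9) (p x : Fin 9) (A : Po α) :
    evl g (ie p x A) = if p = x then evl g A else 0 := by
  unfold ie
  by_cases h : p = x
  · subst h; simp
  · have : Nat.beq p.val x.val = false := by
      rw [← Bool.not_eq_true, Nat.beq_eq]; exact fun h' => h (Fin.ext h')
    rw [this, if_neg h]; rfl

def tbh (w x : Fin 9) (a : GV) : Po GV :=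
  ap (ie a.1 x [(1, [(w, a.2)])]) (ie a.2 x [(1, [(a.1, w)])])
def dhm (w x : Fin 9) : List GV → Po GV := der (tbh w x)
def dh (w x : Fin 9) : Po GV → Po GV := bd (dhm w x)

theorem mo_dhm (w x : Fin 9) (m : List GV) : Dh w x (mo gG m) = evl gG (dhm w x m) :=
  mo_der gG (Dh w x) (Dh_mul w x) _ (fun a => by
    simp [tbh, ev_ap, ev_ie, gG, Dh_dot]) m

theorem ev_dh (w x : Fin 9) (p : Po GV) : Dh w x (evl gG p) = evl gG (dh w x p) :=
  ev_bd gG gG _ _ (mo_dhm w x) p

def crs (x y : Fin 9) (a : GV) (l : List GV) : Po GV :=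
  ap (ie a.1 x (dhm a.2 y l)) (ie a.2 x (dhm a.1 y l))
def ddm (x y : Fin 9) (m : List GV) : Po GV :=
  List.rec [] (fun a l ih => ap (ap (ie a.1 x (ie a.2 y [(4, l)])) (ie a.2 x (ie a.1 y [(4, l)])))
    (ap (crs x y a l) (ap (crs y x a l) (cm a ih)))) m
def dd (x y : Fin 9) : Po GV → Po GV := bd (ddm x y)

theorem mo_ddm (x y : Fin 9) (m : List GV) : DD x y (mo gG m) = evl gG (ddm x y m) := by
  induction m with
  | nil => simp [ddm, DD_apply]
  | cons a l ih =>
    have : ddm x y (a :: l) = ap (ap (ie a.1 x (ie a.2 y [(4, l)]))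
      (ie a.2 x (ie a.1 y [(4, l)]))) (ap (crs x y a l) (ap (crs y x a l)
        (cm a (ddm x y l)))) := rfl
    rw [this, mo_cons, DD_mul, ih, gG, cross, cross, DD_dot]
    simp only [ev_ap, ev_ie, crs, ev_cm, ← mo_dhm, ev_cons, ev_nil, gG, add_mul, ite_mul, zero_mul,
      add_zero, Int.cast_ofNat]

theorem ev_dd (x y : Fin 9) (p : Po GV) : DD x y (evl gG p) = evl gG (dd x y p) :=
  ev_bd gG gG _ _ (mo_ddm x y) p

/-! ## substitutions -/

def lin (l : List (ℤ × Fin 9)) (m : Ix) : P9 := (l.map fun t => (t.1 : P9) * X (t.2, m)).sum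
def bil (l k : List (ℤ × Fin 9)) : Po GV :=
  List.rec [] (fun t _ ih => ap (mp (fun s => (Int.mul t.1 s.1, [(t.2, s.2)])) k) ih) l

theorem ev_bil (l k : List (ℤ × Fin 9)) :
    evl gG (bil l k) = ∑ m, C (eta m : ℂ) * lin l m * lin k m := by
  have h1 : ∀ (t : ℤ × Fin 9) (k : List (ℤ × Fin 9)),
      evl gG (mp (fun s => (Int.mul t.1 s.1, [(t.2, s.2)])) k) =
        ∑ m, C (eta m : ℂ) * ((t.1 : P9) * X (t.2, m)) * lin k m := by
    intro t k
    induction k with
    | nil => simp [mp, lin]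
    | cons s k ih =>
      have : mp (fun s => (Int.mul t.1 s.1, [(t.2, s.2)])) (s :: k) =
        (t.1 * s.1, [(t.2, s.2)]) :: mp (fun s => (Int.mul t.1 s.1, [(t.2, s.2)])) k := rfl
      rw [this, evl, ev_cons, ← evl, ih]
      simp only [lin, List.map_cons, List.sum_cons, mo_cons, mo_nil, gG, dotP, mul_one,
        Finset.mul_sum, ← Finset.sum_add_distrib]
      exact Finset.sum_congr rfl fun m _ => by push_cast; ring
  induction l with
  | nil => simp [bil, lin]
  | cons t l ih =>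
    have : bil (t :: l) k = ap (mp (fun s => (Int.mul t.1 s.1, [(t.2, s.2)])) k) (bil l k) := rfl
    rw [this, evl, ev_ap, ← evl, ← evl, ih, h1, ← Finset.sum_add_distrib]
    simp only [lin, List.map_cons, List.sum_cons]
    exact Finset.sum_congr rfl fun m _ => by ring

def sb (vt : Fin 9 → List (ℤ × Fin 9)) : Po GV → Po GV :=
  bd (sub fun a : GV => bil (vt a.1) (vt a.2))

theorem ev_sb (σ : P9 →ₐ[ℂ] P9) (vt : Fin 9 → List (ℤ × Fin 9))
    (h : ∀ j m, σ (X (j, m)) = lin (vt j) m) (p : Po GV) : σ (evl gG p) = evl gG (sb vt p) :=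
  ev_sub gG gG σ.toRingHom _ (fun a => by
    rw [← evl, ev_bil, gG, dotP]
    change σ _ = _
    rw [map_sum]
    refine Finset.sum_congr rfl fun m _ => ?_
    rw [map_mul, map_mul, h, h, hom_C]) p

/-- renaming -/
def rp (σ : Fin 9 → Fin 9) (p : Po GV) : Po GV :=
  mp (fun t => (t.1, mp (fun a => (σ a.1, σ a.2)) t.2)) p

theorem ev_rp (σ : Fin 9 → Fin 9) (p : Po GV) : rn σ (evl gG p) = evl gG (rp σ p) := by
  have h : ∀ m : List GV, rn σ (mo gG m) = mo gG (mp (fun a => (σ a.1, σ a.2)) m) := fun m => by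
    induction m with
    | nil => simp [mp]
    | cons a m ih =>
      have : mp (fun a : GV => (σ a.1, σ a.2)) (a :: m) =
        (σ a.1, σ a.2) :: mp (fun a => (σ a.1, σ a.2)) m := rfl
      rw [this, mo_cons, mo_cons, map_mul, ih]
      simp [gG, dotP, rn_X, hom_C]
  induction p with
  | nil => simp [rp, mp]
  | cons t p ih =>
    have : rp σ (t :: p) = (t.1, mp (fun a => (σ a.1, σ a.2)) t.2) :: rp σ p := rfl
    rw [this, evl, evl, ev_cons, ev_cons, map_add, map_mul, h, ← evl, ih, map_intCast]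

/-- tables indexed by the nine vectors -/
def t9 {γ : Type} (a b c d e f g h i : γ) (j : Fin 9) : γ :=
  Nat.rec a (fun n _ => Nat.rec b (fun n _ => Nat.rec c (fun n _ => Nat.rec d (fun n _ =>
    Nat.rec e (fun n _ => Nat.rec f (fun n _ => Nat.rec g (fun n _ => Nat.rec h (fun _ _ => i) n)
      n) n) n) n) n) n) j.val

def r13 : Fin 9 → Fin 9 := t9 4 5 2 3 0 1 6 8 7
def v12 : Fin 9 → List (ℤ × Fin 9) := t9 [(1, 2)] [(1, 3)] [(1, 0)] [(1, 1)] [(1, 4)] [(1, 5)]
  [(1, 6)] [(-1, 7)] [(1, 8), (-1, 7)]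
def v312 : Fin 9 → List (ℤ × Fin 9) := t9 [(1, 2)] [(1, 3)] [(1, 4)] [(1, 5)] [(1, 0)] [(1, 1)]
  [(1, 6)] [(-1, 8)] [(1, 7), (-1, 8)]

def v231 : Fin 9 → List (ℤ × Fin 9) := t9 [(1, 4)] [(1, 5)] [(1, 0)] [(1, 1)] [(1, 2)] [(1, 3)]
  [(1, 6)] [(1, 8), (-1, 7)] [(-1, 7)]
def v23 : Fin 9 → List (ℤ × Fin 9) := t9 [(1, 0)] [(1, 1)] [(1, 4)] [(1, 5)] [(1, 2)] [(1, 3)]
  [(1, 6)] [(1, 7), (-1, 8)] [(-1, 8)]

theorem s13_eq : s13 = rn r13 := congrArg rn (by decide)

def sy (p : Po GV) : Po GV :=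
  ap p (ap (sb v12 p) (ap (rp r13 p) (ap (sb v231 p) (ap (sb v312 p) (sb v23 p)))))

theorem ev_sy (p : Po GV) : sym6 (evl gG p) = evl gG (sy p) := by
  have h1 := ev_sb s12 v12 (fun j m => by
    fin_cases j <;> simp [s12, lin, v12, t9, sub_eq_add_neg]) p
  have h2 : s13 (evl gG p) = evl gG (rp r13 p) := s13_eq ▸ ev_rp r13 p
  have h3 := ev_sb (s12.comp s13) v231 (fun j m => by
    fin_cases j <;> simp [s12, s13, rn, lin, v231, t9, sub_eq_add_neg]) p
  have h4 := ev_sb (s13.comp s12) v312 (fun j m => by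
    fin_cases j <;> simp [s12, s13, rn, lin, v312, t9, sub_eq_add_neg]) p
  have h5 := ev_sb s23 v23 (fun j m => by
    fin_cases j <;> simp [s23, lin, v23, t9, sub_eq_add_neg]) p
  simp only [AlgHom.comp_apply] at h3 h4
  rw [sym6, ← s23_eq, h5, h4, h3, h1, h2]
  simp only [sy, ev_ap]
  ring

/-! ## zero test, degrees, traces -/

def prG (a : GV) : ℕ :=
  Nat.mod (Nat.shiftRight 0xd0547433d3b352f2b050229251f1d1713114729c5a39d978971614325a3c10b95836d593d1f9d0bbf8b7f6b533b1d97958bb507674f351789837f07b365492f13716d6b6765ad032b116159534f4903a7 (Nat.mul 8 (Nat.add (Nat.mul 9 a.1.val) a.2.val))) 256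

theorem dot_comm (j k : Fin 9) : dotP j k = dotP k j :=
  Finset.sum_congr rfl fun m _ => by ring

theorem pr_prime : ∀ a, (prG a).Prime := by decide +kernel

theorem pr_eq (a b : GV) (hab : prG a = prG b) : gG a = gG b := by
  have : ∀ a b : GV, prG a = prG b → a = b ∨ a = b.swap := by decide +kernel
  rcases this a b hab with rfl | rfl
  · rfl
  · exact dot_comm _ _

theorem ztG (p : Po GV) (h : zt prG p = true) : evl gG p = 0 := ev_zt prG pr_prime gG pr_eq p h

theorem deg_ev {α : Type} (g : α → P9) (w : α → ℕ) (hg : ∀ a, Deg (w a) (g a)) (n : ℕ)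
    (p : Po α) (h : dg w n p = true) : Deg n (evl g p) :=
  ev_dg g Deg (MvPolynomial.isWeightedHomogeneous_one _ _) (fun _ _ _ _ h1 h2 => h1.mul h2)
    (fun n => MvPolynomial.isWeightedHomogeneous_zero _ _ n) (fun _ _ _ h1 h2 => h1.add h2)
    (fun n c x h => by simpa using deg_C (c : ℂ) h) w hg n p h

def w9 : Fin 9 → ℕ := t9 0 0 0 0 0 0 0 1 1
theorem w9_eq (j : Fin 9) (m : Ix) : w9 j = wt (j, m) := by revert j m; decide
def wG (a : GV) : ℕ := Nat.add (w9 a.1) (w9 a.2)

theorem deg_dot (j k : Fin 9) : Deg (w9 j + w9 k) (dotP j k) :=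
  deg_sum _ fun m _ => deg_mul (deg_C _ (deg_X (j, m))) (deg_X (k, m)) (by rw [← w9_eq, ← w9_eq])

theorem degG (n : ℕ) (p : Po GV) (h : dg wG n p = true) :
    Deg n (evl gG p) := deg_ev gG wG (fun a => deg_dot a.1 a.2) n p h

/-! ## normal forms -/

inductive U : Type
  | lf : U
  | nd : U → ℕ → ℤ → List GV → U → U

def U.val (γ : ℕ →* P9) : U → P9
  | .lf => 0
  | .nd l k c _ r => l.val γ + (c : P9) * γ k + r.val γ

def U.Ok (γ : ℕ →* P9) : U → Prop
  | .lf => True
  | .nd l k _ m r => l.Ok γ ∧ γ k = mo gG m ∧ r.Ok γ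

def fu {X : Type} (t : U) (f : U → X) : X :=
  U.rec (f .lf) (fun l k c m r _ _ => f (.nd l k c m r)) t

theorem fu_eq {X : Type} (t : U) (f : U → X) : fu t f = f t := by cases t <;> rfl

def fm {X : Type} (m : List GV) : (List GV → X) → X :=
  List.rec (motive := fun _ => (List GV → X) → X) (fun f => f [])
    (fun a _ ih f => Prod.rec (fun x y => Fin.rec (fun i hi => Fin.rec (fun j hj =>
      ih fun l => f ((⟨i, hi⟩, ⟨j, hj⟩) :: l)) y) x) a) m

theorem fm_eq {X : Type} (m : List GV) (f : List GV → X) : fm m f = f m := by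
  induction m generalizing f with
  | nil => rfl
  | cons a m ih => exact ih fun l => f (a :: l)

def iu (k : ℕ) (c : ℤ) (m : List GV) (t : U) : U :=
  U.rec (fm m fun m => .nd .lf k c m .lf) (fun l k' c' m' r il ir =>
    Bool.rec (motive := fun _ => U)
      (Bool.rec (motive := fun _ => U) (fu ir fun r' => .nd l k' c' m' r')
        (fu il fun l' => .nd l' k' c' m' r) (Nat.ble (Nat.mod k 1000003) (Nat.mod k' 1000003)))
      (RS.Alg.fi (Int.add c' c) fun c'' => .nd l k' c'' m' r) (Nat.beq k k')) t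

theorem iu_ok (γ : ℕ →* P9) (k : ℕ) (c : ℤ) (m : List GV) (h : γ k = mo gG m) (t : U)
    (ht : t.Ok γ) : (iu k c m t).Ok γ ∧ (iu k c m t).val γ = t.val γ + (c : P9) * γ k := by
  induction t with
  | lf => simp [iu, fm_eq, U.val, U.Ok, h]
  | nd l k' c' m' r il ir =>
    have : iu k c m (.nd l k' c' m' r) = Bool.rec (motive := fun _ => U)
      (Bool.rec (motive := fun _ => U) (fu (iu k c m r) fun r' => .nd l k' c' m' r')
        (fu (iu k c m l) fun l' => .nd l' k' c' m' r)
        (Nat.ble (Nat.mod k 1000003) (Nat.mod k' 1000003)))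
      (RS.Alg.fi (Int.add c' c) fun c'' => .nd l k' c'' m' r) (Nat.beq k k') := rfl
    rw [this, fu_eq, fu_eq, fi_eq]
    cases e : Nat.beq k k' with
    | true =>
      obtain rfl : k = k' := Nat.eq_of_beq_eq_true e
      refine ⟨ht, ?_⟩
      change l.val γ + ((c' + c : ℤ) : P9) * γ k + r.val γ = l.val γ + c' * γ k + r.val γ + _
      push_cast
      ring
    | false =>
      cases Nat.ble (Nat.mod k 1000003) (Nat.mod k' 1000003) with
      | true =>
        refine ⟨⟨(il ht.1).1, ht.2⟩, ?_⟩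
        change (iu k c m l).val γ + c' * γ k' + r.val γ = l.val γ + c' * γ k' + r.val γ + _
        rw [(il ht.1).2]
        ring
      | false =>
        refine ⟨⟨ht.1, ht.2.1, (ir ht.2.2).1⟩, ?_⟩
        change l.val γ + c' * γ k' + (iu k c m r).val γ = l.val γ + c' * γ k' + r.val γ + _
        rw [(ir ht.2.2).2]
        ring

def uo (t : U) : Po GV → Po GV :=
  U.rec (motive := fun _ => Po GV → Po GV) (fun q => q)
    (fun _ _ c m _ il ir q => il ((c, m) :: ir q)) t

theorem ev_uo (γ : ℕ →* P9) (t : U) (ht : t.Ok γ) (q : Po GV) :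
    evl gG (uo t q) = t.val γ + evl gG q := by
  induction t generalizing q with
  | lf => simp [uo, U.val]
  | nd l k c m r il ir =>
    have : uo (.nd l k c m r) q = uo l ((c, m) :: uo r q) := rfl
    rw [this, il ht.1, evl, ev_cons, ← evl, ir ht.2.2, U.val, ht.2.1]
    ring

def nf (p : Po GV) : U → Po GV :=
  List.rec (motive := fun _ => U → Po GV) (fun t => uo t [])
    (fun x _ ih t => fn (key prG x.2) fun k => RS.Alg.fi x.1 fun c => fu (iu k c x.2 t) ih) p

/-- collects equal monomials -/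
def nm (p : Po GV) : Po GV := nf p .lf

theorem ev_nm (p : Po GV) : evl gG (nm p) = evl gG p := by
  obtain ⟨γ, hγ⟩ := exists_gamma prG pr_prime gG pr_eq
  have h : ∀ t : U, t.Ok γ → evl gG (nf p t) = t.val γ + evl gG p := by
    induction p with
    | nil => exact fun t ht => ev_uo γ t ht []
    | cons x p ih =>
      intro t ht
      have : nf (x :: p) t = fn (key prG x.2) fun k => RS.Alg.fi x.1 fun c =>
        fu (iu k c x.2 t) (nf p) := rfl
      obtain ⟨k1, k2⟩ := iu_ok γ _ x.1 x.2 (key_eq γ prG gG hγ x.2) t ht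
      rw [this, fn_eq, fi_eq, fu_eq, ih _ k1, k2, key_eq γ prG gG hγ, evl, evl, ev_cons]
      ring
  simpa [U.val, nm] using h .lf trivial

/-- the traces -/
def Tr (S : P9) : Prop := ∃ A B A', S = dotP 0 1 * A + dotP 2 3 * B + dotP 4 5 * A'

/-- test for the three traces -/
def it (a : GV) : Bool := Nat.beq (Nat.mod 231 (prG a)) 0

def hs (m : List GV) : Bool :=
  List.rec false (fun a _ ih => Bool.rec (motive := fun _ => Bool) ih true (it a)) m

/-- drop the traces -/
def nt (p : Po GV) : Po GV :=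
  List.rec [] (fun t _ ih => Bool.rec (motive := fun _ => Po GV) (t :: ih) ih (hs t.2)) p

theorem Tr.add {S T : P9} (h : Tr S) (h' : Tr T) : Tr (S + T) := by
  obtain ⟨A, B, A', rfl⟩ := h
  obtain ⟨a, b, a', rfl⟩ := h'
  exact ⟨A + a, B + b, A' + a', by ring⟩

theorem Tr.mul {S : P9} (h : Tr S) (T : P9) : Tr (T * S) := by
  obtain ⟨A, B, A', rfl⟩ := h
  exact ⟨T * A, T * B, T * A', by ring⟩

theorem tr_it (a : GV) (h : it a = true) : Tr (gG a) := by
  have : ∀ a : GV, it a = true → a = (0, 1) ∨ a = (1, 0) ∨ a = (2, 3) ∨ a = (3, 2) ∨ a = (4, 5) ∨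
    a = (5, 4) := by decide +kernel
  rcases this a h with rfl | rfl | rfl | rfl | rfl | rfl
  exacts [⟨1, 0, 0, by simp [gG]⟩, ⟨1, 0, 0, by simp [gG, dot_comm 1 0]⟩, ⟨0, 1, 0, by simp [gG]⟩,
    ⟨0, 1, 0, by simp [gG, dot_comm 3 2]⟩, ⟨0, 0, 1, by simp [gG]⟩,
    ⟨0, 0, 1, by simp [gG, dot_comm 5 4]⟩]

theorem tr_hs (m : List GV) (h : hs m = true) : Tr (mo gG m) := by
  induction m with
  | nil => exact absurd h (by simp [hs])
  | cons a m ih =>
    have : hs (a :: m) = Bool.rec (motive := fun _ => Bool) (hs m) true (it a) := rfl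
    rw [mo_cons]
    cases e : it a with
    | true => exact mul_comm (mo gG m) _ ▸ (tr_it a e).mul _
    | false => exact (ih (by rwa [this, e] at h)).mul _

theorem tr_nt (p : Po GV) : Tr (evl gG p - evl gG (nt p)) := by
  induction p with
  | nil => exact ⟨0, 0, 0, by simp [nt]⟩
  | cons t p ih =>
    have : nt (t :: p) = Bool.rec (motive := fun _ => Po GV) (t :: nt p) (nt p) (hs t.2) := rfl
    rw [this]
    cases e : hs t.2 with
    | true =>
      have := ((tr_hs _ e).mul (t.1 : P9)).add ih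
      rwa [← add_sub_assoc, ← ev_cons] at this
    | false =>
      change Tr (evl gG (t :: p) - evl gG (t :: nt p))
      rwa [evl, evl, ev_cons, ev_cons, add_sub_add_left_eq_sub]

theorem tr_zt (p : Po GV) (h : zt prG (nt p) = true) : Tr (evl gG p) := by
  have := tr_nt p
  rwa [ztG _ h, sub_zero] at this

/-! ## the Lorentz average -/

def t3 {γ : Type} (a b c : γ) (j : Fin 3) : γ :=
  Nat.rec a (fun n _ => Nat.rec b (fun _ _ => c) n) j.val

/-- the vectors `w`, `u`, `u - v` -/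
def vt : Fin 3 → List (ℤ × Fin 9) := t3 [(1, 6)] [(1, 7)] [(1, 7), (-1, 8)]
def vc (i : Fin 3) (m : Ix) : P9 := lin (vt i) m
def cG (a : Fin 3 × Fin 3) : P9 := evl gG (bil (vt a.1) (vt a.2))
def cA (i : Fin 3) : P9 := vc i 0 - vc i 1
def cB (i : Fin 3) : P9 := C (1 / 2) * (vc i 0 + vc i 1)

abbrev CV := Fin 3 × Fin 5
def gM (a : CV) : P9 := ![cG (a.1, 0), cG (a.1, 1), cG (a.1, 2), cA a.1, cB a.1] a.2

theorem half : (C (1 / 2 : ℂ) : P9) * 2 = 1 := by
  rw [show (2 : P9) = C 2 from rfl, ← map_mul]; norm_num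

theorem cG_eq (i j : Fin 3) : cG (i, j) =
    vc i 0 * vc j 0 - vc i 1 * vc j 1 - vc i 2 * vc j 2 - vc i 3 * vc j 3 := by
  simp [cG, ev_bil, vc, eta, o, Fin.sum_univ_four, sub_eq_add_neg]

theorem perp (i j : Fin 3) :
    vc i 2 * vc j 2 + vc i 3 * vc j 3 = cA i * cB j + cB i * cA j - cG (i, j) := by
  rw [cG_eq, cA, cA, cB, cB]
  linear_combination (-(vc i 0 * vc j 0 - vc i 1 * vc j 1)) * half

theorem om_vc (w : Ix → V) (i : Fin 3) (n : Ix) :
    om w (vc i n) = ∑ m, C (w m n : ℂ) * vc i m := by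
  have h := map_sub (omH w) (X (7, n)) (X (8, n))
  simp only [omH_apply, om_X] at h
  fin_cases i
  · simp [vc, vt, t3, lin, om_X]
  · simp [vc, vt, t3, lin, om_X]
  · simpa [vc, vt, t3, lin, ← sub_eq_add_neg, mul_sub] using h

theorem om_ev (w : Ix → V) (hw : So w) (p : Po GV) : om w (evl gG p) = 0 := by
  have h : ∀ m : List GV, om w (mo gG m) = 0 := fun m => by
    induction m with
    | nil => simp [om]
    | cons a m ih => rw [mo_cons, om_mul, ih, gG, om_dot w hw, zero_mul, mul_zero, add_zero]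
  induction p with
  | nil => simp [om]
  | cons t p ih =>
    rw [evl, ev_cons, ← omH_apply, map_add, omH_apply, omH_apply, ih, ← map_intCast (C : ℂ →+* P9), om_C, h,
      mul_zero, add_zero]

/-- null rotations -/
def wA : Ix → V := ![![0, 0, 1, 0], ![0, 0, -1, 0], ![1, 1, 0, 0], ![0, 0, 0, 0]]
def wB : Ix → V := ![![0, 0, 0, 1], ![0, 0, 0, -1], ![0, 0, 0, 0], ![1, 1, 0, 0]]

theorem so_A : So wA := fun m n => by fin_cases m <;> fin_cases n <;> simp [wA, eta, o]
theorem so_B : So wB := fun m n => by fin_cases m <;> fin_cases n <;> simp [wB, eta, o]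
theorem so_H : So wH := fun m n => by fin_cases m <;> fin_cases n <;> simp [wH, eta, o]

theorem om_AB (w : Ix → V) (i : Fin 3) : om w (cA i) = om w (vc i 0) - om w (vc i 1) ∧
    om w (cB i) = C (1 / 2) * (om w (vc i 0) + om w (vc i 1)) :=
  ⟨map_sub (omH w) _ _, by rw [cB, om_C, ← omH_apply, map_add]; rfl⟩

theorem omA (i : Fin 3) : om wA (cA i) = 0 ∧ om wA (cB i) = vc i 2 ∧ om wA (vc i 2) = cA i := by
  rw [(om_AB wA i).1, (om_AB wA i).2]
  have := half
  simp [om_vc, wA, Fin.sum_univ_four, cA, sub_eq_add_neg] at this ⊢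
  linear_combination vc i 2 * this

theorem omB (i : Fin 3) : om wB (cA i) = 0 ∧ om wB (cB i) = vc i 3 ∧ om wB (vc i 3) = cA i := by
  rw [(om_AB wB i).1, (om_AB wB i).2]
  have := half
  simp [om_vc, wB, Fin.sum_univ_four, cA, sub_eq_add_neg] at this ⊢
  linear_combination vc i 3 * this

/-- the derivation `x_2 M_2 + x_3 M_3` -/
def Dx (x : Fin 3) : P9 →+ P9 where
  toFun S := vc x 2 * om wA S + vc x 3 * om wB S
  map_zero' := by simp [om]
  map_add' a b := by
    rw [← omH_apply, ← omH_apply, map_add, map_add]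
    simp only [omH_apply]
    ring

def tD (x : Fin 3) (a : CV) : Po CV := Bool.rec (motive := fun _ => Po CV) []
  [(1, [(x, 3), (a.1, 4)]), (1, [(x, 4), (a.1, 3)]), (-1, [(x, a.1.castLE (by decide))])]
  (Nat.beq a.2.val 4)

theorem gM_G (x y : Fin 3) : gM (x, y.castLE (by decide)) = cG (x, y) := by
  fin_cases y <;> rfl

theorem ev_Dx (x : Fin 3) (p : Po CV) : Dx x (evl gM p) = evl gM (bd (der (tD x)) p) := by
  refine ev_der gM (Dx x) (fun a b => ?_) _ (fun ⟨i, j⟩ => ?_) p
  · change _ * om wA _ + _ * om wB _ = (_ * om wA a + _ * om wB a) * b + a * (_ * om wA b + _ * om wB b)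
    rw [om_mul, om_mul]
    ring
  · change _ * om wA _ + _ * om wB _ = _
    have h : ∀ a, vc x 2 * om wA (cG a) + vc x 3 * om wB (cG a) = 0 := fun a => by
      rw [cG, om_ev _ so_A, om_ev _ so_B, mul_zero, mul_zero, add_zero]
    fin_cases j
    · exact h _
    · exact h _
    · exact h _
    · change _ * om wA (cA i) + _ * om wB (cA i) = 0
      rw [(omA i).1, (omB i).1, mul_zero, mul_zero, add_zero]
    · change _ * om wA (cB i) + _ * om wB (cB i) = evl gM [(1, [(x, 3), (i, 4)]),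
        (1, [(x, 4), (i, 3)]), (-1, [(x, i.castLE (by decide))])]
      rw [(omA i).2.1, (omB i).2.1, perp]
      simp only [ev_cons, ev_nil, mo_cons, mo_nil, gM_G]
      simp [gM, sub_eq_add_neg, add_assoc]

/-- the image of the two null rotations -/
def lx (x : Fin 3) (p : Po CV) : Po CV := ap (sc 2 (cm (x, 3) p)) (bd (der (tD x)) p)

theorem ev_lx (x : Fin 3) (p : Po CV) :
    om wA (vc x 2 * evl gM p) + om wB (vc x 3 * evl gM p) = evl gM (lx x p) := by
  rw [lx, evl, evl, ev_ap, ev_sc, ev_cm, ← evl, ← evl, ← ev_Dx, om_mul, om_mul, (omA x).2.2,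
    (omB x).2.2]
  change _ = _ * (cA x * _) + (_ * om wA _ + _ * om wB _)
  push_cast
  ring

def prC (a : CV) : ℕ :=
  Nat.mod (Nat.shiftRight 0x251f0d0b051d170b07031311050302 (Nat.mul 8 (Nat.add (Nat.mul 5 a.1.val) a.2.val))) 256

theorem ztC (p : Po CV) (h : zt prC p = true) : evl gM p = 0 := by
  refine ev_zt prC (by decide +kernel) gM (fun a b hab => ?_) p h
  have : ∀ a b : CV, prC a = prC b → a = b ∨ ∃ x y : Fin 3, a = (x, y.castLE (by decide)) ∧
    b = (y, x.castLE (by decide)) := by decide +kernel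
  rcases this a b hab with rfl | ⟨x, y, rfl, rfl⟩
  · rfl
  · rw [gM_G, gM_G, cG_eq, cG_eq]
    ring

def w3 : Fin 3 → ℕ := t3 0 1 1
def wC (a : CV) : ℕ := Nat.add (w3 a.1) (Nat.mod (Nat.shiftRight 6 a.2.val) 2)

theorem deg_vc (i : Fin 3) (m : Ix) : Deg (w3 i) (vc i m) := by
  fin_cases i
  · simpa [vc, vt, t3, lin, w3, wt] using deg_X (6, m)
  · simpa [vc, vt, t3, lin, w3, wt] using deg_X (7, m)
  · simpa [vc, vt, t3, lin, w3, wt, ← sub_eq_add_neg] using deg_sub (deg_X (7, m)) (deg_X (8, m))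

theorem degC (n : ℕ) (p : Po CV) (h : dg wC n p = true) :
    Deg n (evl gM p) := by
  refine deg_ev gM wC (fun ⟨i, j⟩ => ?_) n p h
  have g : ∀ j, Deg (w3 i + w3 j) (cG (i, j)) := fun j => by
    have k := fun m => deg_mul (deg_vc i m) (deg_vc j m) rfl
    rw [cG_eq]
    exact deg_sub (deg_sub (deg_sub (k 0) (k 1)) (k 2)) (k 3)
  rw [show wC (i, j) = w3 i + ![w3 0, w3 1, w3 2, 0, 0] j by clear g; revert i j; decide]
  fin_cases j
  exacts [g 0, g 1, g 2, deg_sub (deg_vc i 0) (deg_vc i 1),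
    deg_C _ (deg_add (deg_vc i 0) (deg_vc i 1))]

theorem ev_M (p : Po (Fin 3 × Fin 3)) :
    evl cG p = evl gM (bd (sub fun a => [(1, [(a.1, a.2.castLE (by decide))])]) p) :=
  ev_sub cG gM (RingHom.id _) _ (fun a => by simp [gM_G]) p

theorem ev_G (p : Po (Fin 3 × Fin 3)) :
    evl cG p = evl gG (bd (sub fun a => bil (vt a.1) (vt a.2)) p) :=
  ev_sub cG gG (RingHom.id _) _ (fun _ => rfl) p

end

end Vale.Agent.P352X.ZZ.RS.Alg
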