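import Vale.Agent.P352Z.R.RES.Cal
import Vale.Agent.P352Z.Spec
import Vale.Agent.P352X.R.RES.Red
import Vale.Agent.P352X.R.RES.Fib

/-!
# P352Z, block RES: the reduced distribution
-/

set_option linter.all false

open MeasureTheory Filter Topology
open scoped SchwartzMap ContDiff

namespace Vale.Agent.P352X.ZZ.RS

open Vale.Agent.P352 Vale.Agent.P352.GF Vale.Agent.P352.H755
open Vale.Agent.P352X.RS (So wH Ef Xf)
open Vale.Agent.P352X.RS.Red (sch_app dc_mul sch_lin dc_der dc_inj dc_comp mat sim_mat mat_one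
  mat_bas ex_flow tri tri_app L2_one L2_der int_der dq dq_app lf dc_lf dc_lf1 dc_cx lf_der dc_zero
  sw3 sw4)
open Vale.Agent.P352X.RS.Fib (inv2 l2_one lor_one sim_tr)
open Api4 (rd3 red3 fib3 sch_fib3 sch_red3 coe_sch)
open MvPolynomial (X C pderiv)

noncomputable section

theorem L2_der' {L : ℝ → Ix → V} {w : Ix → V} (h : HasDerivAt L w 0) (h0 : L 0 = GF.one)
    (K I : I2) : HasDerivAt (fun t => L2 (L t) K I) (l2 w K I) 0 := L2_der h h0 K I

theorem ev8_X0 {j : Fin 9} (hj : ¬ 7 ≤ j) (m : Ix) (z : V × V) : ev8 (X (j, m)) z = 0 := by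
  fin_cases j <;> simp [ev8] at hj ⊢

theorem dp_X {i j k : Fin 9} (hj : i ≠ j) (hk : i ≠ k) (I : I2) (m : Ix) (S : P9) :
    dp j k I (X (i, m) * S) = X (i, m) * dp j k I S := by
  simp [dp, Derivation.leibniz, pd_X, hj, hk]

theorem ev8_tr (I J K : I2) (S : P9) (z : V × V) : ev8 (d6 I J K (dotP 0 1 * S)) z =
    (if I.1 = I.2 then (eta I.1 : ℂ) else 0) * ev8 (dp 2 3 J (dp 4 5 K S)) z := by
  simp only [d6, dotP, Finset.sum_mul, mul_assoc, dp_sum, dp_C,
    dp_X (show (0 : Fin 9) ≠ 4 by decide) (show (0 : Fin 9) ≠ 5 by decide),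
    dp_X (show (1 : Fin 9) ≠ 4 by decide) (show (1 : Fin 9) ≠ 5 by decide),
    dp_X (show (0 : Fin 9) ≠ 2 by decide) (show (0 : Fin 9) ≠ 3 by decide),
    dp_X (show (1 : Fin 9) ≠ 2 by decide) (show (1 : Fin 9) ≠ 3 by decide)]
  generalize dp 2 3 J (dp 4 5 K S) = R
  obtain ⟨a, b⟩ := I
  have e1 : ev8 1 z = 1 := by simpa using ev8_C 1 z
  have e : ∀ (j : Fin 9) (m n : Ix), ev8 (Pi.single (M := fun _ => P9) (j, m) 1 (j, n)) z =
      if n = m then 1 else 0 := fun j m n => by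
    by_cases k : n = m
    · simp [k, e1]
    · simp [k, ev8_zero]
  simp [dp, Derivation.leibniz, pd_X, ev8_sum, ev8_mul, ev8_add, ev8_C, ev8_X0, apply_ite,
    ev8_zero]
  simp only [e, mul_ite, mul_one, mul_zero, Finset.sum_ite_eq', Finset.mem_univ, if_true]
  split_ifs <;> simp

variable {D : Type*} [NormedAddCommGroup D] [InnerProductSpace ℂ D] (c : Ctx D)

/-- translation invariance -/
theorem t_tsl [Fact c.tp] (I J K : I2) (a : V) (F G : S3)
    (h : ∀ x y z, G (x, y, z) = F (x + a, y + a, z + a)) : c.t I J K F = c.t I J K G := by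
  rw [c.hTP.cov 1 GF.one a I J K F G one_pos lor_one (by simpa only [sim_tr] using h) (.inl rfl)]
  simp [l2_one]

/-- fibre integration on Schwartz space -/
theorem t_fib (Λ : S3 →L[ℂ] ℂ) (hΛ : ∀ (a : V) (F G : S3),
    (∀ x y z, G (x, y, z) = F (x + a, y + a, z + a)) → Λ F = Λ G) {ρ : Sch} (h1 : ∫ y, ρ y = 1)
    (F : S3) : Λ F = Λ (red3 ρ (fib3 volume F)) := by
  have := inv2 volume (Λ ∘L SchwartzMap.compCLMOfContinuousLinearEquiv ℂ (rd3 V))
    (fun a H => hΛ a _ _ fun x y z => by simp [ST.tsl_apply]) h1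
    (SchwartzMap.compCLMOfContinuousLinearEquiv ℂ (rd3 V).symm F)
  refine Eq.trans (congrArg _ (SchwartzMap.ext fun z => ?_)) this
  exact congrArg F ((rd3 V).symm_apply_apply z).symm

theorem int_sch {ρ0 : V → ℝ} (h0 : Tst ρ0) (h1 : ∫ x, ρ0 x = 1) : ∫ y, sch (cx ρ0) y = 1 := by
  rw [coe_sch (dc_cx h0)]
  exact (integral_complex_ofReal (f := ρ0)).trans (by rw [h1]; rfl)

theorem fib0 [Fact c.tp] (ρ0 : V → ℝ) (I J K : I2) (F : V × V × V → ℂ) (h0 : Tst ρ0)
    (h1 : ∫ x, ρ0 x = 1) (hF : Dc F) : c.t I J K (sch F) = c.t I J K (sch fun z : V × V × V =>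
      (ρ0 z.2.1 : ℂ) * ∫ y, F (y + (z.1 - z.2.1), y, y + (z.2.2 - z.2.1))) := by
  obtain ⟨k1, k2⟩ := sch_fib3 volume hF
  rw [t_fib _ (t_tsl c I J K) (int_sch h0 h1) (sch F), ← k2, ← (sch_red3 (dc_cx h0) k1).2]
  rfl

/-- infinitesimal covariance -/
theorem inf [Fact c.tp] {s : ℝ → ℝ} {L : ℝ → Ix → V} {s' : ℝ} {w : Ix → V} (hs : HasDerivAt s s' 0)
    (hL : HasDerivAt L w 0) (s0 : s 0 = 1) (L0 : L 0 = GF.one)
    (hI : ∀ᶠ t in 𝓝 (0 : ℝ), IsLor (L t)) {F : V × V × V → ℂ} (hF : Dc F)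
    (h : (∀ t, s t = 1) ∨ ∀ x, (x, x, x) ∉ tsupport F) (I J K : I2) :
    c.t I J K (sch fun z => fderiv ℝ F z (tri (s' • 1 + mat w) z)) +
      (∑ M, l2 w M I * c.t M J K (sch F) + ∑ M, l2 w M J * c.t I M K (sch F) +
        ∑ M, l2 w M K * c.t I J M (sch F)) = 0 := by
  have hg : HasDerivAt (fun t => tri (s t • mat (L t))) (tri (s' • 1 + mat w)) 0 :=
    tri.hasFDerivAt.comp_hasDerivAt 0 (by
      simpa [s0, L0, mat_one, add_comm] using hs.fun_smul (mat.hasFDerivAt.comp_hasDerivAt 0 hL))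
  have g0 : tri (s 0 • mat (L 0)) = 1 := by
    rw [s0, L0, mat_one, one_smul]
    rfl
  set Ft : ℝ → S3 := fun t => sch fun z => F (tri (s t • mat (L t)) z) with hFt
  have e1 : ∀ᶠ t in 𝓝 (0 : ℝ), ∀ z, Ft t z = F (tri (s t • mat (L t)) z) := by
    filter_upwards [(tendsto_iff_norm_sub_tendsto_zero.1 (g0 ▸ hg.continuousAt.tendsto)).eventually
      (gt_mem_nhds one_pos)] with t k using sch_app (dc_comp hF k)
  have F0 : Ft 0 = sch F := by simp only [hFt, g0, ContinuousLinearMap.one_apply]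
  have e2 := Lie.der (a := fun _ => 0) (F := sch F) (Ft := Ft)
    (F' := sch fun z => fderiv ℝ F z (tri (s' • 1 + mat w) z)) hg (hasDerivAt_const _ _) g0 rfl
    (e1.mono fun t k z => by rw [k, add_zero, sch_app hF]) fun z => by
      rw [sch_app (dc_der hF _), add_zero, show (sch F : _ → ℂ) = F from funext (sch_app hF)]
  have e3 : ∀ I J K, HasDerivAt (fun t => c.t I J K (Ft t))
      (c.t I J K (sch fun z => fderiv ℝ F z (tri (s' • 1 + mat w) z))) 0 := fun I J K =>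
    hasDerivAt_iff_tendsto_slope_zero.2 ((((c.t I J K).continuous.tendsto _).comp e2).congr
      fun t => by simp [F0])
  have e4 := HasDerivAt.fun_sum (u := Finset.univ) fun I' _ => HasDerivAt.fun_sum
    (u := Finset.univ) fun J' _ => HasDerivAt.fun_sum (u := Finset.univ) fun K' _ =>
      (((L2_der' hL L0 I' I).fun_mul (L2_der' hL L0 J' J)).fun_mul (L2_der' hL L0 K' K)).fun_mul
        (e3 I' J' K')
  have e5 := (e4.unique ((hasDerivAt_const 0 (c.t I J K (sch F))).congr_of_eventuallyEq (by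
    filter_upwards [e1, hI, hs.continuousAt.eventually (lt_mem_nhds (s0.symm ▸ one_pos))]
      with t k1 k2 k3
    exact (c.hTP.cov (s t) (L t) 0 I J K (sch F) (Ft t) k3 k2 (fun x y z => by
      simp only [k1, sch_app hF, sim_mat, tri_app, ContinuousLinearMap.smul_apply])
      (h.imp (· t) fun k => by rwa [show (sch F : _ → ℂ) = F from funext (sch_app hF)])).symm)))
  rw [← e5]
  simp only [L0, L2_one, F0, add_mul, Finset.sum_add_distrib, ite_mul, mul_ite, one_mul, zero_mul,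
    mul_one, mul_zero, Finset.sum_ite_eq', Finset.mem_univ, if_true, Finset.sum_ite_irrel,
    Finset.sum_const_zero]
  ring

variable {g : V → ℂ} {φ ψ : V × V → ℂ} {ρ0 : V → ℝ} {I J K : I2}

/-- the reduced distribution, components -/
def tau (ρ0 : V → ℝ) (I J K : I2) (ψ : V × V → ℂ) : ℂ := c.t I J K (sch (lf (cx ρ0) ψ))

/-- the reduced distribution -/
def Lam (ρ0 : V → ℝ) (φ : V × V → ℂ) (S : P9) : ℂ :=
  ∑ I, ∑ J, ∑ K, tau c ρ0 I J K fun z => φ z * ev8 (d6 I J K S) z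

theorem lam_eq (S : P9) : Lam c ρ0 φ S =
    ∑ I, ∑ J, ∑ K, tau c ρ0 I J K fun z => φ z * ev8 (d6 I J K S) z := rfl

theorem tau_lin (h : Tst ρ0) (hφ : Dc φ) (hψ : Dc ψ) (a : ℂ) :
    tau c ρ0 I J K (fun z => φ z + a * ψ z) = tau c ρ0 I J K φ + a * tau c ρ0 I J K ψ := by
  rw [tau, tau, tau, ← smul_eq_mul, ← map_smul, ← map_add,
    ← sch_lin (dc_lf (dc_cx h) hφ) (dc_lf (dc_cx h) hψ)]
  exact congrArg (fun F => c.t I J K (sch F)) (funext fun z => by simp only [lf]; ring)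

theorem tau_zero (h : Tst ρ0) : tau c ρ0 I J K (fun _ => 0) = 0 := by
  simpa using tau_lin c (I := I) (J := J) (K := K) h dc_zero dc_zero (-1)

theorem tau_smul (h : Tst ρ0) (hψ : Dc ψ) (a : ℂ) :
    tau c ρ0 I J K (fun z => a * ψ z) = a * tau c ρ0 I J K ψ := by
  simpa [tau_zero c h] using tau_lin c (I := I) (J := J) (K := K) h dc_zero hψ a

theorem tau_add (h : Tst ρ0) (hφ : Dc φ) (S S' : P9) :
    tau c ρ0 I J K (fun z => φ z * ev8 (S + S') z) =
      tau c ρ0 I J K (fun z => φ z * ev8 S z) + tau c ρ0 I J K fun z => φ z * ev8 S' z := by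
  simpa only [one_mul, ← mul_add, ← ev8_add] using tau_lin c (I := I) (J := J) (K := K) h
    (dc_mul hφ (ev8_smooth S)) (dc_mul hφ (ev8_smooth S')) 1

theorem tau_C (h : Tst ρ0) (hφ : Dc φ) (a : ℂ) (S : P9) :
    tau c ρ0 I J K (fun z => φ z * ev8 (C a * S) z) =
      a * tau c ρ0 I J K fun z => φ z * ev8 S z := by
  simpa only [ev8_mul, ev8_C, mul_left_comm] using tau_smul c (I := I) (J := J) (K := K) h
    (dc_mul hφ (ev8_smooth S)) a

theorem tau_sum {ι : Type} (t : Finset ι) (h : Tst ρ0) (hφ : Dc φ) (S : ι → P9) :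
    tau c ρ0 I J K (fun z => φ z * ev8 (∑ i ∈ t, S i) z) =
      ∑ i ∈ t, tau c ρ0 I J K fun z => φ z * ev8 (S i) z := by
  classical
  induction t using Finset.induction_on with
  | empty => simpa [ev8] using tau_zero c h
  | insert i t hi ih => rw [Finset.sum_insert hi, Finset.sum_insert hi, tau_add c h hφ, ih]

variable {c}

theorem fib2 [Fact c.tp] (h : Tst ρ0) (h1 : ∫ x, ρ0 x = 1) (hg : Dc g) (hψ : Dc ψ) :
    c.t I J K (sch (lf g ψ)) = (∫ y, g y) * tau c ρ0 I J K ψ := by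
  rw [(fib0 c ρ0 I J K _ h h1 (dc_lf hg hψ)), ← tau_smul c h hψ]
  exact congrArg (fun F => c.t I J K (sch F)) (funext fun z => by
    simp only [lf, dq_app, add_sub_cancel_left, integral_mul_const, cx])

theorem fib1 [Fact c.tp] (h : Tst ρ0) (h1 : ∫ x, ρ0 x = 1) (hψ : Dc ψ) :
    c.t I J K (sch fun z : V × V × V => cx ρ0 z.1 * ψ (dq z)) = tau c ρ0 I J K ψ := by
  rw [(fib0 c ρ0 I J K _ h h1 (dc_lf1 (dc_cx h) hψ))]
  refine congrArg (fun F => c.t I J K (sch F)) (funext fun z => ?_)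
  simp only [lf, dq_app, add_sub_cancel_left, integral_mul_const]
  rw [integral_add_right_eq_self (cx ρ0), show ∫ y, cx ρ0 y = 1 by
    rw [← Complex.ofReal_one, ← h1]; exact integral_ofReal, one_mul]
  rfl

theorem tau_inf [Fact c.tp] (h : Tst ρ0) (h1 : ∫ x, ρ0 x = 1) {s : ℝ → ℝ} {L : ℝ → Ix → V}
    {s' : ℝ} {w : Ix → V} (hs : HasDerivAt s s' 0) (hL : HasDerivAt L w 0) (s0 : s 0 = 1)
    (L0 : L 0 = GF.one) (hI : ∀ᶠ t in 𝓝 (0 : ℝ), IsLor (L t)) (hw : ∀ n, w n n = 0) (hψ : Dc ψ)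
    (h0 : (∀ t, s t = 1) ∨ (0 : V × V) ∉ tsupport ψ) (I J K : I2) :
    tau c ρ0 I J K (fun y => fderiv ℝ ψ y ((s' • 1 + mat w).prodMap (s' • 1 + mat w) y)) +
      (∑ M, l2 w M I * tau c ρ0 M J K ψ + ∑ M, l2 w M J * tau c ρ0 I M K ψ +
        ∑ M, l2 w M K * tau c ρ0 I J M ψ) = 4 * s' * tau c ρ0 I J K ψ := by
  have k := inf c hs hL s0 L0 hI (dc_lf (dc_cx h) hψ) (h0.imp id fun k x => by
    rw [notMem_tsupport_iff_eventuallyEq] at k ⊢
    exact ((dq.continuous.tendsto' (x, x, x) 0 (by simp [dq_app])).eventually k).mono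
      fun z e => by simp only [lf, e, Pi.zero_apply, mul_zero]) I J K
  rw [funext (lf_der (dc_cx h) hψ _), sch_lin (dc_lf (dc_cx h) (dc_der hψ _))
    (dc_lf (dc_der (dc_cx h) _) hψ), one_smul, map_add, fib2 h h1 (dc_der (dc_cx h) _) hψ,
    int_der (dc_cx h), show ∫ y, cx ρ0 y = 1 by
      rw [← Complex.ofReal_one, ← h1]; exact integral_ofReal] at k
  have e : ∑ n, (((s' • 1 + mat w : V →L[ℝ] V) (bas n 1) n : ℝ) : ℂ) = 4 * s' := by
    simp [mat_bas, hw, bas]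
  rw [e] at k
  simp only [tau] at k ⊢
  linear_combination k

theorem mul_der (hφ : Dc φ) (S : P9) (z y : V × V) : fderiv ℝ (fun z => φ z * ev8 S z) z y =
    fderiv ℝ φ z y * ev8 S z + 1 * (φ z * fderiv ℝ (ev8 S) z y) := by
  rw [fderiv_fun_mul (hφ.1.differentiable (by simp) z) (ev8_diff S z)]
  simp only [ContinuousLinearMap.add_apply, ContinuousLinearMap.smul_apply, smul_eq_mul]
  ring

theorem tau12 [Fact c.tp] (h : Tst ρ0) (h1 : ∫ x, ρ0 x = 1) (hψ : Dc ψ) :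
    tau c ρ0 I J K (fun z => ψ (-z.1, z.2 - z.1)) = tau c ρ0 J I K ψ := by
  have k := dc_inj hψ ((-ContinuousLinearMap.fst ℝ V V).prod (.snd ℝ V V - .fst ℝ V V))
    fun ⟨x, y⟩ e => by
      obtain ⟨k1, k2⟩ := Prod.mk_eq_zero.1 e
      obtain rfl : x = 0 := by simpa using k1
      simpa using k2
  rw [← fib1 h h1 hψ]
  refine c.hTP.swap1 I J K _ _ fun x y z => ?_
  rw [sch_app (dc_lf1 (dc_cx h) hψ)]
  refine Eq.trans ?_ (sch_app (dc_lf (dc_cx h) k) _).symm
  simp [lf, dq_app]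

theorem tau13 [Fact c.tp] (h : Tst ρ0) (hψ : Dc ψ) :
    tau c ρ0 I J K (fun z => ψ (z.2, z.1)) = tau c ρ0 K J I ψ := by
  have k := dc_lf (dc_cx h) (dc_inj hψ ((ContinuousLinearMap.snd ℝ V V).prod (.fst ℝ V V))
    fun ⟨x, y⟩ e => Prod.mk_eq_zero.2 (Prod.mk_eq_zero.1 e).symm)
  let e1 : (V × V × V) ≃L[ℝ] V × V × V := (ContinuousLinearEquiv.prodAssoc ℝ V V V).symm.trans
    (((ContinuousLinearEquiv.prodComm ℝ V V).prodCongr (.refl ℝ V)).trans (.prodAssoc ℝ V V V))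
  let e2 : (V × V × V) ≃L[ℝ] V × V × V :=
    (ContinuousLinearEquiv.refl ℝ V).prodCongr (.prodComm ℝ V V)
  let F : S3 := sch (lf (cx ρ0) fun z => ψ (z.2, z.1))
  let F1 := SchwartzMap.compCLMOfContinuousLinearEquiv ℂ e1 F
  let F2 := SchwartzMap.compCLMOfContinuousLinearEquiv ℂ e2 F1
  refine (c.hTP.swap1 I J K F F1 fun _ _ _ => rfl).trans ((c.hTP.swap2 J I K F1 F2
    fun _ _ _ => rfl).trans (c.hTP.swap1 J K I F2 _ fun x y z => ?_))
  rw [sch_app (dc_lf (dc_cx h) hψ)]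
  exact (sch_app k (z, y, x)).symm

/-- row RES.red -/
theorem red_row [Fact c.tp] (h : Tst ρ0) (h1 : ∫ x, ρ0 x = 1) : RD0 (Lam c ρ0) := by
  have dm : ∀ {φ : V × V → ℂ} (S : P9), Dc φ → Dc fun z => φ z * ev8 S z :=
    fun S k => dc_mul k (ev8_smooth S)
  refine ⟨⟨fun φ ψ a S hφ hψ => ?_, fun φ a S S' hφ => ?_, fun φ n S hφ h0 hS => ?_,
    fun w φ S hw hφ => ?_⟩, fun φ S hφ => ?_, fun φ S hφ => ?_, fun φ S hφ => ?_⟩
  · simp only [lam_eq, add_mul, mul_assoc, tau_lin c h (dm _ hφ) (dm _ hψ), Finset.sum_add_distrib,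
      Finset.mul_sum]
  · simp only [lam_eq, d6_lin, tau_add c h hφ, tau_C c h hφ, Finset.sum_add_distrib, Finset.mul_sum]
  · simp only [lam_eq, Finset.mul_sum]
    refine Finset.sum_congr rfl fun I _ => Finset.sum_congr rfl fun J _ =>
      Finset.sum_congr rfl fun K _ => ?_
    have k := tau_inf (c := c) h h1 (s := fun t => 1 + t) (L := fun _ => GF.one)
      ((hasDerivAt_id' 0).const_add 1) (hasDerivAt_const _ _) (add_zero _) rfl
      (by
        obtain ⟨L, -, l1, l2⟩ := ex_flow (w := 0) fun _ _ => by simp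
        exact .of_forall fun _ => l1 ▸ l2.self_of_nhds)
      (fun _ => rfl) (dm (d6 I J K S) hφ) (.inr fun k => h0 (tsupport_mul_subset_left k)) I J K
    have e : ∀ z, fderiv ℝ (fun z => φ z * ev8 (d6 I J K S) z) z
        ((((1 : ℝ) • 1 + mat 0 : V →L[ℝ] V).prodMap ((1 : ℝ) • 1 + mat 0)) z) =
        Ef φ z * ev8 (d6 I J K S) z + n * (φ z * ev8 (d6 I J K S) z) := fun z => by
      rw [show (((1 : ℝ) • 1 + mat 0 : V →L[ℝ] V).prodMap ((1 : ℝ) • 1 + mat 0)) z = z by simp,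
        mul_der hφ, one_mul, ← Ef, ← Ef, ev8_E (d6_deg hS I J K), mul_left_comm]
    rw [funext e, tau_lin c h (dm _ (show Dc (Ef φ) from dc_der hφ 1)) (dm _ hφ)] at k
    simp only [l2, Pi.zero_apply, zero_mul, mul_zero, add_zero, Complex.ofReal_zero,
      Finset.sum_const_zero, Complex.ofReal_one] at k
    push_cast
    linear_combination k
  · obtain ⟨L, l0, l1, l2⟩ := ex_flow hw
    have k := fun I J K I' J' K' => tau_inf (c := c) h h1 (s := fun _ => 1) (hasDerivAt_const _ _) l0 rfl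
      l1 l2 (fun n => by
        have := hw n n
        have e : eta n ≠ 0 := by unfold eta; split_ifs <;> norm_num
        exact (mul_eq_zero.1 (by linarith)).resolve_left e) (dm (d6 I' J' K' S) hφ)
      (.inl fun _ => rfl) I J K
    have e0 : ∀ z : V × V, (((0 : ℝ) • 1 + mat w : V →L[ℝ] V).prodMap ((0 : ℝ) • 1 + mat w)) z =
        (sim 1 w 0 z.1, sim 1 w 0 z.2) := fun z => by simp [sim_mat, Prod.map]
    have hX : Dc (Xf w φ) := by
      have := dc_der hφ (((0 : ℝ) • 1 + mat w).prodMap ((0 : ℝ) • 1 + mat w))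
      simp only [e0] at this
      exact this
    have e : ∀ (R : P9) z, fderiv ℝ (fun z => φ z * ev8 R z) z
        ((((0 : ℝ) • 1 + mat w : V →L[ℝ] V).prodMap ((0 : ℝ) • 1 + mat w)) z) =
        Xf w φ z * ev8 R z + 1 * (φ z * ev8 (om w R) z) := fun R z => by
      rw [e0, mul_der hφ, ev8_om]
      rfl
    simp only [e, tau_lin c h (dm _ hX) (dm _ hφ)] at k
    simp only [one_mul, Complex.ofReal_zero, mul_zero, zero_mul] at k
    have s := Finset.sum_eq_zero (s := Finset.univ) fun I _ => Finset.sum_eq_zero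
      (s := Finset.univ) fun J _ => Finset.sum_eq_zero (s := Finset.univ) fun K _ => k I J K I J K
    simp only [lam_eq, d6_om, tau_add c h hφ, tau_sum c _ h hφ, tau_C c h hφ,
      Finset.sum_add_distrib] at s ⊢
    rw [← s, add_assoc, sw4 fun I M J K => RS.l2 w I M * tau c ρ0 I J K fun z =>
        φ z * ev8 (d6 M J K S) z,
      Finset.sum_congr rfl fun I _ => sw3 fun J M K => RS.l2 w J M * tau c ρ0 I J K fun z =>
        φ z * ev8 (d6 I M K S) z,
      Finset.sum_congr rfl fun I _ => Finset.sum_congr rfl fun J _ => Finset.sum_comm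
        (f := fun K M => RS.l2 w K M * tau c ρ0 I J K fun z => φ z * ev8 (d6 I J M S) z)]
    simp only [add_assoc]
  · simp only [lam_eq, d6_s12, ev8_s12]
    rw [Finset.sum_comm]
    simp only [fun I J K => tau12 (c := c) (I := J) (J := I) (K := K) h h1 (dm (d6 I J K S) hφ)]
  · simp only [lam_eq, d6_s13, ev8_s13]
    rw [sw3 fun I K J => tau c ρ0 I J K fun z => φ (z.2, z.1) * ev8 (d6 K J I S) (z.2, z.1)]
    simp only [fun I J K => tau13 (c := c) (I := K) (J := J) (K := I) h (dm (d6 I J K S) hφ)]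

  · simp only [lam_eq, ev8_tr, mul_left_comm (φ _), tau_smul c h (dm _ hφ)]
    rw [Finset.sum_comm]
    refine Finset.sum_eq_zero fun J _ => ?_
    rw [Finset.sum_comm]
    refine Finset.sum_eq_zero fun K _ => ?_
    simpa [Fintype.sum_prod_type, tau] using DFunLike.congr_fun (c.hTP.trc J K)
      (sch (lf (cx ρ0) fun z => φ z * ev8 (dp 2 3 J (dp 4 5 K S)) z))

end

end Vale.Agent.P352X.ZZ.RS
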