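import Vale.Agent.P352X.R.RES.Spec

/-!
# P352Z, block RES: the algebra of the sources, the abstract rows

Sources are polynomials in nine vectors `g1, h1, g2, h2, g3, h3, w, u, v` (indices `0, ..., 8`);
`g_j`, `h_j` are contracted with the two (lower) indices of slot `j`, `w` is an auxiliary vector,
`u = z1 - z2`, `v = z3 - z2`.
-/

set_option linter.all false

open MeasureTheory Filter Topology
open scoped SchwartzMap ComplexConjugate ENNReal ContDiff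

namespace Vale.Agent.P352X.ZZ.RS

open Vale.Agent.P352 Vale.Agent.P352.GF Vale.Agent.P352.H755
open Vale.Agent.P352X.RS (So wH Ef Xf)
open MvPolynomial (X C pderiv aeval)

noncomputable section

abbrev P9 := MvPolynomial (Fin 9 × Ix) ℂ

/-- `x_j . x_k` -/
def dotP (j k : Fin 9) : P9 := ∑ m, C (eta m : ℂ) * X (j, m) * X (k, m)
/-- `a . x_j` -/
def linP (a : V) (j : Fin 9) : P9 := ∑ m, C ((eta m * a m : ℝ) : ℂ) * X (j, m)

/-- `x_w . ∂_x` -/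
def Dh (w x : Fin 9) : P9 →+ P9 where
  toFun S := ∑ m, X (w, m) * pderiv (x, m) S
  map_zero' := by simp
  map_add' a b := by simp [mul_add, Finset.sum_add_distrib]

/-- `∂_x . ∂_y` -/
def DD (x y : Fin 9) : P9 →+ P9 where
  toFun S := ∑ m, C (eta m : ℂ) * pderiv (x, m) (pderiv (y, m) S)
  map_zero' := by simp
  map_add' a b := by simp [mul_add, Finset.sum_add_distrib]

/-- the weight `Φ0` -/
def Q0 : P9 := (X (7, 2) * X (8, 2) + X (7, 3) * X (8, 3)) * (linP vb 7 - linP vb 8) ^ 4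
/-- `a ⊗ a a ⊗ a Φ0` -/
def S00 : P9 := linP va 0 * linP va 2 * linP va 3 * linP va 4 * Q0
/-- the source `a ∂ ⊗ a a ⊗ a ∂ Φ0` -/
def S0 : P9 := Dh 5 8 (Dh 1 7 S00)
/-- the weights -/
def wt (i : Fin 9 × Ix) : ℕ := if 7 ≤ i.1 then 1 else 0
/-- homogeneous of degree `n` in `(u, v)` -/
def Deg (n : ℕ) (S : P9) : Prop := S.IsWeightedHomogeneous wt n
/-- the action of a matrix on all nine vectors -/
def om (w : Ix → V) (S : P9) : P9 :=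
  ∑ j : Fin 9, ∑ m, ∑ n, C (w m n : ℂ) * X (j, m) * pderiv (j, n) S
/-- renaming of the vectors -/
def rn (σ : Fin 9 → Fin 9) : P9 →ₐ[ℂ] P9 := aeval fun i : Fin 9 × Ix => X (σ i.1, i.2)
/-- exchange of the points 1 and 2 -/
def s12 : P9 →ₐ[ℂ] P9 := aeval fun i : Fin 9 × Ix =>
  ![X (2, i.2), X (3, i.2), X (0, i.2), X (1, i.2), X (4, i.2), X (5, i.2), X (6, i.2), -X (7, i.2),
    X (8, i.2) - X (7, i.2)] i.1
/-- exchange of the points 1 and 3 -/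
def s13 : P9 →ₐ[ℂ] P9 := rn ![4, 5, 2, 3, 0, 1, 6, 8, 7]
/-- exchange of the points 2 and 3 -/
def s23 : P9 →ₐ[ℂ] P9 := aeval fun i : Fin 9 × Ix =>
  ![X (0, i.2), X (1, i.2), X (4, i.2), X (5, i.2), X (2, i.2), X (3, i.2), X (6, i.2),
    X (7, i.2) - X (8, i.2), -X (8, i.2)] i.1
def sym6 (S : P9) : P9 :=
  S + s12 S + s13 S + s12 (s13 S) + s13 (s12 S) + s12 (s13 (s12 S))
/-- exchange of `w` and `g1` -/
def tw : P9 →ₐ[ℂ] P9 := rn ![6, 1, 2, 3, 4, 5, 0, 7, 8]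
/-- exchange of `g1` and `h1` -/
def th : P9 →ₐ[ℂ] P9 := rn ![1, 0, 2, 3, 4, 5, 6, 7, 8]

/-- on-shell part plus gauge part in the third slot -/
def Nl (d : ℕ) (S : P9) : Prop := ∃ Ξ ζ, Deg d Ξ ∧ Deg (d + 1) ζ ∧ DD 8 8 Ξ = 0 ∧
  DD 8 4 (DD 8 5 Ξ) = 0 ∧ S = Ξ + Dh 4 8 ζ

/-- the vector fields of the two divergences: conservation and Bianchi identity -/
def Fm : Bool → P9 → Ix → P9
  | true, Ξ, m => X (0, m) * Ξ
  | false, Ξ, m => C (eta m : ℂ) * pderiv (6, m) Ξ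

/-- the parameters of the Bianchi identity are antisymmetric -/
def Ok : Bool → P9 → Prop
  | true, _ => True
  | false, Ξ => tw Ξ = -Ξ ∧ th Ξ = -Ξ

/-- the two divergences in the first slot -/
def d1 (e : Bool) (Ξ : P9) : P9 := ∑ m, pderiv (7, m) (Fm e Ξ m)

/-- row ALG.1: the source is boost invariant -/
def ALG1 : Prop := Deg 6 S00 ∧ So wH ∧ om wH S00 = 0

/-- row ALG.2: the certificate -/
def ALG2 : Prop := ∃ (N : ℂ) (w : Fin 2 → Ix → V) (S : Fin 2 → P9) (Ξ : Bool → P9)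
  (R A B A' : P9), N ≠ 0 ∧ (∀ i, So (w i) ∧ Deg 4 (S i)) ∧
  (∀ e, Ok e (Ξ e) ∧ Nl 5 (Ξ e) ∧ Nl 5 (s23 (Ξ e))) ∧ Deg 4 R ∧ sym6 R = 0 ∧
  C N * S0 = om (w 0) (S 0) + om (w 1) (S 1) + s12 (d1 true (Ξ true)) + s12 (d1 false (Ξ false)) +
    R + (dotP 0 1 * A + dotP 2 3 * B + dotP 4 5 * A')

/-! ## the reduced distribution -/

/-- evaluation at `g = h = w = 0` -/
def ev8 (S : P9) (z : V × V) : ℂ :=
  aeval (fun i : Fin 9 × Ix => (![0, 0, 0, 0, 0, 0, 0, (z.1 i.2 : ℂ), (z.2 i.2 : ℂ)] i.1 : ℂ)) S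
/-- the components in one slot -/
def dp (j k : Fin 9) (I : I2) (S : P9) : P9 := pderiv (j, I.1) (pderiv (k, I.2) S)
/-- the components of a source -/
def d6 (I J K : I2) (S : P9) : P9 := dp 0 1 I (dp 2 3 J (dp 4 5 K S))
/-- the directions `∂ / ∂ u^m` -/
def eu (m : Ix) : V × V := (bas m 1, 0)
/-- the directions `∂ / ∂ v^m` -/
def ew (m : Ix) : V × V := (0, bas m 1)
/-- directional derivatives -/
def dz (a : V × V) (φ : V × V → ℂ) (z : V × V) : ℂ := fderiv ℝ φ z a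
/-- the divergence of `φ F` -/
def Dv (x : Fin 9) (e : Ix → V × V) (Λ : (V × V → ℂ) → P9 → ℂ) (φ : V × V → ℂ) (F : Ix → P9) : ℂ :=
  ∑ m, (Λ φ (pderiv (x, m) (F m)) + Λ (dz (e m) φ) (F m))
/-- the two divergences in the first slot, applied to `φ Ξ` -/
def Div (e : Bool) (Λ : (V × V → ℂ) → P9 → ℂ) (φ : V × V → ℂ) (Ξ : P9) : ℂ :=
  Dv 7 eu Λ φ (Fm e Ξ)
/-- the gradient of `φ S`, contracted with the vector `j` -/
def Gr (j x : Fin 9) (e : Ix → V × V) (Λ : (V × V → ℂ) → P9 → ℂ) (φ : V × V → ℂ) (S : P9) : ℂ :=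
  Dv x e Λ φ fun m => X (j, m) * S

/-- linearity, homogeneity, invariance -/
structure RD (k : ℕ) (Λ : (V × V → ℂ) → P9 → ℂ) : Prop where
  lin : ∀ φ ψ (a : ℂ) S, Dc φ → Dc ψ → Λ (fun z => φ z + a * ψ z) S = Λ φ S + a * Λ ψ S
  linS : ∀ φ (a : ℂ) S S', Dc φ → Λ φ (S + C a * S') = Λ φ S + a * Λ φ S'
  hom : ∀ φ n S, Dc φ → (0 : V × V) ∉ tsupport φ → Deg n S → Λ (Ef φ) S = (k - n : ℂ) * Λ φ S
  inv : ∀ w φ S, So w → Dc φ → Λ (Xf w φ) S + Λ φ (om w S) = 0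

/-- symmetry, traces -/
structure RD0 (Λ : (V × V → ℂ) → P9 → ℂ) : Prop extends RD 4 Λ where
  s12 : ∀ φ S, Dc φ → Λ (fun z => φ (-z.1, z.2 - z.1)) (s12 S) = Λ φ S
  s13 : ∀ φ S, Dc φ → Λ (fun z => φ (z.2, z.1)) (s13 S) = Λ φ S
  trc : ∀ φ S, Dc φ → Λ φ (dotP 0 1 * S) = 0

/-- the divergences vanish away from `z1 = z2` and `z1 = z3` -/
def DIVC (Λ : (V × V → ℂ) → P9 → ℂ) : Prop := ∀ e φ Ξ, Ok e Ξ → Dc φ →
  tsupport φ ⊆ {z | z.1 ≠ 0 ∧ z.1 ≠ z.2} → Div e Λ φ Ξ = 0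

/-- the contact terms at `z1 = z2` -/
def DIVA (Λ : (V × V → ℂ) → P9 → ℂ) : Prop := ∀ θ : V → ℝ, Cut θ → ∃ ε > 0, ∀ χ : V → ℝ,
  Cut χ → tsupport χ ⊆ Metric.ball 0 ε → ∀ e Ξ, Ok e Ξ → Nl 5 Ξ →
    Div e Λ (fun z => (χ z.1 : ℂ) * Ef (cx θ) z.2) Ξ = 0

/-- the residue of the flow `(0, 2 be, x)` vanishes -/
def RZ (Λ : (V × V → ℂ) → P9 → ℂ) : Prop := ∀ (Θ : V × V → ℂ) (κ : ℂ), Dc Θ →
  (∀ᶠ z in 𝓝 (0 : V × V), Θ z = κ) →
    Gr 1 7 eu (Gr 5 8 ew Λ) (fun z => Ef Θ z - Xf wH Θ z) S00 = 0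

end

end Vale.Agent.P352X.ZZ.RS
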